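import Vale.Agent.P112.H526.T4n
import Vale.Agent.P112.T.ForestA

/-!
# P112, T4(ii): the literal statements of `T/ForestA.lean`
-/

open MeasureTheory Set Metric
open scoped ENNReal NNReal Topology

namespace Vale.Agent.P112.H526

open Vale.Agent.P112.HL Vale.Agent.P112.T

lemma Tu_eq (v : ℝ) (j : ℕ) (z : ℝ × ℝ) : Tu v j z = Tube z v (2 / 2 ^ j) 2 := by
  ext ζ
  unfold Tu Tube
  simp only [mem_ofPred_eq]
  rw [show ζ.2 - v * ζ.1 - (z.2 - v * z.1) = ζ.2 - z.2 - v * (ζ.1 - z.1) by ring]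

lemma CFor_le {B : ℝ} (hB : 1 ≤ B) : CFor B 2 2 ≤ ENNReal.ofReal B * CFor 1 2 2 := by
  unfold CFor
  have h : ENNReal.ofReal (8 * 2 * (2 + 2 + 1) * (2 * 3 * (4 * (B + 1)))) ≤
      ENNReal.ofReal B * ENNReal.ofReal (8 * 2 * (2 + 2 + 1) * (2 * 3 * (4 * (1 + 1)))) := by
    rw [← ENNReal.ofReal_mul (by linarith)]
    refine ENNReal.ofReal_le_ofReal ?_
    nlinarith
  calc _ ≤ (ENNReal.ofReal B * ENNReal.ofReal (8 * 2 * (2 + 2 + 1) * (2 * 3 * (4 * (1 + 1))))) *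
        (ENNReal.ofReal (3 * Real.pi)) ^ (1 / 2 : ℝ) * (CM 2 * CM 2) ^ (1 / 2 : ℝ) := by gcongr
    _ = _ := by simp only [mul_assoc]

theorem stIi (A : ℝ) (hA : 0 ≤ A) : StIi A := by
  refine ⟨(CFor 1 2 2).toReal + 1, by positivity, ?_⟩
  intro N τ u hN hu n ι _ _ s c lev m E W B Q hW hB hQ hF i' G hG
  have hB1 : 1 ≤ B := by linarith
  set P : ι → ℕ → Set (ℝ × ℝ) := fun i j => {z | z ∈ PS u τ B s c lev m E i' i j ∧ lev i' ≤ j}
    with hP
  have hmain := forestN_enn hN hu hF (by linarith : (0 : ℝ) ≤ B) hQ i' P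
    (fun i _ j _ z hz => ⟨hz.1.1, hz.2, hz.1.2⟩) (L := 2) (a := 2) (by norm_num) (by norm_num) hG
  have h1 : ∑ i ∈ Finset.univ.erase i', ∑ j ∈ (Finset.range n).filter (fun j => lev i' ≤ j),
      ∫⁻ z in PS u τ B s c lev m E i' i j,
        ENNReal.ofReal ((2 ^ j / (N * |u z - s i'|)) ^ 2) *
          (ENNReal.ofReal (2 ^ j) * ∫⁻ ζ in Tu (u z) j z, G ζ) ≤
      ∑ j ∈ Finset.range n, ∑ i ∈ Finset.univ.erase i', ∫⁻ z in P i j,
        ENNReal.ofReal ((2 ^ j / (N * |u z - s i'|)) ^ 2) *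
          (ENNReal.ofReal (2 ^ j) * ∫⁻ ζ in Tube z (u z) (2 / 2 ^ j) 2, G ζ) := by
    rw [Finset.sum_comm (s := Finset.range n)]
    refine Finset.sum_le_sum fun i _ => ?_
    rw [Finset.sum_filter]
    refine Finset.sum_le_sum fun j _ => ?_
    by_cases hj : lev i' ≤ j
    · rw [if_pos hj]
      have : P i j = PS u τ B s c lev m E i' i j := by
        ext z
        exact ⟨fun h => h.1, fun h => ⟨h, hj⟩⟩
      rw [this]
      simp only [Tu_eq]
      exact le_rfl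
    · rw [if_neg hj]
      exact zero_le
  refine (h1.trans hmain).trans ?_
  have h2 : ∫⁻ z, G z ^ (2 : ℝ) = ∫⁻ z, G z ^ 2 := by
    refine lintegral_congr fun z => ?_
    rw [ENNReal.rpow_ofNat]
  rw [h2]
  gcongr
  have h3 : CFor 1 2 2 ≤ ENNReal.ofReal ((CFor 1 2 2).toReal + 1) := by
    rw [← ENNReal.ofReal_toReal (CFor_ne_top 1 2 2)]
    refine ENNReal.ofReal_le_ofReal ?_
    rw [ENNReal.ofReal_toReal (CFor_ne_top 1 2 2)]
    linarith
  calc CFor B 2 2 * ENNReal.ofReal (1 / √Q * √((1 / 2 : ℝ) ^ lev i'))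
      ≤ (ENNReal.ofReal B * ENNReal.ofReal ((CFor 1 2 2).toReal + 1)) *
          ENNReal.ofReal (1 / √Q * √((1 / 2 : ℝ) ^ lev i')) := by
        gcongr
        exact (CFor_le hB1).trans (by gcongr)
    _ = ENNReal.ofReal (((CFor 1 2 2).toReal + 1) * B / √Q * √((1 / 2 : ℝ) ^ lev i')) := by
        rw [← ENNReal.ofReal_mul (by positivity), ← ENNReal.ofReal_mul (by positivity)]
        congr 1
        ring

theorem stDom (B : ℝ) (hB : 1 ≤ B) : StDom B := by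
  obtain ⟨C, hC, h⟩ := maxG (B := B) (by linarith)
  refine ⟨C.toReal + 1, by positivity, ?_⟩
  intro s h' hh
  obtain ⟨G0, h1, h2, h3, h4⟩ := h s h' hh.meas
  refine ⟨G0, ⟨h1, h2, h3⟩, h4.trans ?_⟩
  gcongr
  rw [← ENNReal.ofReal_toReal hC]
  refine ENNReal.ofReal_le_ofReal ?_
  rw [ENNReal.ofReal_toReal hC]
  linarith

end Vale.Agent.P112.H526
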