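import Vale.Agent.P112.H526.R0
import Vale.Agent.P112.F30.FF3
import Vale.Agent.P112.H314.F.FC
import Vale.Agent.P112.H540.FD1
import Vale.Agent.P112.H724.FD2
import Vale.Agent.P112.H8.FT

/-!
# P112: the level bound for every subsystem, unconditional theorems
-/

open MeasureTheory Set Filter
open scoped ENNReal

set_option linter.dupNamespace false

namespace Vale.Agent.P112.H526.R0

open T F30

variable {M : ℕ}

/-- One density level, every subsystem `P` of it. -/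
theorem levelP (C0 : ℝ) (h2 : StN2 M 1 C0) (h3 : StN3 M 6 C0) (h4 : StN4 M 1 C0) (κ : Ker M)
    (hκ : κ.Bd 1 C0) (hFF : StFF) (hFC : StFC) (hFD1 : StFD1 4) (hFD2 : StFD2 4)
    (hFT : StFT) : ∃ C : ℝ, 0 < C ∧ ∀ (u : ℝ × ℝ → ℝ), Field u →
      ∀ (n ν : ℕ) (g : ℝ × ℝ → ℝ) (P : ℕ → Set (ℝ × ℝ)), Nice g → (∀ z, |g z| ≤ 1) →
      PSys n P → (∀ j, P j ⊆ Pd u {z | g z ≠ 0} 4 n ν j) →
      ∫ ζ, (κ.FS u g P n ζ) ^ 2 ≤ C * (9 / 10) ^ ν * (volume {z | g z ≠ 0}).toReal := by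
  obtain ⟨C, hC, hcl⟩ := class_bound C0 6 h2 h3 h4 κ hκ hFF hFT
  obtain ⟨c1, hc1, hFD1⟩ := hFD1
  obtain ⟨c2, hc2, hFD2⟩ := hFD2
  obtain ⟨l0, hl0⟩ := pow_unbounded_of_one_lt (32 * c2) (one_lt_two : (1 : ℝ) < 2)
  obtain ⟨C3, hC3, hnum⟩ := class_num C c1 c2 hC hc1 hc2 l0
  have hcY0 : 0 ≤ 128 * (58 * c2) ^ 2 := by positivity
  obtain ⟨C4, hC4, hsum⟩ := sum_num hC3 hcY0
  refine ⟨C4 ^ 2 * 64, by positivity, ?_⟩
  intro u hu n ν g P hg hg1 hPS hPP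
  obtain ⟨hEm, hEb, hEfin⟩ := supp_facts hg
  obtain ⟨κ', hκ'f, T, hXV, htop⟩ := level_tops hc2 hFD2 hu hEm hEb hEfin n ν
  obtain ⟨-, -, -, hD, -⟩ := hFD1 u hu {z | g z ≠ 0} hEm hEb n ν
  obtain ⟨R, cl, hR, hps, hct, hsub, hvol⟩ :=
    level_classes hFC hc2 κ hu hg T P hPS hXV (fun j z hz => htop j z (hPP j hz))
  set V := (volume {z | g z ≠ 0}).toReal with hV
  have hV0 : 0 ≤ V := ENNReal.toReal_nonneg
  have hX0 : 0 ≤ ∑ m, (1 / 2 : ℝ) ^ T.j m := Finset.sum_nonneg fun m _ => by positivity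
  have hWV : ∀ i, (volume (Un (cl i) n)).toReal ≤ V := fun i =>
    ENNReal.toReal_mono hEfin.ne (measure_mono (by
      rintro z ⟨j, _, hz⟩
      exact (hPP j (hsub i j hz)).1))
  have hWdec : ∀ i, 16 * ν < i → (volume (Un (cl i) n)).toReal ≤
      128 * (58 * c2) ^ 2 * (2 / 3) ^ (i - 1 - 16 * ν) * V := fun i hi =>
    dec_num hcY0 hV0 ν i hi (hvol i)
  have hb := bt_pos
  have hbν : 1 ≤ bt ^ (ν + 1) := one_le_pow₀ one_le_bt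
  have hclass : ∀ i, nrm (κ.FS u g (cl i) n) ≤
      C3 * (bt ^ ν)⁻¹ * (√√((volume (Un (cl i) n)).toReal) * √√V) := by
    intro i
    have := hcl u hu n (cl i) (c1 * (1 / 2) ^ ν) (2 * c2 * bt ^ (ν + 1)) (2 ^ (4 * ν))
      (8 * (1 + 2 * c2 * bt ^ (ν + 1) + 2 ^ (4 * ν))) (ν + l0) (4 * ν + 4) (by positivity)
      (hps i) (DensN_mono hD fun j _ => (hsub i j).trans (hPP j)) (hct i) (by nlinarith)
      (one_le_pow₀ (by norm_num)) le_rfl ?_ ?_ (by omega)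
      κ' T (fun j z hz => htop j z (hPP j (hsub i j hz))) g hg hg1
    · exact this.trans (hnum ν V _ _ ENNReal.toReal_nonneg (hWV i) hX0 hXV)
    · have e18 : bt ^ ν ≤ 2 ^ ν := pow_le_pow_left₀ bt_pos.le bt_le ν
      have e19 : bt ^ (ν + 1) ≤ 2 * 2 ^ ν := by
        rw [pow_succ, mul_comm]
        have := bt_le
        gcongr
      calc 8 * (2 * c2 * bt ^ (ν + 1)) = 16 * c2 * bt ^ (ν + 1) := by ring
        _ ≤ 16 * c2 * (2 * 2 ^ ν) := by gcongr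
        _ = 32 * c2 * 2 ^ ν := by ring
        _ ≤ 2 ^ l0 * 2 ^ ν := by gcongr
        _ = 2 ^ (ν + l0) := by rw [pow_add]; ring
    · rw [pow_add]
      have : (0 : ℝ) < 2 ^ (4 * ν) := by positivity
      nlinarith
  have htot : nrm (κ.FS u g P n) ≤ C4 * (((ν : ℝ) + 1) * (bt ^ ν)⁻¹) * √V :=
    (hR.trans (Finset.sum_le_sum fun i _ => hclass i)).trans
      (hsum ν R V _ hV0 hWV hWdec)
  refine (sq_of_nrm htot).trans ?_
  rw [mul_pow, mul_pow, Real.sq_sqrt hV0]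
  calc C4 ^ 2 * (((ν : ℝ) + 1) * (bt ^ ν)⁻¹) ^ 2 * V ≤ C4 ^ 2 * (64 * (9 / 10) ^ ν) * V := by
        gcongr
        exact bern2 ν
    _ = _ := by ring

/-- One density level, every subsystem `P` of it: unconditional. -/
theorem r0νP (hM : 8 ≤ M) (κ : Ker M) : ∃ C : ℝ, 0 < C ∧ ∀ (u : ℝ × ℝ → ℝ), Field u →
      ∀ (n ν : ℕ) (g : ℝ × ℝ → ℝ) (P : ℕ → Set (ℝ × ℝ)), Nice g → (∀ z, |g z| ≤ 1) →
      PSys n P → (∀ j, P j ⊆ Pd u {z | g z ≠ 0} 4 n ν j) →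
      ∫ ζ, (κ.FS u g P n ζ) ^ 2 ≤ C * (9 / 10) ^ ν * (volume {z | g z ≠ 0}).toReal := by
  obtain ⟨C0, hκ⟩ := exists_Bd κ
  exact levelP C0 (tN2 M 1 C0 le_rfl) (tN3 M 6 C0 (by omega)) (tN4 M 1 C0 (by omega) le_rfl) κ hκ
    stFF FW.stFC (H540.stFD1 4) (H724.stFD2 4) H8.stFT

/-- (R0ν), unconditional. -/
theorem r0ν (hM : 8 ≤ M) (κ : Ker M) : StR0ν κ :=
  r0ν_of hM κ stFF FW.stFC (H540.stFD1 4) (H724.stFD2 4) H8.stFT

/-- (R0), unconditional. -/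
theorem r0 (hM : 8 ≤ M) (κ : Ker M) : StR0 κ :=
  r0_of hM κ stFF FW.stFC (H540.stFD1 4) (H724.stFD2 4) H8.stFT

end Vale.Agent.P112.H526.R0
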