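import Vale.Agent.P112.H526.R0g
import Vale.Agent.P112.T.Final

/-!
# P112, assembly of (F) and (T): `StR0ν` and `StR0` from the statements of chapter (F)
-/

open MeasureTheory Set Filter Topology
open scoped ENNReal ContDiff

set_option linter.dupNamespace false

namespace Vale.Agent.P112.H526.R0

open T F30

variable {M : ℕ}

theorem iter_supp {f : ℝ → ℝ} {r : ℝ} (h : ∀ t, r ≤ |t| → f t = 0) (a : ℕ) (t : ℝ)
    (ht : r < |t|) : iteratedDeriv a f t = 0 := by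
  have h1 : f =ᶠ[𝓝 t] fun _ => 0 := by
    have ho : IsOpen {t : ℝ | r < |t|} := isOpen_lt continuous_const continuous_abs
    filter_upwards [ho.mem_nhds ht] with x hx using h x (le_of_lt hx)
  have h2 := h1.iteratedDeriv_eq (n := a)
  rw [h2, iteratedDeriv_const]
  split_ifs <;> rfl

theorem iter_bdd {f : ℝ → ℝ} (hf : ContDiff ℝ ∞ f) {r : ℝ} (h : ∀ t, r ≤ |t| → f t = 0)
    (m : ℕ) : ∃ C : ℝ, 0 ≤ C ∧ ∀ a ≤ m, ∀ t, |iteratedDeriv a f t| ≤ C := by
  induction m with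
  | zero =>
    obtain ⟨C, hC, h1⟩ := bdd_of_cont_supp
      (hf.continuous_iteratedDeriv 0 (by exact_mod_cast le_top)) (r := r) (iter_supp h 0)
    exact ⟨C, hC.le, fun a ha t => by rw [Nat.le_zero.1 ha]; exact h1 t⟩
  | succ m ih =>
    obtain ⟨C, hC, h1⟩ := ih
    obtain ⟨C', hC', h2⟩ := bdd_of_cont_supp
      (hf.continuous_iteratedDeriv (m + 1) (by exact_mod_cast le_top)) (r := r)
      (iter_supp h (m + 1))
    refine ⟨max C C', le_max_of_le_left hC, fun a ha t => ?_⟩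
    rcases Nat.lt_or_ge m a with h3 | h3
    · have : a = m + 1 := by omega
      rw [this]
      exact (h2 t).trans (le_max_right _ _)
    · exact (h1 a h3 t).trans (le_max_left _ _)

/-- Every kernel has frequency `1`, with some constant. -/
theorem exists_Bd (κ : Ker M) : ∃ C0 : ℝ, κ.Bd 1 C0 := by
  obtain ⟨C, hC, h1⟩ := iter_bdd κ.smoothΦ κ.suppΦ (2 * M + 2)
  obtain ⟨C', hC', h2⟩ := iter_bdd κ.smoothK κ.suppK (2 * M + 2)
  refine ⟨max C C', le_rfl, fun a ha t => ?_, fun a ha t => ?_⟩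
  · rw [one_pow, one_pow, mul_one, div_one]
    exact (h1 a ha t).trans (le_max_left _ _)
  · exact (h2 a ha t).trans (le_max_right _ _)

/-- (R0ν) from chapter (F). -/
theorem r0ν_of (hM : 8 ≤ M) (κ : Ker M) (hFF : StFF) (hFC : StFC) (hFD1 : StFD1 4)
    (hFD2 : StFD2 4) (hFT : StFT) : StR0ν κ := by
  obtain ⟨C0, hκ⟩ := exists_Bd κ
  exact stR0ν C0 (tN2 M 1 C0 le_rfl) (tN3 M 6 C0 (by omega)) (tN4 M 1 C0 (by omega) le_rfl) κ hκ
    hFF hFC hFD1 hFD2 hFT

/-- (R0) from chapter (F). -/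
theorem r0_of (hM : 8 ≤ M) (κ : Ker M) (hFF : StFF) (hFC : StFC) (hFD1 : StFD1 4)
    (hFD2 : StFD2 4) (hFT : StFT) : StR0 κ := by
  obtain ⟨C0, hκ⟩ := exists_Bd κ
  exact stR0 C0 (tN3 M 6 C0 (by omega)) κ hκ hFD1 (r0ν_of hM κ hFF hFC hFD1 hFD2 hFT)

end Vale.Agent.P112.H526.R0
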