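import Vale.Agent.P112.H526.GTree
import Vale.Agent.P112.H540.Gain.Fin
import Vale.Agent.P112.H8.Bx0D
import Vale.Agent.P112.H864.Osc
import Vale.Agent.P112.H967.LqS
import Vale.Agent.P112.H919.Prim

/-!
# [GAIN]: everything except `StSq`, `StArcs`, `StAna`
-/

namespace Vale.Agent.P112.H526.GAsm

open T H646.Gain

variable {M : ℕ}

/-- `R2.StGain` from the three last Props. -/
theorem stGain_of_rest (hM : 1 ≤ M) (κ : Ker M) (hSq : StSq) (hArc : StArcs) (hAna : StAna) :
    R2.StGain κ :=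
  H540.Gain.stGain_of κ
    (stTree_of κ (H8.B0.stBox0 κ) (H864.stOsc κ) hSq hArc (HL.stLq κ) (H919.stPrim hM κ)) hAna

end Vale.Agent.P112.H526.GAsm
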