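import Vale.Agent.P112.H526.R0P
import Vale.Agent.P112.F30.R0P

/-!
# P112: `StR0νP` and `StR0P`, unconditional
-/

set_option linter.dupNamespace false

namespace Vale.Agent.P112.H526.R0

open T F30

variable {M : ℕ}

/-- (R0ν) for every system inside the density level. -/
theorem stR0νP (hM : 8 ≤ M) (κ : Ker M) : StR0νP κ := r0νP hM κ

/-- (R0) for every system of points of the support. -/
theorem stR0P (hM : 8 ≤ M) (κ : Ker M) : StR0P κ :=
  stR0P_of hM (stR0νP hM κ) (H540.stFD1 4)

end Vale.Agent.P112.H526.R0
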