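import Mathlib.MeasureTheory.Integral.MeanInequalities
import Mathlib.MeasureTheory.Integral.Lebesgue.Markov

/-!
# P112: conclusion of the fourth moment argument (abstract form)
-/

open MeasureTheory Set
open scoped ENNReal

namespace Vale.Agent.P112.H526

/-- Cauchy-Schwarz with a gauge: `∫_R G² ≤ (∫_R G⁴ / M²)^(1/2) (∫_R M²)^(1/2)`. -/
theorem gauge_cs {X : Type*} [MeasurableSpace X] (μ : Measure X) {G M : X → ℝ≥0∞}
    (hG : Measurable G) (hM : Measurable M) {R : Set X} (hR : MeasurableSet R)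
    (h0 : ∀ x ∈ R, M x ≠ 0) (h1 : ∀ x ∈ R, M x ≠ ∞) :
    ∫⁻ x in R, G x ^ 2 ∂μ ≤
      (∫⁻ x in R, G x ^ 4 / M x ^ 2 ∂μ) ^ (1 / 2 : ℝ) * (∫⁻ x in R, M x ^ 2 ∂μ) ^ (1 / 2 : ℝ) := by
  have h := ENNReal.lintegral_mul_le_Lp_mul_Lq (μ.restrict R) Real.HolderConjugate.two_two
    (f := fun x => G x ^ 2 / M x) (g := M) (by fun_prop) hM.aemeasurable
  have e1 : ∫⁻ x in R, G x ^ 2 ∂μ = ∫⁻ x in R, ((fun x => G x ^ 2 / M x) * M) x ∂μ := by
    refine setLIntegral_congr_fun hR fun x hx => ?_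
    simp only [Pi.mul_apply]
    rw [ENNReal.div_mul_cancel (h0 x hx) (h1 x hx)]
  have e2 : ∫⁻ x in R, (G x ^ 2 / M x) ^ (2 : ℝ) ∂μ = ∫⁻ x in R, G x ^ 4 / M x ^ 2 ∂μ := by
    refine lintegral_congr fun x => ?_
    rw [ENNReal.rpow_ofNat, div_eq_mul_inv, mul_pow, ← ENNReal.inv_pow, ← div_eq_mul_inv,
      ← pow_mul]
  have e3 : ∫⁻ x in R, M x ^ (2 : ℝ) ∂μ = ∫⁻ x in R, M x ^ 2 ∂μ := by
    refine lintegral_congr fun x => ?_
    rw [ENNReal.rpow_ofNat]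
  rw [e1]
  refine h.trans (le_of_eq ?_)
  rw [e2, e3]

/-- Conclusion of the fourth moment argument: `N` is the counting function, `M` the gauge,
`M ≤ N ^ β` off the bad set and `M ≤ N ^ (3 / 2)` everywhere. -/
theorem conc {X : Type*} [MeasurableSpace X] (μ : Measure X) {G M N : X → ℝ≥0∞}
    (hG : Measurable G) (hM : Measurable M) (hN : Measurable N) {B : Set X} (hB : MeasurableSet B)
    {M0 K : ℝ≥0∞} (hM0 : M0 ≠ 0) (hK : K ≠ ∞) {β : ℝ} (hβ : β ≤ 1)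
    (h0 : ∀ x, M0 < N x → N x ≤ K → M x ≠ 0)
    (hbad : ∀ x, M0 < N x → N x ≤ K → M x ^ 2 ≤ N x ^ 3)
    (hgood : ∀ x, x ∉ B → M0 < N x → N x ≤ K → M x ^ 2 ≤ N x ^ (2 * β)) :
    ∫⁻ x in {x | M0 < N x ∧ N x ≤ K}, G x ^ 2 ∂μ ≤
      (∫⁻ x in {x | M0 < N x ∧ N x ≤ K}, G x ^ 4 / M x ^ 2 ∂μ) ^ (1 / 2 : ℝ) *
        ((M0 ^ (2 * (1 - β)))⁻¹ * ∫⁻ x, N x ^ 2 ∂μ + K ^ 3 * μ B) ^ (1 / 2 : ℝ) := by
  have hR : MeasurableSet {x | M0 < N x ∧ N x ≤ K} :=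
    (measurableSet_lt measurable_const hN).inter (measurableSet_le hN measurable_const)
  have h1 : ∀ x ∈ {x | M0 < N x ∧ N x ≤ K}, M x ≠ ∞ := by
    rintro x ⟨hx1, hx2⟩ h
    have h2 := hbad x hx1 hx2
    rw [h] at h2
    have h3 : N x ^ 3 ≤ K ^ 3 := pow_le_pow_left' hx2 3
    have h4 : (∞ : ℝ≥0∞) ^ 2 = ∞ := by simp
    rw [h4] at h2
    exact (ENNReal.pow_ne_top hK) (top_le_iff.1 (h2.trans h3))
  refine (gauge_cs μ hG hM hR (fun x hx => h0 x hx.1 hx.2) h1).trans ?_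
  gcongr
  have hpt : ∀ x ∈ {x | M0 < N x ∧ N x ≤ K},
      M x ^ 2 ≤ (M0 ^ (2 * (1 - β)))⁻¹ * N x ^ 2 + B.indicator (fun _ => K ^ 3) x := by
    rintro x ⟨hx1, hx2⟩
    by_cases hxB : x ∈ B
    · rw [indicator_of_mem hxB]
      exact (hbad x hx1 hx2).trans ((pow_le_pow_left' hx2 3).trans le_add_self)
    · rw [indicator_of_notMem hxB, add_zero]
      refine (hgood x hxB hx1 hx2).trans ?_
      have hNt : N x ≠ ∞ := ne_top_of_le_ne_top hK hx2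
      have hN0 : N x ≠ 0 := (lt_of_le_of_lt zero_le hx1).ne'
      have hMt : M0 ≠ ∞ := ne_top_of_lt hx1
      have e1 : N x ^ 2 = N x ^ (2 * β) * N x ^ (2 * (1 - β)) := by
        rw [← ENNReal.rpow_add _ _ hN0 hNt, ← ENNReal.rpow_ofNat]
        congr 1
        ring
      have e2 : M0 ^ (2 * (1 - β)) ≤ N x ^ (2 * (1 - β)) :=
        ENNReal.rpow_le_rpow hx1.le (by linarith)
      have e3 : M0 ^ (2 * (1 - β)) ≠ 0 := by
        rw [Ne, ENNReal.rpow_eq_zero_iff]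
        push Not
        exact ⟨fun h => absurd h hM0, fun h => absurd h hMt⟩
      have e4 : M0 ^ (2 * (1 - β)) ≠ ∞ :=
        ENNReal.rpow_ne_top_of_nonneg (by linarith) hMt
      calc N x ^ (2 * β) = (M0 ^ (2 * (1 - β)))⁻¹ * (N x ^ (2 * β) * M0 ^ (2 * (1 - β))) := by
            rw [mul_comm (N x ^ (2 * β)), ← mul_assoc, ENNReal.inv_mul_cancel e3 e4, one_mul]
        _ ≤ (M0 ^ (2 * (1 - β)))⁻¹ * N x ^ 2 := by
            rw [e1]
            gcongr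
  calc ∫⁻ x in {x | M0 < N x ∧ N x ≤ K}, M x ^ 2 ∂μ
      ≤ ∫⁻ x in {x | M0 < N x ∧ N x ≤ K},
          ((M0 ^ (2 * (1 - β)))⁻¹ * N x ^ 2 + B.indicator (fun _ => K ^ 3) x) ∂μ :=
        setLIntegral_mono' hR hpt
    _ ≤ ∫⁻ x, ((M0 ^ (2 * (1 - β)))⁻¹ * N x ^ 2 + B.indicator (fun _ => K ^ 3) x) ∂μ :=
        setLIntegral_le_lintegral _ _
    _ = _ := by
        rw [lintegral_add_left (by fun_prop), lintegral_const_mul _ (by fun_prop),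
          lintegral_indicator_const hB]

end Vale.Agent.P112.H526
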