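import Mathlib.MeasureTheory.Measure.Lebesgue.Basic
import Mathlib.MeasureTheory.Measure.Prod
import Mathlib.MeasureTheory.Integral.Lebesgue.Basic

/-!
# P112: edges of tubes

The tube over `[a, b]` around the line `y = c + s x` of half width `B`. Moving a point by
`t (1, σ)`, `|t| ≤ X`, changes the membership only for points near the edges.
-/

open MeasureTheory Set
open scoped ENNReal

namespace Vale.Agent.P112.H526

/-- The tube over `[a, b]`. -/
def TB (a b c s B : ℝ) : Set (ℝ × ℝ) := {z | z.1 ∈ Icc a b ∧ |z.2 - c - s * z.1| ≤ B}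

/-- The edges of the tube, `h` = thickness in `x`, `δ` = thickness in the offset. -/
def Edge (a b c s B h δ : ℝ) : Set (ℝ × ℝ) :=
  {z | (|z.1 - a| ≤ h ∨ |z.1 - b| ≤ h) ∧ |z.2 - c - s * z.1| ≤ B + δ} ∪
    {z | z.1 ∈ Icc (a - h) (b + h) ∧ B - δ ≤ |z.2 - c - s * z.1| ∧
      |z.2 - c - s * z.1| ≤ B + δ}

lemma measurableSet_TB (a b c s B : ℝ) : MeasurableSet (TB a b c s B) := by
  have h : Measurable fun z : ℝ × ℝ => |z.2 - c - s * z.1| := by fun_prop
  exact (measurable_fst measurableSet_Icc).inter (measurableSet_le h measurable_const)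

lemma measurableSet_Edge (a b c s B h δ : ℝ) : MeasurableSet (Edge a b c s B h δ) := by
  have h1 : Measurable fun z : ℝ × ℝ => |z.2 - c - s * z.1| := by fun_prop
  have h2 : Measurable fun z : ℝ × ℝ => |z.1 - a| := by fun_prop
  have h3 : Measurable fun z : ℝ × ℝ => |z.1 - b| := by fun_prop
  refine MeasurableSet.union ?_ ?_
  · exact ((measurableSet_le h2 measurable_const).union
      (measurableSet_le h3 measurable_const)).inter (measurableSet_le h1 measurable_const)
  · exact (measurable_fst measurableSet_Icc).inter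
      ((measurableSet_le measurable_const h1).inter (measurableSet_le h1 measurable_const))

/-- A point whose membership changes along a short segment of slope `σ` is near the edges. -/
theorem mem_edge {a b c s B X σ h δ : ℝ} (hh : X ≤ h) (hδ : X * |σ - s| ≤ δ)
    {z : ℝ × ℝ} {t : ℝ} (ht : |t| ≤ X)
    (hx : ¬ (z ∈ TB a b c s B ↔ (z.1 + t, z.2 + t * σ) ∈ TB a b c s B)) :
    z ∈ Edge a b c s B h δ := by
  set o := z.2 - c - s * z.1 with ho
  have hX : 0 ≤ X := (abs_nonneg t).trans ht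
  have hδ0 : 0 ≤ δ := (mul_nonneg hX (abs_nonneg _)).trans hδ
  have ho' : z.2 + t * σ - c - s * (z.1 + t) = o + t * (σ - s) := by rw [ho]; ring
  have hm : |t * (σ - s)| ≤ δ := by
    rw [abs_mul]
    exact (mul_le_mul_of_nonneg_right ht (abs_nonneg _)).trans hδ
  obtain ⟨m1, m2⟩ := abs_le.1 hm
  obtain ⟨t1, t2⟩ := abs_le.1 ht
  have hT : z ∈ TB a b c s B ↔ (a ≤ z.1 ∧ z.1 ≤ b) ∧ |o| ≤ B := Iff.rfl
  have hT' : (z.1 + t, z.2 + t * σ) ∈ TB a b c s B ↔
      (a ≤ z.1 + t ∧ z.1 + t ≤ b) ∧ |o + t * (σ - s)| ≤ B := by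
    unfold TB
    simp only [mem_ofPred_eq, mem_Icc, ho']
  rw [hT, hT'] at hx
  have key : |o| ≤ B + δ := by
    by_cases h1 : |o| ≤ B
    · linarith
    · have h2 : |o + t * (σ - s)| ≤ B := by
        by_contra h3
        exact hx ⟨fun h => absurd h.2 h1, fun h => absurd h.2 h3⟩
      calc |o| = |(o + t * (σ - s)) - t * (σ - s)| := by congr 1; ring
        _ ≤ |o + t * (σ - s)| + |t * (σ - s)| := abs_sub _ _
        _ ≤ _ := by linarith
  have kx : a - h ≤ z.1 ∧ z.1 ≤ b + h := by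
    by_cases h1 : a ≤ z.1 ∧ z.1 ≤ b
    · exact ⟨by linarith [h1.1], by linarith [h1.2]⟩
    · have h2 : a ≤ z.1 + t ∧ z.1 + t ≤ b := by
        by_contra h3
        exact hx ⟨fun h => absurd h.1 h1, fun h => absurd h.1 h3⟩
      exact ⟨by linarith [h2.1], by linarith [h2.2]⟩
  by_cases ha : |z.1 - a| ≤ h
  · exact Or.inl ⟨Or.inl ha, key⟩
  by_cases hb : |z.1 - b| ≤ h
  · exact Or.inl ⟨Or.inr hb, key⟩
  refine Or.inr ⟨⟨kx.1, kx.2⟩, ?_, key⟩
  -- far from the ends: membership in the strip is the same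
  have hIn : (a ≤ z.1 ∧ z.1 ≤ b) ∧ (a ≤ z.1 + t ∧ z.1 + t ≤ b) := by
    rw [abs_le] at ha hb
    push Not at ha hb
    have ha' : h < z.1 - a := by
      by_contra hc
      rw [not_lt] at hc
      have := ha
      by_cases h5 : -h ≤ z.1 - a
      · linarith [ha h5]
      · linarith [kx.1]
    have hb' : z.1 - b < -h := by
      by_contra hc
      rw [not_lt] at hc
      linarith [hb hc, kx.2]
    exact ⟨⟨by linarith, by linarith⟩, ⟨by linarith, by linarith⟩⟩
  by_contra hc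
  rw [not_le] at hc
  apply hx
  refine ⟨fun _ => ⟨hIn.2, ?_⟩, fun _ => ⟨hIn.1, by linarith⟩⟩
  calc |o + t * (σ - s)| ≤ |o| + |t * (σ - s)| := abs_add_le _ _
    _ ≤ B := by linarith

lemma volume_strip (J : Set ℝ) (hJ : MeasurableSet J) (c s : ℝ) (S : Set ℝ) (hS : MeasurableSet S) :
    volume {z : ℝ × ℝ | z.1 ∈ J ∧ z.2 - c - s * z.1 ∈ S} = volume J * volume S := by
  have hm : MeasurableSet {z : ℝ × ℝ | z.1 ∈ J ∧ z.2 - c - s * z.1 ∈ S} := by
    have h : Measurable fun z : ℝ × ℝ => z.2 - c - s * z.1 := by fun_prop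
    exact (measurable_fst hJ).inter (h hS)
  rw [Measure.volume_eq_prod, Measure.prod_apply hm]
  have h1 : ∀ x : ℝ, volume (Prod.mk x ⁻¹' {z : ℝ × ℝ | z.1 ∈ J ∧ z.2 - c - s * z.1 ∈ S}) =
      J.indicator (fun _ => volume S) x := by
    intro x
    by_cases hx : x ∈ J
    · rw [indicator_of_mem hx]
      have : Prod.mk x ⁻¹' {z : ℝ × ℝ | z.1 ∈ J ∧ z.2 - c - s * z.1 ∈ S} =
          (fun y => y + -(c + s * x)) ⁻¹' S := by
        ext y
        simp only [mem_preimage, mem_ofPred_eq, hx, true_and]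
        rw [show y - c - s * x = y + -(c + s * x) by ring]
      rw [this, measure_preimage_add_right]
    · rw [indicator_of_notMem hx]
      have : Prod.mk x ⁻¹' {z : ℝ × ℝ | z.1 ∈ J ∧ z.2 - c - s * z.1 ∈ S} = ∅ := by
        ext y
        simp [hx]
      rw [this, measure_empty]
  simp only [h1]
  rw [lintegral_indicator_const hJ, mul_comm]

/-- The measure of the edges. -/
theorem volume_edge_le {a b : ℝ} (hab : a ≤ b) {c s B h δ : ℝ} (hh : 0 ≤ h) (hδ : 0 ≤ δ)
    (hB : 0 ≤ B) :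
    volume (Edge a b c s B h δ) ≤
      ENNReal.ofReal (8 * h * (B + δ) + 4 * δ * ((b - a) + 2 * h)) := by
  have h1 : Edge a b c s B h δ ⊆
      ({z : ℝ × ℝ | z.1 ∈ Icc (a - h) (a + h) ∧ z.2 - c - s * z.1 ∈ Icc (-(B + δ)) (B + δ)} ∪
        {z : ℝ × ℝ | z.1 ∈ Icc (b - h) (b + h) ∧ z.2 - c - s * z.1 ∈ Icc (-(B + δ)) (B + δ)}) ∪
      ({z : ℝ × ℝ | z.1 ∈ Icc (a - h) (b + h) ∧ z.2 - c - s * z.1 ∈ Icc (B - δ) (B + δ)} ∪
        {z : ℝ × ℝ | z.1 ∈ Icc (a - h) (b + h) ∧
          z.2 - c - s * z.1 ∈ Icc (-(B + δ)) (-(B - δ))}) := by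
    rintro z (⟨h1 | h1, h2⟩ | ⟨h1, h2, h3⟩)
    · refine Or.inl (Or.inl ⟨?_, abs_le.1 h2⟩)
      rw [abs_le] at h1
      exact ⟨by linarith [h1.1], by linarith [h1.2]⟩
    · refine Or.inl (Or.inr ⟨?_, abs_le.1 h2⟩)
      rw [abs_le] at h1
      exact ⟨by linarith [h1.1], by linarith [h1.2]⟩
    · right
      rcases le_total 0 (z.2 - c - s * z.1) with h4 | h4
      · left
        rw [abs_of_nonneg h4] at h2 h3
        exact ⟨h1, h2, h3⟩
      · right
        rw [abs_of_nonpos h4] at h2 h3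
        exact ⟨h1, by linarith, by linarith⟩
  refine (measure_mono h1).trans ?_
  refine (measure_union_le _ _).trans ?_
  refine (add_le_add (measure_union_le _ _) (measure_union_le _ _)).trans ?_
  rw [volume_strip _ measurableSet_Icc c s _ measurableSet_Icc,
    volume_strip _ measurableSet_Icc c s _ measurableSet_Icc,
    volume_strip _ measurableSet_Icc c s _ measurableSet_Icc,
    volume_strip _ measurableSet_Icc c s _ measurableSet_Icc]
  simp only [Real.volume_Icc]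
  rw [← ENNReal.ofReal_mul (by linarith), ← ENNReal.ofReal_mul (by linarith),
    ← ENNReal.ofReal_mul (by linarith), ← ENNReal.ofReal_mul (by linarith)]
  have p1 : 0 ≤ (a + h - (a - h)) * (B + δ - -(B + δ)) := mul_nonneg (by linarith) (by linarith)
  have p2 : 0 ≤ (b + h - (b - h)) * (B + δ - -(B + δ)) := mul_nonneg (by linarith) (by linarith)
  have p3 : 0 ≤ (b + h - (a - h)) * (B + δ - (B - δ)) := mul_nonneg (by linarith) (by linarith)
  have p4 : 0 ≤ (b + h - (a - h)) * (-(B - δ) - -(B + δ)) := mul_nonneg (by linarith) (by linarith)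
  rw [← ENNReal.ofReal_add p1 p2, ← ENNReal.ofReal_add p3 p4,
    ← ENNReal.ofReal_add (by linarith) (by linarith)]
  refine ENNReal.ofReal_le_ofReal (le_of_eq ?_)
  ring

/-- Relative form: thickness `ε` times the size. -/
theorem volume_edge_rel {a b : ℝ} (hab : a ≤ b) {c s B ε : ℝ} (hε : 0 ≤ ε) (hε1 : ε ≤ 1)
    (hB : 0 ≤ B) :
    volume (Edge a b c s B (ε * (b - a)) (ε * B)) ≤ ENNReal.ofReal (28 * ε * (B * (b - a))) := by
  have hL : 0 ≤ b - a := by linarith
  refine (volume_edge_le hab (mul_nonneg hε hL) (mul_nonneg hε hB) hB).trans ?_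
  refine ENNReal.ofReal_le_ofReal ?_
  have h1 : ε * ε ≤ ε := by nlinarith
  have h2 : 0 ≤ B * (b - a) := mul_nonneg hB hL
  nlinarith [mul_le_mul_of_nonneg_right h1 h2]

end Vale.Agent.P112.H526
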