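import Vale.Agent.P112.F30.Defs
import Vale.Agent.P112.T.Basic

/-!
# P112, assembly of (F) and (T), part a: `L2` norms of nice functions, splitting of `FS`
-/

open MeasureTheory Set Filter
open scoped ENNReal

set_option linter.dupNamespace false

namespace Vale.Agent.P112.H526.R0

open T

variable {M : ℕ}

/-- The `L2` norm. -/
noncomputable def nrm (F : ℝ × ℝ → ℝ) : ℝ := √(∫ ζ, F ζ ^ 2)

theorem nrm_nonneg (F : ℝ × ℝ → ℝ) : 0 ≤ nrm F := Real.sqrt_nonneg _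

theorem nrm_sq (F : ℝ × ℝ → ℝ) : nrm F ^ 2 = ∫ ζ, F ζ ^ 2 :=
  Real.sq_sqrt (integral_nonneg fun _ => sq_nonneg _)

theorem nrm_le_of_sq {F : ℝ × ℝ → ℝ} {a : ℝ} (ha : 0 ≤ a) (h : ∫ ζ, F ζ ^ 2 ≤ a ^ 2) :
    nrm F ≤ a := Real.sqrt_le_iff.2 ⟨ha, h⟩

theorem nrm_le_sqrt {F : ℝ × ℝ → ℝ} {a : ℝ} (h : ∫ ζ, F ζ ^ 2 ≤ a) :
    nrm F ≤ √a := Real.sqrt_le_sqrt h

theorem sq_of_nrm {F : ℝ × ℝ → ℝ} {a : ℝ} (h : nrm F ≤ a) : ∫ ζ, F ζ ^ 2 ≤ a ^ 2 := by
  rw [← nrm_sq]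
  exact pow_le_pow_left₀ (nrm_nonneg F) h 2

theorem nrm_zero : nrm (fun _ => 0) = 0 := by simp [nrm]

theorem nrm_add {F G : ℝ × ℝ → ℝ} (hF : Nice F) (hG : Nice G) :
    nrm (fun z => F z + G z) ≤ nrm F + nrm G := by
  apply le_of_forall_pos_le_add
  intro e he
  have hF0 := nrm_nonneg F
  have hG0 := nrm_nonneg G
  set a := nrm F + e / 2 with ha'
  set b := nrm G + e / 2 with hb'
  have ha : 0 < a := by rw [ha']; linarith
  have hb : 0 < b := by rw [hb']; linarith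
  have h1 : ∀ z, (F z + G z) ^ 2 ≤ (1 + b / a) * F z ^ 2 + (1 + a / b) * G z ^ 2 := by
    intro z
    have h : 0 ≤ b / a * F z ^ 2 + a / b * G z ^ 2 - 2 * (F z * G z) := by
      have : b / a * F z ^ 2 + a / b * G z ^ 2 - 2 * (F z * G z)
          = (b * F z - a * G z) ^ 2 / (a * b) := by
        field_simp
        ring
      rw [this]
      positivity
    nlinarith
  have hFi := hF.sq.integrable
  have hGi := hG.sq.integrable
  have key : ∫ z, (F z + G z) ^ 2 ≤ (a + b) ^ 2 := by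
    calc ∫ z, (F z + G z) ^ 2 ≤ ∫ z, ((1 + b / a) * F z ^ 2 + (1 + a / b) * G z ^ 2) :=
          integral_mono (hF.add hG).sq.integrable
            ((hFi.const_mul _).add (hGi.const_mul _)) h1
      _ = (1 + b / a) * (∫ z, F z ^ 2) + (1 + a / b) * (∫ z, G z ^ 2) := by
          rw [integral_add (hFi.const_mul _) (hGi.const_mul _), integral_const_mul,
            integral_const_mul]
      _ ≤ (1 + b / a) * a ^ 2 + (1 + a / b) * b ^ 2 := by
          rw [← nrm_sq F, ← nrm_sq G]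
          gcongr
          · rw [ha']; linarith
          · rw [hb']; linarith
      _ = (a + b) ^ 2 := by
          field_simp
          ring
  calc nrm (fun z => F z + G z) ≤ a + b := nrm_le_of_sq (by positivity) key
    _ = nrm F + nrm G + e := by rw [ha', hb']; ring

theorem nrm_sum {ι : Type*} (s : Finset ι) {F : ι → ℝ × ℝ → ℝ} (h : ∀ i ∈ s, Nice (F i)) :
    nrm (fun z => ∑ i ∈ s, F i z) ≤ ∑ i ∈ s, nrm (F i) := by
  classical
  induction s using Finset.induction_on with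
  | empty => simp [nrm]
  | insert a s ha ih =>
    simp only [Finset.sum_insert ha]
    refine (nrm_add (h a (Finset.mem_insert_self _ _))
      (Nice.sum s fun i hi => h i (Finset.mem_insert_of_mem hi))).trans ?_
    gcongr
    exact ih fun i hi => h i (Finset.mem_insert_of_mem hi)

theorem integrable_kz (κ : Ker M) {u : ℝ × ℝ → ℝ} (hu : Field u) (j : ℕ) {g : ℝ × ℝ → ℝ}
    (hg : Nice g) (ζ : ℝ × ℝ) : Integrable fun z => κ.k j (u z) z ζ * g z := by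
  obtain ⟨D, hD, hk⟩ := κ.k_bdd
  refine Integrable.mono' (hg.abs.integrable.const_mul (D * 2 ^ j)) ?_ ?_
  · exact (((κ.k_measurable hu.meas j).comp
      (measurable_id.prodMk measurable_const : Measurable fun z : ℝ × ℝ => (z, ζ))).mul
        hg.meas).aestronglyMeasurable
  · refine Eventually.of_forall fun z => ?_
    rw [Real.norm_eq_abs, abs_mul]
    gcongr
    exact hk _ _ _ _

theorem S_sum (κ : Ker M) {u : ℝ × ℝ → ℝ} (hu : Field u) (j : ℕ) {ι : Type*} (s : Finset ι)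
    {g : ι → ℝ × ℝ → ℝ} (hg : ∀ i ∈ s, Nice (g i)) (ζ : ℝ × ℝ) :
    κ.S u j (fun z => ∑ i ∈ s, g i z) ζ = ∑ i ∈ s, κ.S u j (g i) ζ := by
  unfold Ker.S
  rw [← integral_finsetSum _ fun i hi => integrable_kz κ hu j (hg i hi) ζ]
  congr 1
  ext z
  rw [Finset.mul_sum]

theorem FS_split (κ : Ker M) {u : ℝ × ℝ → ℝ} (hu : Field u) {g : ℝ × ℝ → ℝ} (hg : Nice g)
    {ι : Type*} (s : Finset ι) (P : ℕ → Set (ℝ × ℝ)) (E : ι → ℕ → Set (ℝ × ℝ))
    (hE : ∀ i ∈ s, ∀ j, MeasurableSet (E i j)) (n : ℕ)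
    (h : ∀ j < n, ∀ z, (P j).indicator g z = ∑ i ∈ s, (E i j).indicator g z) :
    κ.FS u g P n = fun ζ => ∑ i ∈ s, κ.FS u g (E i) n ζ := by
  funext ζ
  unfold Ker.FS
  rw [Finset.sum_comm]
  refine Finset.sum_congr rfl fun j hj => ?_
  have h1 : (P j).indicator g = fun z => ∑ i ∈ s, (E i j).indicator g z :=
    funext (h j (Finset.mem_range.1 hj))
  rw [h1]
  exact S_sum κ hu j s (fun i hi => hg.indicator (hE i hi j)) ζ

theorem nrm_FS_split (κ : Ker M) {u : ℝ × ℝ → ℝ} (hu : Field u) {g : ℝ × ℝ → ℝ} (hg : Nice g)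
    {ι : Type*} (s : Finset ι) (P : ℕ → Set (ℝ × ℝ)) (E : ι → ℕ → Set (ℝ × ℝ))
    (hE : ∀ i ∈ s, ∀ j, MeasurableSet (E i j)) (n : ℕ)
    (h : ∀ j < n, ∀ z, (P j).indicator g z = ∑ i ∈ s, (E i j).indicator g z) :
    nrm (κ.FS u g P n) ≤ ∑ i ∈ s, nrm (κ.FS u g (E i) n) := by
  rw [FS_split κ hu hg s P E hE n h]
  exact nrm_sum s fun i hi => κ.FS_nice hu hg (hE i hi) n

theorem ind_part {α ι : Type*} (s : Finset ι) (P : Set α) (E : ι → Set α) (g : α → ℝ)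
    (hsub : ∀ i ∈ s, E i ⊆ P) (hcov : ∀ z ∈ P, ∃ i ∈ s, z ∈ E i)
    (huniq : ∀ z, ∀ i ∈ s, ∀ i' ∈ s, z ∈ E i → z ∈ E i' → i = i') (z : α) :
    P.indicator g z = ∑ i ∈ s, (E i).indicator g z := by
  by_cases hz : z ∈ P
  · obtain ⟨i, hi, hzi⟩ := hcov z hz
    rw [indicator_of_mem hz, Finset.sum_eq_single_of_mem i hi, indicator_of_mem hzi]
    intro i' hi' hne
    exact indicator_of_notMem (fun h => hne (huniq z i' hi' i hi h hzi)) g
  · rw [indicator_of_notMem hz, Finset.sum_eq_zero]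
    intro i hi
    exact indicator_of_notMem (fun h => hz (hsub i hi h)) g

/-- `FS` only depends on the sets for `j < n`. -/
theorem FS_congr (κ : Ker M) (u : ℝ × ℝ → ℝ) (g : ℝ × ℝ → ℝ) {P P' : ℕ → Set (ℝ × ℝ)} {n : ℕ}
    (h : ∀ j < n, P j = P' j) : κ.FS u g P n = κ.FS u g P' n := by
  funext ζ
  unfold Ker.FS
  exact Finset.sum_congr rfl fun j hj => by rw [h j (Finset.mem_range.1 hj)]

theorem DensN_mono {N : ℝ} {u : ℝ × ℝ → ℝ} {P E : ℕ → Set (ℝ × ℝ)} {n : ℕ} {τ : ℝ} {a : ℕ} {δ : ℝ}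
    (h : DensN N u P n τ a δ) (hE : ∀ j < n, E j ⊆ P j) : DensN N u E n τ a δ := by
  intro j1 hj1 z1 hz1 lam hlam θ c h1 h2 i hi
  refine le_trans (measure_mono ?_) (h j1 hj1 z1 (hE j1 hj1 hz1) lam hlam θ c h1 h2 i hi)
  rintro z ⟨⟨j, hj, hzj⟩, hz⟩
  exact ⟨⟨j, hj, hE j hj hzj⟩, hz⟩

end Vale.Agent.P112.H526.R0
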