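import Vale.Agent.P112.G.CompA
import Vale.Agent.P112.H526.R0a

/-!
# [GAIN-ASM], step 0: reduction to thin families (strips and four colours)
-/

open MeasureTheory Set
open scoped ENNReal

set_option linter.dupNamespace false

namespace Vale.Agent.P112.H526.GAsm

open T F30 R2

variable {M : ℕ}

/-- The strips of colour `c` (half width `w'`). -/
noncomputable def strip (F : Tr) (w' T : ℝ) (K : ℕ) (c : ℕ) : Tr where
  ι := F.ι × Fin K
  fin := inferInstance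
  s := fun p => F.s p.1
  c := fun p => F.c p.1 + (2 * w' * (4 * (p.2 : ℕ) + c : ℕ) - T)
  E := fun p j => {z | z ∈ F.E p.1 j ∧ ⌊(F.off p.1 z + T + w') / (2 * w')⌋ =
    ((4 * (p.2 : ℕ) + c : ℕ) : ℤ)}

theorem strip_off (F : Tr) (w' T : ℝ) (K c : ℕ) (p : F.ι × Fin K) (z : ℝ × ℝ) :
    (strip F w' T K c).off p z = F.off p.1 z - (2 * w' * (4 * (p.2 : ℕ) + c : ℕ) - T) := by
  unfold Tr.off strip
  ring

theorem strip_line {F : Tr} {w' T : ℝ} (hw' : 0 < w') {K c : ℕ} {p : F.ι × Fin K} {z : ℝ × ℝ}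
    {j : ℕ} (hz : z ∈ (strip F w' T K c).E p j) : |(strip F w' T K c).off p z| ≤ w' := by
  rw [strip_off]
  have h2 : ⌊(F.off p.1 z + T + w') / (2 * w')⌋ = ((4 * (p.2 : ℕ) + c : ℕ) : ℤ) := hz.2
  have h := Int.floor_eq_iff.1 h2
  have hw2 : 0 < 2 * w' := by linarith
  have h1 := (le_div_iff₀ hw2).1 h.1
  have h3 := (div_lt_iff₀ hw2).1 h.2
  push_cast at h1 h3
  push_cast
  rw [abs_le]
  constructor
  · nlinarith [h1]
  · nlinarith [h3]

theorem strip_ok {F : Tr} {u : ℝ × ℝ → ℝ} {P : ℕ → Set (ℝ × ℝ)} {A w w' T : ℝ}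
    (h : F.Ok u P A w) (hw' : 0 < w') (K : ℕ) {c : ℕ} (_hc : c < 4) :
    (strip F w' T K c).Ok u P A w' where
  meas := fun p j => by
    have hm : Measurable fun z : ℝ × ℝ => ⌊(F.off p.1 z + T + w') / (2 * w')⌋ := by
      refine Int.measurable_floor.comp ?_
      unfold Tr.off
      fun_prop
    exact (h.meas p.1 j).inter (hm (measurableSet_singleton _))
  sub := fun p j z hz => h.sub p.1 j hz.1
  slope := fun p j z hz => h.slope p.1 j z hz.1
  line := fun p j z hz => strip_line hw' hz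
  conv := fun p z j k l hjk hkl hj hl => ⟨h.conv p.1 z j k l hjk hkl hj.1 hl.1, hj.2⟩
  uniq := fun p p' j j' z hz hz' => by
    have h1 : p.1 = p'.1 := h.uniq _ _ _ _ z hz.1 hz'.1
    have e1 : ⌊(F.off p.1 z + T + w') / (2 * w')⌋ = ((4 * (p.2 : ℕ) + c : ℕ) : ℤ) := hz.2
    have e2 : ⌊(F.off p'.1 z + T + w') / (2 * w')⌋ = ((4 * (p'.2 : ℕ) + c : ℕ) : ℤ) := hz'.2
    rw [← h1, e1] at e2
    have h2 : (p.2 : ℕ) = (p'.2 : ℕ) := by
      have := Int.ofNat.inj e2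
      omega
    exact Prod.ext h1 (Fin.ext h2)

theorem strip_sepP {F : Tr} {u : ℝ × ℝ → ℝ} {P : ℕ → Set (ℝ × ℝ)} {A w w' T Q D : ℝ}
    (h : F.Ok u P A w) (hs : F.SepP Q D) (hw' : 0 < w') (hD : w + 5 * w' ≤ D) (K : ℕ) {c : ℕ} :
    (strip F w' T K c).SepP Q (4 * w') := by
  intro (p : F.ι × Fin K) (p' : F.ι × Fin K) j j' hne hjj z hz z' hz' hx ho0
  have ho : |F.off p'.1 z - (2 * w' * (4 * (p'.2 : ℕ) + c : ℕ) - T)| ≤ 4 * w' := by
    rw [← strip_off F w' T K c p' z]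
    exact ho0
  have hl : |F.off p.1 z - (2 * w' * (4 * (p.2 : ℕ) + c : ℕ) - T)| ≤ w' := by
    rw [← strip_off F w' T K c p z]
    exact strip_line hw' hz
  have hl' : |F.off p'.1 z' - (2 * w' * (4 * (p'.2 : ℕ) + c : ℕ) - T)| ≤ w' := by
    rw [← strip_off F w' T K c p' z']
    exact strip_line hw' hz'
  by_cases hi : p.1 = p'.1
  · exfalso
    have hk : (p.2 : ℕ) ≠ (p'.2 : ℕ) := fun hh => hne (Prod.ext hi (Fin.ext hh))
    rw [← hi] at ho
    have e : F.off p.1 z - (2 * w' * (4 * (p.2 : ℕ) + c : ℕ) - T) -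
        (F.off p.1 z - (2 * w' * (4 * (p'.2 : ℕ) + c : ℕ) - T)) =
        8 * w' * (((p'.2 : ℕ) : ℝ) - ((p.2 : ℕ) : ℝ)) := by
      push_cast
      ring
    have h1 : |8 * w' * (((p'.2 : ℕ) : ℝ) - ((p.2 : ℕ) : ℝ))| ≤ 5 * w' := by
      rw [← e]
      refine (abs_sub _ _).trans ?_
      linarith
    have h2 : (1 : ℝ) ≤ |((p'.2 : ℕ) : ℝ) - ((p.2 : ℕ) : ℝ)| := by
      have h3 : (1 : ℤ) ≤ |((p'.2 : ℕ) : ℤ) - ((p.2 : ℕ) : ℤ)| := by
        apply Int.one_le_abs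
        omega
      exact_mod_cast h3
    rw [abs_mul, abs_of_pos (by linarith : (0 : ℝ) < 8 * w')] at h1
    nlinarith
  · refine hs p.1 p'.1 j j' hi hjj z hz.1 z' hz'.1 hx ?_
    have h1 := h.line p'.1 j' z' hz'.1
    set cc : ℝ := 2 * w' * (4 * (p'.2 : ℕ) + c : ℕ) - T with hcc
    have h3 : |cc| ≤ w + w' := by
      have : cc = F.off p'.1 z' - (F.off p'.1 z' - cc) := by ring
      rw [this]
      refine (abs_sub _ _).trans ?_
      linarith
    have h4 : F.off p'.1 z = (F.off p'.1 z - cc) + cc := by ring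
    rw [h4]
    refine (abs_add_le _ _).trans ?_
    linarith

theorem strip_part {F : Tr} {u : ℝ × ℝ → ℝ} {P : ℕ → Set (ℝ × ℝ)} {A w w' T : ℝ}
    (h : F.Ok u P A w) (hw' : 0 < w') (hT : w ≤ T) {K : ℕ} (hK : w + T + w' < 2 * w' * (4 * K))
    (g : ℝ × ℝ → ℝ) (i : F.ι) (j : ℕ) (z : ℝ × ℝ) :
    (F.E i j).indicator g z = ∑ c ∈ Finset.range 4, ∑ k : Fin K,
      ((strip F w' T K c).E (i, k) j).indicator g z := by
  rw [← Finset.sum_product' (Finset.range 4) (Finset.univ : Finset (Fin K))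
    (fun c k => ((strip F w' T K c).E (i, k) j).indicator g z)]
  refine H526.R0.ind_part _ (F.E i j) (fun q : ℕ × Fin K => (strip F w' T K q.1).E (i, q.2) j) g
    (fun q _ z hz => hz.1) (fun z hz => ?_) (fun z q hq q' hq' h1 h2 => ?_) z
  · have hl := abs_le.1 (h.line i j z hz)
    have hw2 : 0 < 2 * w' := by linarith
    set r : ℤ := ⌊(F.off i z + T + w') / (2 * w')⌋ with hr
    have hr0 : 0 ≤ r := by
      apply Int.floor_nonneg.2
      apply div_nonneg _ hw2.le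
      linarith
    have hr1 : r < 4 * K := by
      have h1 : (F.off i z + T + w') / (2 * w') < 4 * K := by
        rw [div_lt_iff₀ hw2]
        linarith
      have h2 : (r : ℝ) ≤ (F.off i z + T + w') / (2 * w') := Int.floor_le _
      have h3 : (r : ℝ) < 4 * K := lt_of_le_of_lt h2 h1
      exact_mod_cast h3
    obtain ⟨m, hm⟩ := Int.eq_ofNat_of_zero_le hr0
    have hm4 : m < 4 * K := by
      rw [hm] at hr1
      exact_mod_cast hr1
    refine ⟨(m % 4, ⟨m / 4, by omega⟩), ?_, ?_⟩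
    · simp only [Finset.mem_product, Finset.mem_range, Finset.mem_univ, and_true]
      omega
    · refine ⟨hz, ?_⟩
      show ⌊(F.off i z + T + w') / (2 * w')⌋ = ((4 * (m / 4) + m % 4 : ℕ) : ℤ)
      rw [← hr, hm]
      congr 1
      omega
  · simp only [Finset.mem_product, Finset.mem_range, Finset.mem_univ, and_true] at hq hq'
    have e1 : ⌊(F.off i z + T + w') / (2 * w')⌋ = ((4 * (q.2 : ℕ) + q.1 : ℕ) : ℤ) := h1.2
    have e2 : ⌊(F.off i z + T + w') / (2 * w')⌋ = ((4 * (q'.2 : ℕ) + q'.1 : ℕ) : ℤ) := h2.2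
    rw [e1] at e2
    have e3 : 4 * (q.2 : ℕ) + q.1 = 4 * (q'.2 : ℕ) + q'.1 := Int.ofNat.inj e2
    exact Prod.ext (by omega) (Fin.ext (by omega))

/-- The sum over the trees is the sum over the colours. -/
theorem strip_sum (κ : Ker M) {u : ℝ × ℝ → ℝ} (hu : Field u) {F : Tr} {P : ℕ → Set (ℝ × ℝ)}
    {A w w' T : ℝ} (h : F.Ok u P A w) (hw' : 0 < w') (hT : w ≤ T) {K : ℕ}
    (hK : w + T + w' < 2 * w' * (4 * K)) {g : ℝ × ℝ → ℝ} (hg : Nice g) (n : ℕ) (ζ : ℝ × ℝ) :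
    F.sum κ u g n ζ = ∑ c : Fin 4, (strip F w' T K c).sum κ u g n ζ := by
  have hi : ∀ i, κ.FS u g (F.E i) n ζ =
      ∑ c : Fin 4, ∑ k : Fin K, κ.FS u g ((strip F w' T K c).E (i, k)) n ζ := by
    intro i
    have h1 := H526.R0.FS_split κ hu hg (Finset.univ : Finset (Fin 4 × Fin K)) (F.E i)
      (fun q => (strip F w' T K q.1).E (i, q.2))
      (fun q _ j => (strip_ok h hw' K q.1.2).meas (i, q.2) j) n (fun j _ z => by
        rw [strip_part h hw' hT hK g i j z, Finset.sum_range, ← Finset.univ_product_univ,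
          Finset.sum_product])
    rw [congrFun h1 ζ, ← Finset.univ_product_univ, Finset.sum_product]
  unfold Tr.sum
  rw [Finset.sum_congr rfl fun i _ => hi i, Finset.sum_comm]
  refine Finset.sum_congr rfl fun c _ => ?_
  show _ = ∑ p : F.ι × Fin K, κ.FS u g ((strip F w' T K c).E p) n ζ
  rw [← Finset.univ_product_univ, Finset.sum_product]

/-- [GAIN] for thin families: half width `Q / 8`, tolerance `Q / 2`. -/
def StGainT {M : ℕ} (κ : Ker M) : Prop := ∀ b : ℕ, ∃ c2 : ℕ, 1 ≤ c2 ∧ ∀ B : ℕ,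
  ∃ (N : ℕ) (C : ℝ), 1 ≤ C ∧
  ∀ (u : ℝ × ℝ → ℝ), Field u → ∀ (n ν : ℕ) (f g : ℝ × ℝ → ℝ), Nice f → Nice g →
    (∀ z, |f z| ≤ 1) → (∀ z, |g z| ≤ 1) →
    (∀ z, f z ≠ 0 → 1 / 2 ≤ |f z|) → (∀ z, g z ≠ 0 → 1 / 2 ≤ |g z|) →
    (∀ z, g z ≠ 0 → z.1 ∈ Ico (0 : ℝ) 1) →
    0 < volume {z | f z ≠ 0} → 0 < volume {z | g z ≠ 0} →
    ∀ L : ℝ, L = Real.log ((volume {z | g z ≠ 0}).toReal / (volume {z | f z ≠ 0}).toReal) →
    C ≤ L → (ν : ℝ) ≤ b * Real.log L →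
    (∀ x y y', |u (x, y) - u (x, y')| ≤ Real.exp (-L ^ N) * |y - y'|) →
    ∀ (F : Tr) (A : ℝ), 1 ≤ A → A ≤ L ^ b →
      F.Ok u (Pd u {z | g z ≠ 0} 4 n ν) A (Real.exp (L ^ c2) / 8) →
      F.SepP (Real.exp (L ^ c2)) (Real.exp (L ^ c2) / 2) →
      |∫ ζ, f ζ * F.sum κ u g n ζ| * L ^ B ≤
        C * √((volume {z | f z ≠ 0}).toReal) * √((volume {z | g z ≠ 0}).toReal)

/-- [GAIN] from the thin case. -/
theorem gain_of_thin (κ : Ker M) (hT : StGainT κ) : R2.StGain κ := by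
  intro b
  obtain ⟨c2, hc2, hT⟩ := hT b
  refine ⟨c2, hc2, fun c3 B => ?_⟩
  obtain ⟨N, C, hC, hT⟩ := hT B
  refine ⟨N, 4 * C, by linarith, ?_⟩
  intro u hu n ν f g hf hg hf1 hg1 hf2 hg2 hgx hfp hgp L hL hCL hν hlip F A w hA hAL hw1 hw2 hok hsep
  set Q : ℝ := Real.exp (L ^ c2) with hQ
  have hQ0 : 0 < Q := Real.exp_pos _
  have hw' : 0 < Q / 8 := by linarith
  have hw0 : 0 < w := lt_of_lt_of_le hQ0 hw1
  obtain ⟨K, hK⟩ := exists_nat_gt (2 * (w + Q) / Q)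
  have hK2 : w + w + Q / 8 < 2 * (Q / 8) * (4 * K) := by
    rw [div_lt_iff₀ hQ0] at hK
    linarith
  have hsum := fun ζ => strip_sum κ hu hok hw' le_rfl hK2 hg n ζ
  have hmeas : ∀ (c : Fin 4) p j, MeasurableSet ((strip F (Q / 8) w K c).E p j) :=
    fun c p j => (strip_ok hok hw' K c.2).meas p j
  have hone : ∀ c : Fin 4, |∫ ζ, f ζ * (strip F (Q / 8) w K c).sum κ u g n ζ| * L ^ B ≤
      C * √((volume {z | f z ≠ 0}).toReal) * √((volume {z | g z ≠ 0}).toReal) := by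
    intro c
    refine hT u hu n ν f g hf hg hf1 hg1 hf2 hg2 hgx hfp hgp L hL (by linarith) hν hlip
      (strip F (Q / 8) w K c) A hA hAL (strip_ok hok hw' K c.2) ?_
    have := strip_sepP (T := w) (c := (c : ℕ)) hok hsep hw' (by linarith) K
    convert this using 1
    ring
  have hint : ∀ c : Fin 4, Integrable fun ζ => f ζ * (strip F (Q / 8) w K c).sum κ u g n ζ :=
    fun c => (hf.mul (nice_sum κ hu _ (hmeas c) hg n)).integrable
  have h1 : ∫ ζ, f ζ * F.sum κ u g n ζ =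
      ∑ c : Fin 4, ∫ ζ, f ζ * (strip F (Q / 8) w K c).sum κ u g n ζ := by
    simp_rw [hsum, Finset.mul_sum]
    rw [integral_finsetSum _ fun c _ => hint c]
  have hL0 : 0 ≤ L := by linarith
  rw [h1]
  calc |∑ c : Fin 4, ∫ ζ, f ζ * (strip F (Q / 8) w K c).sum κ u g n ζ| * L ^ B
      ≤ (∑ c : Fin 4, |∫ ζ, f ζ * (strip F (Q / 8) w K c).sum κ u g n ζ|) * L ^ B := by
        refine mul_le_mul_of_nonneg_right (Finset.abs_sum_le_sum_abs _ _) (by positivity)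
    _ = ∑ c : Fin 4, |∫ ζ, f ζ * (strip F (Q / 8) w K c).sum κ u g n ζ| * L ^ B := by
        rw [Finset.sum_mul]
    _ ≤ ∑ c : Fin 4, C * √((volume {z | f z ≠ 0}).toReal) * √((volume {z | g z ≠ 0}).toReal) :=
        Finset.sum_le_sum fun c _ => hone c
    _ = 4 * C * √((volume {z | f z ≠ 0}).toReal) * √((volume {z | g z ≠ 0}).toReal) := by
        simp
        ring

end Vale.Agent.P112.H526.GAsm
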