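import Vale.Agent.P112.H646.GainDefs
import Vale.Agent.P112.T.Basic

/-!
# [GAIN]: `StTree` from the blocks of the tree side (merge of the constants)
-/

open MeasureTheory Set
open scoped ENNReal

noncomputable section

namespace Vale.Agent.P112.H526.GAsm

open T F30 H8 H646 H646.Gain

variable {M : ℕ}

theorem tg_meas (κ : Ker M) {u : ℝ × ℝ → ℝ} (hu : Field u) {g : ℝ × ℝ → ℝ} (hg : Nice g) (n : ℕ)
    {ι : Type} (s : ι → ℝ) {E : ι → ℕ → Set (ℝ × ℝ)} (hE : ∀ i j, MeasurableSet (E i j)) (i : ι) :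
    Measurable (tg κ u g n s E i) := by
  have h1 : Measurable (κ.FS u g (E i) n) := (κ.FS_nice hu hg (hE i) n).meas
  have h2 : Measurable fun w : ℝ × ℝ => (w.1, w.2 + s i * w.1) := by fun_prop
  exact Complex.measurable_ofReal.comp (h1.comp h2)

theorem tg_bdd (κ : Ker M) {u : ℝ × ℝ → ℝ} (hu : Field u) {g : ℝ × ℝ → ℝ} (hg : Nice g) (n : ℕ)
    {ι : Type} [Fintype ι] (s : ι → ℝ) {E : ι → ℕ → Set (ℝ × ℝ)}
    (hE : ∀ i j, MeasurableSet (E i j)) : ∃ B : ℝ, ∀ i z, ‖tg κ u g n s E i z‖ ≤ B := by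
  have h1 : ∀ i, ∃ B : ℝ, ∀ z, |κ.FS u g (E i) n z| ≤ B := fun i =>
    (κ.FS_nice hu hg (hE i) n).bdd
  choose B hB using h1
  refine ⟨∑ i, |B i|, fun i z => ?_⟩
  unfold tg
  rw [Complex.norm_real, Real.norm_eq_abs]
  refine (hB i _).trans ((le_abs_self _).trans ?_)
  exact Finset.single_le_sum (f := fun i => |B i|) (fun i _ => abs_nonneg _) (Finset.mem_univ i)

theorem Osc.mono {ι : Type} [Fintype ι] {G : ι → ℝ × ℝ → ℂ} {H0 θ e e' : ℝ} {V : ℝ≥0∞} {N0 : ℕ}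
    {K : Fin N0 → Type} {X : ∀ a, Bxs ι (K a)} (h : Osc G H0 θ e V N0 K X) (he : e ≤ e') :
    Osc G H0 θ e' V N0 K X := by
  obtain ⟨gs, h1, h2, h3⟩ := h
  exact ⟨gs, h1, h2, h3.trans (mul_le_mul_left (ENNReal.ofReal_le_ofReal he) _)⟩

/-- The tree side. -/
theorem stTree_of (κ : Ker M) (hB : StBox0 κ) (hO : StOsc κ) (hS : StSq) (hA : StArcs)
    (hL : StLq κ) (hP : StPrim κ) : StTree κ := by
  obtain ⟨Cb, hCb, hB⟩ := hB
  obtain ⟨Co, co, hCo, hO⟩ := hO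
  obtain ⟨Cs, cs, hCs, hS⟩ := hS
  obtain ⟨Ca, ca, hCa, hA⟩ := hA
  obtain ⟨Cl, cl, hCl, hL⟩ := hL
  obtain ⟨Cp, cp, hCp, hP⟩ := hP
  refine ⟨Cb + Co + Cs + Ca + Cl + Cp, co + cs + ca + cl + cp, by linarith, ?_⟩
  set C : ℝ := Cb + Co + Cs + Ca + Cl + Cp with hC
  set c : ℕ := co + cs + ca + cl + cp with hc
  intro u hu n ν g hg hg1 ε S Q H0 θ H1 r m hlip hS1 hH1 hQ hH0 hSH hθ hθ1 hr hε hm ι _ s E hE hsub
  have h2ν : (1 : ℝ) ≤ 2 ^ ν := one_le_pow₀ (by norm_num)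
  have hP1 : (1 : ℝ) ≤ S * 2 ^ ν := by nlinarith
  have hε0 : 0 ≤ ε := by
    have := hlip 0 1 0
    have h0 : (0 : ℝ) ≤ |u (0, 1) - u (0, 0)| := abs_nonneg _
    rw [sub_zero, abs_one, mul_one] at this
    linarith
  have hH00 : 0 < H0 := by linarith
  have hH10 : 0 < H1 := by linarith
  -- comparison of the constants
  have key : ∀ (Cx : ℝ) (cx : ℕ), 0 ≤ Cx → Cx ≤ C → cx ≤ c →
      Cx * (S * 2 ^ ν) ^ cx ≤ C * (S * 2 ^ ν) ^ c := by
    intro Cx cx h0 h1 h2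
    exact mul_le_mul h1 (pow_le_pow_right₀ hP1 h2) (by positivity) (by linarith)
  have keyS : ∀ (Cx : ℝ) (cx : ℕ), 0 ≤ Cx → Cx ≤ C → cx ≤ c →
      Cx * S ^ cx ≤ C * (S * 2 ^ ν) ^ c := by
    intro Cx cx h0 h1 h2
    refine le_trans ?_ (key Cx cx h0 h1 h2)
    refine mul_le_mul_of_nonneg_left ?_ h0
    refine pow_le_pow_left₀ (by linarith) ?_ _
    nlinarith
  have hR1 : 1 ≤ C * (S * 2 ^ ν) ^ c := by
    have := key 1 0 (by norm_num) (by linarith) (Nat.zero_le _)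
    simpa using this
  have hCH : ∀ (Cx : ℝ) (cx : ℕ), 0 ≤ Cx → Cx ≤ C → cx ≤ c →
      Cx * (S * 2 ^ ν) ^ cx * H0 ≤ Q := by
    intro Cx cx h0 h1 h2
    refine le_trans ?_ hQ
    have h3 := key Cx cx h0 h1 h2
    calc Cx * (S * 2 ^ ν) ^ cx * H0 ≤ C * (S * 2 ^ ν) ^ c * H0 := by gcongr
      _ = C * (S * 2 ^ ν) ^ c * H0 * 1 := by ring
      _ ≤ C * (S * 2 ^ ν) ^ c * H0 * H1 := by
          refine mul_le_mul_of_nonneg_left hH1 (by positivity)
  have hCHH : ∀ (Cx : ℝ) (cx : ℕ), 0 ≤ Cx → Cx ≤ C → cx ≤ c →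
      Cx * (S * 2 ^ ν) ^ cx * H0 * H1 ≤ Q := by
    intro Cx cx h0 h1 h2
    refine le_trans ?_ hQ
    have h3 := key Cx cx h0 h1 h2
    gcongr
  have hCe : ∀ (Cx : ℝ) (cx : ℕ), 0 ≤ Cx → Cx ≤ C → cx ≤ c →
      Cx * (S * 2 ^ ν) ^ cx * H0 * ε ≤ 1 := by
    intro Cx cx h0 h1 h2
    refine le_trans ?_ hε
    have h3 := key Cx cx h0 h1 h2
    calc Cx * (S * 2 ^ ν) ^ cx * H0 * ε ≤ C * (S * 2 ^ ν) ^ c * H0 * ε := by gcongr
      _ = C * (S * 2 ^ ν) ^ c * H0 * 1 * ε := by ring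
      _ ≤ C * (S * 2 ^ ν) ^ c * H0 * H1 * ε := by
          refine mul_le_mul_of_nonneg_right ?_ hε0
          refine mul_le_mul_of_nonneg_left hH1 (by positivity)
  have hCeH : ∀ (Cx : ℝ) (cx : ℕ), 0 ≤ Cx → Cx ≤ C → cx ≤ c →
      Cx * (S * 2 ^ ν) ^ cx * H0 * H1 * ε ≤ 1 := by
    intro Cx cx h0 h1 h2
    refine le_trans ?_ hε
    have h3 := key Cx cx h0 h1 h2
    gcongr
  have hsubg : ∀ i j, E i j ⊆ {z | g z ≠ 0} := fun i j z hz => (hsub i j hz).1
  have hE0m : MeasurableSet {z : ℝ × ℝ | g z ≠ 0} := by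
    exact (hg.meas (measurableSet_singleton 0)).compl
  have hE0b : ∃ ρ : ℝ, ∀ z ∈ {z : ℝ × ℝ | g z ≠ 0}, |z.1| ≤ ρ ∧ |z.2| ≤ ρ := by
    obtain ⟨ρ, hρ⟩ := hg.supp
    refine ⟨ρ, fun z hz => ?_⟩
    by_contra hh
    exact hz (hρ z (by
      rw [not_and_or] at hh
      rcases hh with h | h
      · exact Or.inl (lt_of_not_ge h).le
      · exact Or.inr (lt_of_not_ge h).le))
  obtain ⟨N0, K, hK, X, hX, hQt⟩ := hB u hu n g hg hg1 S Q H0 θ r hS1
    (by have := hCH Cb 0 (by linarith) (by linarith) (Nat.zero_le _); simpa using this) hH0 hSH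
    hθ hθ1 (by linarith) ι s E hE
  refine ⟨N0, K, hK, X, ?_⟩
  have hOsc := hO u hu n g hg hg1 S Q H0 θ r hS1 hH0 hSH hθ hθ1 (by linarith) ι s E hE hsubg
    N0 K X hX hQt
  have hr2 : (0 : ℝ) < 2 ^ r := by positivity
  exact
    { s_eq := hX.s_eq
      disj := hX.disj
      lev := hX.lev
      height := hX.height
      out := hX.out
      occ := hX.occ
      sep := hX.sep
      num := hX.num
      osc := by
        refine Osc.mono hOsc ?_
        have h1 := keyS Co co (by linarith) (by linarith) (by omega)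
        gcongr
      sq := fun a => by
        refine (hS u hu n ν {z | g z ≠ 0} hE0m hE0b ε S Q H0 θ r hlip hS1
          (hCH Cs cs (by linarith) (by linarith) (by omega)) hH0 hSH hθ hθ1 (by linarith)
          (hCe Cs cs (by linarith) (by linarith) (by omega)) ι s E hE hsub _ N0 K X hX a).trans ?_
        exact mul_le_mul_left (ENNReal.ofReal_le_ofReal
          (key Cs cs (by linarith) (by linarith) (by omega))) _
      arc := fun a => by
        obtain ⟨D, hD, hDv, hDa⟩ := hA u hu n ν {z | g z ≠ 0} hE0m hE0b ε S Q H0 θ H1 r m hlip hS1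
          hH1 (hCHH Ca ca (by linarith) (by linarith) (by omega)) hH0 hSH hθ hθ1 (by linarith)
          (hCeH Ca ca (by linarith) (by linarith) (by omega)) hm ι s E hE hsub _ N0 K X hX a
        refine ⟨D, hD, hDv.trans ?_, hDa⟩
        have h1 := key Ca ca (by linarith) (by linarith) (by omega)
        have h2 : 0 < Ca * (S * 2 ^ ν) ^ ca := by positivity
        gcongr
        norm_num
      mG := fun i => tg_meas κ hu hg n s hE.meas i
      bG := tg_bdd κ hu hg n s hE.meas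
      lq := fun q hq => by
        refine (hL u hu n g hg hg1 S Q hS1 ι s E hE hsubg q hq).trans ?_
        have h1 := keyS Cl cl (by linarith) (by linarith) (by omega)
        gcongr
      prim := by
        obtain ⟨g1, h1, h2, h3, h4⟩ := hP u hu n g hg hg1 S Q hS1 ι s E hE hsubg
        refine ⟨g1, h1, h2, h3, h4.trans ?_⟩
        exact mul_le_mul_left (ENNReal.ofReal_le_ofReal
          (keyS Cp cp (by linarith) (by linarith) (by omega))) _ }

end Vale.Agent.P112.H526.GAsm
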