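import Vale.Agent.P112.H526.R0a

/-!
# P112, assembly of (F) and (T), part b: antichain splitting
-/

open MeasureTheory Set Filter
open scoped ENNReal

set_option linter.dupNamespace false

namespace Vale.Agent.P112.H526.R0

open T F30

variable {M : ℕ}

open Classical in
/-- number of active scales before `j` -/
noncomputable def cb (P : ℕ → Set (ℝ × ℝ)) (j : ℕ) (z : ℝ × ℝ) : ℕ :=
  ((Finset.range j).filter fun i => z ∈ P i).card

open Classical in
/-- number of active scales after `j` -/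
noncomputable def ca (P : ℕ → Set (ℝ × ℝ)) (n j : ℕ) (z : ℝ × ℝ) : ℕ :=
  ((Finset.Ioo j n).filter fun i => z ∈ P i).card

theorem cb_lt {P : ℕ → Set (ℝ × ℝ)} {j j' : ℕ} (h : j < j') {z : ℝ × ℝ} (hz : z ∈ P j) :
    cb P j z < cb P j' z := by
  classical
  unfold cb
  apply Finset.card_lt_card
  rw [Finset.ssubset_iff_of_subset]
  · exact ⟨j, by simp [h, hz], by simp⟩
  · intro i hi
    simp only [Finset.mem_filter, Finset.mem_range] at hi ⊢
    exact ⟨hi.1.trans h, hi.2⟩

theorem ca_lt {n : ℕ} {P : ℕ → Set (ℝ × ℝ)} {j j' : ℕ} (h : j < j') (hn : j' < n) {z : ℝ × ℝ}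
    (hz : z ∈ P j') : ca P n j' z < ca P n j z := by
  classical
  unfold ca
  apply Finset.card_lt_card
  rw [Finset.ssubset_iff_of_subset]
  · exact ⟨j', by simp [h, hn, hz], by simp⟩
  · intro i hi
    simp only [Finset.mem_filter, Finset.mem_Ioo] at hi ⊢
    exact ⟨⟨h.trans hi.1.1, hi.1.2⟩, hi.2⟩

theorem good_of_counts {n : ℕ} {P : ℕ → Set (ℝ × ℝ)} (hP : PSys n P) {l L j : ℕ} {z : ℝ × ℝ}
    (hz : z ∈ P j) (h1 : l ≤ cb P j z) (h2 : L ≤ ca P n j z) : z ∈ good P l L j := by
  classical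
  have a1 : l ≤ j ∧ z ∈ P (j - l) := by
    rcases Nat.eq_zero_or_pos l with h0 | h0
    · subst h0; exact ⟨Nat.zero_le _, by simpa using hz⟩
    · have : ∃ i, i < j ∧ z ∈ P i ∧ i + l ≤ j := by
        by_contra hc
        push Not at hc
        have hsub : (Finset.range j).filter (fun i => z ∈ P i) ⊆ Finset.Ico (j + 1 - l) j := by
          intro i hi
          simp only [Finset.mem_filter, Finset.mem_range] at hi
          have := hc i hi.1 hi.2
          simp only [Finset.mem_Ico]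
          omega
        have hcard := Finset.card_le_card hsub
        rw [Nat.card_Ico] at hcard
        unfold cb at h1
        omega
      obtain ⟨i, hij, hi, hil⟩ := this
      refine ⟨by omega, hP.conv z i (j - l) j (by omega) (by omega) hi hz⟩
  have a2 : z ∈ P (j + L) := by
    rcases Nat.eq_zero_or_pos L with h0 | h0
    · subst h0; simpa using hz
    · have : ∃ i, j < i ∧ z ∈ P i ∧ j + L ≤ i := by
        by_contra hc
        push Not at hc
        have hsub : (Finset.Ioo j n).filter (fun i => z ∈ P i) ⊆ Finset.Ioo j (j + L) := by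
          intro i hi
          simp only [Finset.mem_filter, Finset.mem_Ioo] at hi
          have := hc i hi.1.1 hi.2
          simp only [Finset.mem_Ioo]
          omega
        have hcard := Finset.card_le_card hsub
        rw [Nat.card_Ioo] at hcard
        unfold ca at h2
        omega
      obtain ⟨i, hij, hi, hil⟩ := this
      exact hP.conv z j (j + L) i (by omega) hil hz hi
  exact ⟨hz, a1.1, a1.2, a2⟩

theorem cb_meas {P : ℕ → Set (ℝ × ℝ)} (hP : ∀ j, MeasurableSet (P j)) (j : ℕ) :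
    Measurable (cb P j) := by
  classical
  have : cb P j = fun z => ∑ i ∈ Finset.range j, (P i).indicator (fun _ => (1 : ℕ)) z := by
    funext z
    unfold cb
    rw [Finset.card_filter]
    exact Finset.sum_congr rfl fun i _ => by simp [indicator_apply]
  rw [this]
  exact Finset.measurable_sum _ fun i _ => measurable_const.indicator (hP i)

theorem ca_meas {P : ℕ → Set (ℝ × ℝ)} (hP : ∀ j, MeasurableSet (P j)) (n j : ℕ) :
    Measurable (ca P n j) := by
  classical
  have : ca P n j = fun z => ∑ i ∈ Finset.Ioo j n, (P i).indicator (fun _ => (1 : ℕ)) z := by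
    funext z
    unfold ca
    rw [Finset.card_filter]
    exact Finset.sum_congr rfl fun i _ => by simp [indicator_apply]
  rw [this]
  exact Finset.measurable_sum _ fun i _ => measurable_const.indicator (hP i)

/-- the pieces: `inl i` = the `i`-th scale from the beginning, `inr i` = the `i`-th scale from
the end. -/
def piece (P R : ℕ → Set (ℝ × ℝ)) (n l : ℕ) : ℕ ⊕ ℕ → ℕ → Set (ℝ × ℝ)
  | Sum.inl i, j => {z | z ∈ R j ∧ cb P j z = i}
  | Sum.inr i, j => {z | z ∈ R j ∧ l ≤ cb P j z ∧ ca P n j z = i}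

theorem piece_sub (P R : ℕ → Set (ℝ × ℝ)) (n l : ℕ) (i : ℕ ⊕ ℕ) (j : ℕ) :
    piece P R n l i j ⊆ R j := by
  cases i with
  | inl i => exact fun z hz => hz.1
  | inr i => exact fun z hz => hz.1

theorem piece_meas {P R : ℕ → Set (ℝ × ℝ)} (hP : ∀ j, MeasurableSet (P j))
    (hR : ∀ j, MeasurableSet (R j)) (n l : ℕ) (i : ℕ ⊕ ℕ) (j : ℕ) :
    MeasurableSet (piece P R n l i j) := by
  cases i with
  | inl i => exact (hR j).inter (cb_meas hP j (measurableSet_singleton i))
  | inr i =>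
    exact (hR j).inter ((cb_meas hP j (measurableSet_Ici (a := l))).inter
      (ca_meas hP n j (measurableSet_singleton i)))

theorem piece_disj {n : ℕ} {P R : ℕ → Set (ℝ × ℝ)} (hP : PSys n P) (hR : ∀ j, R j ⊆ P j) (l : ℕ)
    (i : ℕ ⊕ ℕ) (j j' : ℕ) (hj : j ≠ j') : Disjoint (piece P R n l i j) (piece P R n l i j') := by
  have key : ∀ a b : ℕ, a < b → ∀ z, z ∈ piece P R n l i a → z ∈ piece P R n l i b → False := by
    intro a b hab z ha hb
    have hbn : b < n := by
      by_contra hc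
      have : z ∈ P b := hR b (piece_sub P R n l i b hb)
      rw [hP.lt b (not_lt.1 hc)] at this
      exact this
    cases i with
    | inl i =>
      have := cb_lt hab (hR a ha.1)
      rw [ha.2, hb.2] at this
      exact lt_irrefl _ this
    | inr i =>
      have := ca_lt hab hbn (hR b hb.1)
      rw [ha.2.2, hb.2.2] at this
      exact lt_irrefl _ this
  rw [Set.disjoint_left]
  intro z h1 h2
  rcases lt_or_gt_of_ne hj with h | h
  · exact key j j' h z h1 h2
  · exact key j' j h z h2 h1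

theorem piece_ind {n : ℕ} {P R : ℕ → Set (ℝ × ℝ)} (hP : PSys n P) (l L : ℕ)
    (hR : ∀ j, R j ⊆ P j) (hR2 : ∀ j, ∀ z ∈ R j, z ∉ good P l L j) (g : ℝ × ℝ → ℝ) (j : ℕ)
    (z : ℝ × ℝ) : (R j).indicator g z =
      ∑ i ∈ (Finset.range l).disjSum (Finset.range L), (piece P R n l i j).indicator g z := by
  refine ind_part _ _ _ g (fun i _ => piece_sub P R n l i j) ?_ ?_ z
  · intro z hz
    by_cases h1 : cb P j z < l
    · refine ⟨Sum.inl (cb P j z), ?_, hz, rfl⟩
      rw [Finset.inl_mem_disjSum, Finset.mem_range]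
      exact h1
    · refine ⟨Sum.inr (ca P n j z), ?_, hz, not_lt.1 h1, rfl⟩
      rw [Finset.inr_mem_disjSum, Finset.mem_range]
      by_contra h2
      exact hR2 j z hz (good_of_counts hP (hR j hz) (not_lt.1 h1) (not_lt.1 h2))
  · intro z i hi i' hi' h h'
    rcases i with i | i <;> rcases i' with i' | i'
    · rw [← h.2, ← h'.2]
    · exfalso
      rw [Finset.inl_mem_disjSum, Finset.mem_range] at hi
      have := h'.2.1
      rw [h.2] at this
      omega
    · exfalso
      rw [Finset.inl_mem_disjSum, Finset.mem_range] at hi'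
      have := h.2.1
      rw [h'.2] at this
      omega
    · rw [← h.2.2, ← h'.2.2]

theorem Un_mono {E P : ℕ → Set (ℝ × ℝ)} {n : ℕ} (h : ∀ j < n, E j ⊆ P j) : Un E n ⊆ Un P n := by
  rintro z ⟨j, hj, hz⟩
  exact ⟨j, hj, h j hj hz⟩

theorem PSys.Un_lt_top {n : ℕ} {P : ℕ → Set (ℝ × ℝ)} (hP : PSys n P) : volume (Un P n) < ⊤ := by
  obtain ⟨r, hr⟩ := hP.bdd
  refine lt_of_le_of_lt (measure_mono (t := Icc (-r) r ×ˢ Icc (-r) r) ?_) ?_
  · rintro z ⟨j, hj, hz⟩
    obtain ⟨h1, h2⟩ := hr j z hz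
    exact ⟨mem_Icc.2 (abs_le.1 h1), mem_Icc.2 (abs_le.1 h2)⟩
  · exact (isCompact_Icc.prod isCompact_Icc).measure_lt_top

theorem int_abs_le {g : ℝ × ℝ → ℝ} (hg1 : ∀ z, |g z| ≤ 1) {A B : Set (ℝ × ℝ)}
    (hAB : A ⊆ B) (hB : volume B < ⊤) : ∫ z in A, |g z| ≤ (volume B).toReal := by
  have h1 : ‖∫ z in A, |g z|‖ ≤ 1 * volume.real A :=
    norm_setIntegral_le_of_norm_le_const (lt_of_le_of_lt (measure_mono hAB) hB)
      fun z _ => by simpa using hg1 z
  rw [one_mul] at h1
  exact (le_abs_self _).trans (h1.trans (ENNReal.toReal_mono hB.ne (measure_mono hAB)))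

theorem int_sq_le {g : ℝ × ℝ → ℝ} (hg1 : ∀ z, |g z| ≤ 1) {A : Set (ℝ × ℝ)}
    (hA : volume A < ⊤) : ∫ z in A, g z ^ 2 ≤ (volume A).toReal := by
  have h1 : ‖∫ z in A, g z ^ 2‖ ≤ 1 * volume.real A :=
    norm_setIntegral_le_of_norm_le_const hA
      fun z _ => by
        rw [Real.norm_eq_abs, abs_pow]
        exact pow_le_one₀ (abs_nonneg _) (hg1 z)
  rw [one_mul] at h1
  exact (le_abs_self _).trans h1

/-- Antichain estimate for the rest. -/
theorem anti_bound (C0 : ℝ) {a : ℕ} (h3 : StN3 M a C0) (κ : Ker M) (hκ : κ.Bd 1 C0) :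
    ∃ C : ℝ, 0 < C ∧ ∀ (u : ℝ × ℝ → ℝ), Field u → ∀ (n : ℕ) (P R : ℕ → Set (ℝ × ℝ)) (l L : ℕ)
      (δ : ℝ), 0 < δ → PSys n P → DensN 1 u P n 0 a δ → (∀ j, MeasurableSet (R j)) →
      (∀ j, R j ⊆ P j) → (∀ j, ∀ z ∈ R j, z ∉ good P l L j) →
      ∀ g : ℝ × ℝ → ℝ, Nice g → (∀ z, |g z| ≤ 1) →
      nrm (κ.FS u g R n) ≤ (l + L : ℕ) * √(C * δ * (volume (Un P n)).toReal) := by
  obtain ⟨C, hC, hT⟩ := h3
  refine ⟨C, hC, ?_⟩
  intro u hu n P R l L δ hδ hP hD hRm hR hR2 g hg hg1
  have hpm := fun i j => piece_meas hP.meas hRm n l i j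
  refine (nrm_FS_split κ hu hg _ R (piece P R n l) (fun i _ j => hpm i j) n
    (fun j _ z => piece_ind hP l L hR hR2 g j z)).trans ?_
  have hpiece : ∀ i ∈ (Finset.range l).disjSum (Finset.range L),
      nrm (κ.FS u g (piece P R n l i) n) ≤ √(C * δ * (volume (Un P n)).toReal) := by
    intro i _
    apply nrm_le_sqrt
    refine (hT 1 κ hκ 0 u hu n (piece P R n l i) (hpm i)
      (fun j j' h => piece_disj hP hR l i j j' h) δ hδ
      (DensN_mono hD fun j _ => (piece_sub P R n l i j).trans (hR j)) g hg hg1).trans ?_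
    gcongr
    exact int_abs_le hg1 (Un_mono fun j _ => (piece_sub P R n l i j).trans (hR j))
      (PSys.Un_lt_top hP)
  refine (Finset.sum_le_sum hpiece).trans ?_
  rw [Finset.sum_const, Finset.card_disjSum, Finset.card_range, Finset.card_range, nsmul_eq_mul]

end Vale.Agent.P112.H526.R0
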