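import Vale.Agent.P112.H526.R0b

/-!
# P112, assembly of (F) and (T), part c: one forest, one class
-/

open MeasureTheory Set Filter
open scoped ENNReal

set_option linter.dupNamespace false

namespace Vale.Agent.P112.H526.R0

open T F30

variable {M : ℕ}

theorem sum_un {n : ℕ} {P : ℕ → Set (ℝ × ℝ)} (hP : PSys n P) {ι : Type} [Fintype ι]
    {E : ι → ℕ → Set (ℝ × ℝ)} (hE : ∀ i j, MeasurableSet (E i j)) (hsub : ∀ i j, E i j ⊆ P j)
    (huniq : ∀ i i' j j' z, z ∈ E i j → z ∈ E i' j' → i = i') {g : ℝ × ℝ → ℝ}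
    (hg1 : ∀ z, |g z| ≤ 1) :
    ∑ i, ∫ z in Un (E i) n, g z ^ 2 ≤ (volume (Un P n)).toReal := by
  classical
  have hlt : ∀ i, volume (Un (E i) n) < ⊤ := fun i =>
    lt_of_le_of_lt (measure_mono (Un_mono fun j _ => hsub i j)) (PSys.Un_lt_top hP)
  have h1 : ∑ i, ∫ z in Un (E i) n, g z ^ 2 ≤ ∑ i, (volume (Un (E i) n)).toReal :=
    Finset.sum_le_sum fun i _ => int_sq_le hg1 (hlt i)
  refine h1.trans ?_
  rw [← ENNReal.toReal_sum fun i _ => (hlt i).ne]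
  apply ENNReal.toReal_mono (PSys.Un_lt_top hP).ne
  rw [← measure_biUnion_finset]
  · refine measure_mono (iUnion₂_subset fun i _ => Un_mono fun j _ => hsub i j)
  · intro i _ i' _ hne
    rw [Function.onFun, Set.disjoint_left]
    rintro z ⟨j, _, hz⟩ ⟨j', _, hz'⟩
    exact hne (huniq i i' j j' z hz hz')
  · exact fun i _ => measurableSet_Un (hE i) n

/-- One forest. -/
theorem forest_bound (C0 : ℝ) (a : ℕ) (h2 : StN2 M 1 C0) (h4 : StN4 M 1 C0) (κ : Ker M)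
    (hκ : κ.Bd 1 C0) :
    ∃ C : ℝ, 0 < C ∧ ∀ (u : ℝ × ℝ → ℝ), Field u → ∀ (n : ℕ) (P : ℕ → Set (ℝ × ℝ))
      (δ : ℝ), 0 < δ → PSys n P → DensN 1 u P n 0 a δ →
      ∀ (ι : Type) [Fintype ι] (τ : ℝ) (s c : ι → ℝ) (lev : ι → ℕ) (m : ι → ℤ)
      (E : ι → ℕ → Set (ℝ × ℝ)) (Q : ℝ), 1 ≤ Q →
      ForestN 1 u τ 1 1 (1 + 3) Q n s c lev m E → (∀ i j, E i j ⊆ P j) →
      (∀ i i' j j' z, z ∈ E i j → z ∈ E i' j' → i = i') →
      ∀ g : ℝ × ℝ → ℝ, Nice g → (∀ z, |g z| ≤ 1) →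
      ∫ ζ, (∑ i, κ.FS u g (E i) n ζ) ^ 2 ≤ C * (δ * (volume (Un P n)).toReal +
        1 / √Q * √(∑ i, (1 / 2 : ℝ) ^ lev i) * √((volume (Un P n)).toReal)) := by
  obtain ⟨C2, hC2, hT2⟩ := h2
  obtain ⟨C4, hC4, hT4⟩ := h4
  refine ⟨C2 * 2 ^ a + C4 * 4, by positivity, ?_⟩
  intro u hu n P δ hδ hP hD ι _ τ s c lev m E Q hQ hF hsub huniq g hg hg1
  set V := (volume (Un P n)).toReal with hV
  have hsum : ∑ i, ∫ z in Un (E i) n, g z ^ 2 ≤ V := sum_un hP hF.meas hsub huniq hg1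
  have htree : ∀ i, ∫ ζ, (κ.FS u g (E i) n ζ) ^ 2 ≤
      C2 * (2 ^ a * δ) * ∫ z in Un (E i) n, g z ^ 2 := by
    intro i
    refine hT2 1 κ hκ 0 u hu n (E i) (hF.meas i) (s i) (hF.slope i) (hF.conv i) (2 ^ a * δ)
      (by positivity) ?_ g hg
    intro j1 hj1 z1 hz1 i' hi'
    refine le_trans (measure_mono ?_) (hD j1 hj1 z1 (hsub i j1 hz1) 2 (by norm_num) (s i)
      (z1.2 - s i * z1.1) ?_ ?_ i' hi')
    · rintro z ⟨hz, hq, hl, hs⟩
      refine ⟨Un_mono (fun j _ => hsub i j) hz, hq, ?_, ?_⟩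
      · have : z.2 - (z1.2 - s i * z1.1) - s i * z.1 =
            z.2 - s i * z.1 - (z1.2 - s i * z1.1) := by ring
        rw [this]
        linarith
      · simpa using hs
    · rw [abs_sub_comm]
      refine (hF.slope i j1 hj1 z1 hz1).trans ?_
      gcongr
      norm_num
    · have : z1.2 - (z1.2 - s i * z1.1) - s i * z1.1 = 0 := by ring
      rw [this]; norm_num
  have h4' := hT4 1 κ hκ τ u hu n ι s c lev m E 1 (1 + 3) Q le_rfl (by norm_num) hQ hF g hg hg1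
  refine h4'.trans ?_
  have e1 : ∑ i, ∫ ζ, (κ.FS u g (E i) n ζ) ^ 2 ≤ C2 * (2 ^ a * δ) * V := by
    refine (Finset.sum_le_sum fun i _ => htree i).trans ?_
    rw [← Finset.mul_sum]
    gcongr
  have e2 : C4 * (1 + 3) / √Q * √(∑ i, (1 / 2 : ℝ) ^ lev i) *
      √(∑ i, ∫ z in Un (E i) n, g z ^ 2) ≤
      C4 * (1 + 3) / √Q * √(∑ i, (1 / 2 : ℝ) ^ lev i) * √V := by gcongr
  have hV0 : 0 ≤ V := ENNReal.toReal_nonneg
  have hx : 0 ≤ 1 / √Q * √(∑ i, (1 / 2 : ℝ) ^ lev i) * √V := by positivity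
  have hy : 0 ≤ δ * V := by positivity
  calc _ ≤ C2 * (2 ^ a * δ) * V + C4 * (1 + 3) / √Q * √(∑ i, (1 / 2 : ℝ) ^ lev i) * √V :=
        add_le_add e1 e2
    _ = C2 * 2 ^ a * (δ * V) + C4 * 4 * (1 / √Q * √(∑ i, (1 / 2 : ℝ) ^ lev i) * √V) := by ring
    _ ≤ (C2 * 2 ^ a + C4 * 4) * (δ * V + 1 / √Q * √(∑ i, (1 / 2 : ℝ) ^ lev i) * √V) := by
        have h1 : 0 ≤ C2 * 2 ^ a := by positivity
        have h2 : 0 ≤ C4 * 4 := by positivity
        nlinarith [mul_nonneg h1 hx, mul_nonneg h2 hy]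

/-- One class. -/
theorem class_bound (C0 : ℝ) (a : ℕ) (h2 : StN2 M 1 C0) (h3 : StN3 M a C0) (h4 : StN4 M 1 C0)
    (κ : Ker M) (hκ : κ.Bd 1 C0) (hFF : StFF) (hFT : StFT) :
    ∃ C : ℝ, 0 < C ∧ ∀ (u : ℝ × ℝ → ℝ), Field u → ∀ (n : ℕ) (P : ℕ → Set (ℝ × ℝ))
      (δ S Q D : ℝ) (l L : ℕ), 0 < δ → PSys n P → DensN 1 u P n 0 a δ → CT u P S D →
      2 ≤ S → 1 ≤ Q → 8 * (1 + S + Q) ≤ D → 8 * S ≤ 2 ^ l → 8 * Q ≤ 2 ^ L → 4 ≤ L →
      ∀ (κ' : Type) [Fintype κ'] (T : Tops κ'),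
      (∀ j, ∀ z ∈ P j, ∃ m, T.j m ≤ j ∧ |z.1 - T.x m| ≤ 1 / 2 ^ T.j m ∧
        |u z - T.s m| ≤ S * 2 ^ j ∧ |z.2 - T.line m z.1| ≤ S) →
      ∀ g : ℝ × ℝ → ℝ, Nice g → (∀ z, |g z| ≤ 1) →
      nrm (κ.FS u g P n) ≤ C * (S * √(δ * (volume (Un P n)).toReal +
        1 / √Q * √(S * ∑ m, (1 / 2 : ℝ) ^ T.j m) * √((volume (Un P n)).toReal)) +
        (l + L : ℕ) * √(δ * (volume (Un P n)).toReal)) := by
  classical
  obtain ⟨CF, hCF, hFor⟩ := forest_bound C0 a h2 h4 κ hκ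
  obtain ⟨CA, hCA, hAnt⟩ := anti_bound C0 h3 κ hκ
  obtain ⟨C1, hC1, hFF⟩ := hFF
  obtain ⟨CT', hCT', hFT⟩ := hFT
  set CB := √(CF * (1 + √(2 * CT'))) with hCB
  have hCB0 : 0 ≤ CB := Real.sqrt_nonneg _
  refine ⟨C1 * CB + √CA + 1, by positivity, ?_⟩
  intro u hu n P δ S Q D l L hδ hP hD hCT hS hQ hSQ hl hL hL4 κ' _ T hT g hg hg1
  obtain ⟨K, ι, hfin, τ, w, top, lev, E, hK, hfor⟩ :=
    hFF u hu n P S 1 Q D l L hS le_rfl hQ hP hCT hSQ hl hL hL4
  set V := (volume (Un P n)).toReal with hV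
  have hV0 : 0 ≤ V := ENNReal.toReal_nonneg
  set X := ∑ m, (1 / 2 : ℝ) ^ T.j m with hX
  have hX0 : 0 ≤ X := Finset.sum_nonneg fun m _ => by positivity
  -- the sets
  set F : Fin K → ℕ → Set (ℝ × ℝ) := fun k j => ⋃ i, E k i j with hF
  set R : ℕ → Set (ℝ × ℝ) := fun j => P j \ ⋃ k, F k j with hR
  have hEm : ∀ k i j, MeasurableSet (E k i j) := fun k i j => (hfor.forest k).meas i j
  have hFm : ∀ k j, MeasurableSet (F k j) := by
    intro k j
    have := hfin k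
    exact MeasurableSet.iUnion fun i => hEm k i j
  have hRm : ∀ j, MeasurableSet (R j) := fun j =>
    (hP.meas j).diff (MeasurableSet.iUnion fun k => hFm k j)
  have hRsub : ∀ j, R j ⊆ P j := fun j => sdiff_subset
  have hRgood : ∀ j, ∀ z ∈ R j, z ∉ good P l L j := by
    intro j z hz hgd
    obtain ⟨k, i, hki⟩ := hfor.cover j z hgd
    exact hz.2 (mem_iUnion.2 ⟨k, mem_iUnion.2 ⟨i, hki⟩⟩)
  have hFsub : ∀ k j, F k j ⊆ P j := fun k j => iUnion_subset fun i => hfor.sub k i j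
  -- splitting over k
  let Z : Option (Fin K) → ℕ → Set (ℝ × ℝ) := fun o => o.elim R F
  have hZm : ∀ o j, MeasurableSet (Z o j) := by
    intro o j
    cases o with
    | none => exact hRm j
    | some k => exact hFm k j
  have hsplit : nrm (κ.FS u g P n) ≤ ∑ o, nrm (κ.FS u g (Z o) n) := by
    refine nrm_FS_split κ hu hg Finset.univ P Z (fun o _ j => hZm o j) n ?_
    intro j _ z
    refine ind_part _ _ _ g ?_ ?_ ?_ z
    · intro o _
      cases o with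
      | none => exact hRsub j
      | some k => exact hFsub k j
    · intro z hz
      by_cases h : z ∈ ⋃ k, F k j
      · obtain ⟨k, hk⟩ := mem_iUnion.1 h
        exact ⟨some k, Finset.mem_univ _, hk⟩
      · exact ⟨none, Finset.mem_univ _, hz, h⟩
    · intro z o _ o' _ h h'
      cases o with
      | none =>
        cases o' with
        | none => rfl
        | some k => exact absurd (mem_iUnion.2 ⟨k, h'⟩) h.2
      | some k =>
        cases o' with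
        | none => exact absurd (mem_iUnion.2 ⟨k, h⟩) h'.2
        | some k' =>
          obtain ⟨i, hi⟩ := mem_iUnion.1 h
          obtain ⟨i', hi'⟩ := mem_iUnion.1 h'
          rw [hfor.uniq j z k i k' i' hi hi']
  rw [Fintype.sum_option] at hsplit
  -- the rest
  have hrest : nrm (κ.FS u g (Z none) n) ≤ √CA * ((l + L : ℕ) * √(δ * V)) := by
    refine (hAnt u hu n P R l L δ hδ hP hD hRm hRsub hRgood g hg hg1).trans ?_
    rw [mul_assoc, Real.sqrt_mul hCA.le]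
    ring_nf
    rfl
  -- the forests
  have hforest : ∀ k, nrm (κ.FS u g (Z (some k)) n) ≤
      CB * √(δ * V + 1 / √Q * √(S * X) * √V) := by
    intro k
    have := hfin k
    have hFk := hfor.forest k
    have hlen : ∑ i, (1 / 2 : ℝ) ^ lev k i ≤ 2 * CT' * (S * X) := by
      have := hFT u hu κ' T S 1 S (by linarith) le_rfl (by linarith) (ι k) (τ k) (top k) (lev k)
        (fun i => hT (lev k i) (top k i) (hfor.top_mem k i)) (hfor.not_near k)
      refine this.trans (le_of_eq ?_)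
      rw [← hX]; ring
    have hsum : κ.FS u g (F k) n = fun ζ => ∑ i, κ.FS u g (E k i) n ζ := by
      refine FS_split κ hu hg Finset.univ (F k) (E k) (fun i _ j => hEm k i j) n ?_
      intro j _ z
      refine ind_part _ _ _ g (fun i _ => subset_iUnion (fun i => E k i j) i) ?_ ?_ z
      · intro z hz
        obtain ⟨i, hi⟩ := mem_iUnion.1 hz
        exact ⟨i, Finset.mem_univ _, hi⟩
      · intro z i _ i' _ h h'
        exact hfor.uniq_top k i i' j j z h h'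
    have hb := hFor u hu n P δ hδ hP hD (ι k) (τ k) _ _ (lev k) _ (E k) Q hQ hFk
      (hfor.sub k) (fun i i' j j' z => hfor.uniq_top k i i' j j' z) g hg hg1
    change nrm (κ.FS u g (F k) n) ≤ _
    rw [hsum, hCB, ← Real.sqrt_mul (by positivity)]
    apply nrm_le_sqrt
    refine hb.trans ?_
    rw [mul_assoc CF]
    gcongr
    have e1 : √(∑ i, (1 / 2 : ℝ) ^ lev k i) ≤ √(2 * CT') * √(S * X) := by
      rw [← Real.sqrt_mul (by positivity)]
      exact Real.sqrt_le_sqrt hlen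
    have e2 : 1 / √Q * √(∑ i, (1 / 2 : ℝ) ^ lev k i) * √V ≤
        √(2 * CT') * (1 / √Q * √(S * X) * √V) := by
      calc 1 / √Q * √(∑ i, (1 / 2 : ℝ) ^ lev k i) * √V
          ≤ 1 / √Q * (√(2 * CT') * √(S * X)) * √V := by gcongr
        _ = √(2 * CT') * (1 / √Q * √(S * X) * √V) := by ring
    have e3 : 0 ≤ √(2 * CT') * (δ * V) := by positivity
    have e4 : 0 ≤ 1 / √Q * √(S * X) * √V := by positivity
    rw [← hV]
    nlinarith
  refine hsplit.trans ((add_le_add hrest (Finset.sum_le_sum fun k _ => hforest k)).trans ?_)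
  rw [Finset.sum_const, Finset.card_univ, Fintype.card_fin, nsmul_eq_mul]
  have hS0 : 0 ≤ S := by linarith
  have w1 : 0 ≤ √(δ * V + 1 / √Q * √(S * X) * √V) := Real.sqrt_nonneg _
  have w2 : 0 ≤ (l + L : ℕ) * √(δ * V) := by positivity
  have w3 : (K : ℝ) * (CB * √(δ * V + 1 / √Q * √(S * X) * √V)) ≤
      C1 * CB * (S * √(δ * V + 1 / √Q * √(S * X) * √V)) := by
    calc (K : ℝ) * (CB * √(δ * V + 1 / √Q * √(S * X) * √V)) ≤
        C1 * S * (CB * √(δ * V + 1 / √Q * √(S * X) * √V)) := by gcongr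
      _ = _ := by ring
  have w4 : 0 ≤ S * √(δ * V + 1 / √Q * √(S * X) * √V) := by positivity
  have w5 : 0 ≤ √CA := Real.sqrt_nonneg _
  have w6 : 0 ≤ C1 * CB := by positivity
  nlinarith [mul_nonneg w5 w4, mul_nonneg w6 w2]

end Vale.Agent.P112.H526.R0
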