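import Vale.Agent.P112.H526.R0c

/-!
# P112, assembly of (F) and (T), part d: the numerical part
-/

open MeasureTheory Set Filter
open scoped ENNReal

set_option linter.dupNamespace false

namespace Vale.Agent.P112.H526.R0

theorem geo_sum {ρ c' : ℝ} (hρ0 : 0 ≤ ρ) (hρ1 : ρ < 1) (hc : 0 ≤ c') (N : ℕ) (y : ℕ → ℝ)
    (h1 : ∀ i, y i ≤ 1) (h2 : ∀ i, N < i → y i ≤ c' * ρ ^ (i - 1 - N)) (R : ℕ) :
    ∑ i ∈ Finset.range R, y i ≤ N + 1 + c' / (1 - ρ) := by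
  have key : ∀ R : ℕ, ∑ i ∈ Finset.range R, y i ≤
      ((min R (N + 1) : ℕ) : ℝ) + c' * ∑ k ∈ Finset.range (R - 1 - N), ρ ^ k := by
    intro R
    induction R with
    | zero => simp
    | succ R ih =>
      rw [Finset.sum_range_succ]
      by_cases hR : R ≤ N
      · have e1 : min (R + 1) (N + 1) = min R (N + 1) + 1 := by omega
        have e2 : R + 1 - 1 - N = R - 1 - N := by omega
        rw [e1, e2]
        push_cast at ih ⊢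
        linarith [h1 R]
      · have e1 : min (R + 1) (N + 1) = min R (N + 1) := by omega
        have e2 : R + 1 - 1 - N = (R - 1 - N) + 1 := by omega
        rw [e1, e2, Finset.sum_range_succ, mul_add]
        linarith [h2 R (not_le.1 hR)]
  refine (key R).trans ?_
  have h3 : ((min R (N + 1) : ℕ) : ℝ) ≤ N + 1 := by
    have : min R (N + 1) ≤ N + 1 := min_le_right _ _
    exact_mod_cast this
  have h4 : ∑ k ∈ Finset.range (R - 1 - N), ρ ^ k ≤ 1 / (1 - ρ) := by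
    rw [le_div_iff₀ (by linarith), geom_sum_mul_neg]
    have : 0 ≤ ρ ^ (R - 1 - N) := by positivity
    linarith
  calc ((min R (N + 1) : ℕ) : ℝ) + c' * ∑ k ∈ Finset.range (R - 1 - N), ρ ^ k
      ≤ (N + 1) + c' * (1 / (1 - ρ)) := by gcongr
    _ = _ := by ring

/-- `2 ^ (1/4)` -/
noncomputable def bt : ℝ := √√2

theorem bt_pow4 : bt ^ 4 = 2 := by
  unfold bt
  rw [show (4 : ℕ) = 2 * 2 from rfl, pow_mul, Real.sq_sqrt (Real.sqrt_nonneg _),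
    Real.sq_sqrt (by norm_num)]

theorem bt_sq : bt ^ 2 = √2 := by
  unfold bt
  rw [Real.sq_sqrt (Real.sqrt_nonneg _)]

theorem bt_ge : 7 / 6 ≤ bt := by
  unfold bt
  apply Real.le_sqrt_of_sq_le
  apply Real.le_sqrt_of_sq_le
  norm_num

theorem bt_pos : 0 < bt := by linarith [bt_ge]

theorem one_le_bt : 1 ≤ bt := by linarith [bt_ge]

theorem bt_le : bt ≤ 2 := by
  unfold bt
  rw [Real.sqrt_le_left (by norm_num), Real.sqrt_le_left (by norm_num)]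
  norm_num

theorem bt_pow_two_mul_sq (ν : ℕ) : (bt ^ (2 * ν)) ^ 2 = 2 ^ ν := by
  rw [← pow_mul, show 2 * ν * 2 = 4 * ν by ring, pow_mul, bt_pow4]

theorem sqrt_half_pow (ν : ℕ) : √((1 / 2 : ℝ) ^ ν) = (bt ^ (2 * ν))⁻¹ := by
  have h : ((1 / 2 : ℝ)) ^ ν = ((bt ^ (2 * ν))⁻¹) ^ 2 := by
    rw [inv_pow, bt_pow_two_mul_sq]
    simp
  have hp : 0 < bt ^ (2 * ν) := pow_pos bt_pos _
  rw [h, Real.sqrt_sq (by positivity)]

theorem bern (ν : ℕ) : (ν : ℝ) + 1 ≤ 6 * bt ^ ν := by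
  have h1 : 1 + (ν : ℝ) * (1 / 6) ≤ (1 + 1 / 6) ^ ν := one_add_mul_le_pow (by norm_num) ν
  have h2 : (1 + 1 / 6 : ℝ) ^ ν ≤ bt ^ ν :=
    pow_le_pow_left₀ (by norm_num) (by linarith [bt_ge]) ν
  have h3 : (0 : ℝ) ≤ ν := Nat.cast_nonneg _
  linarith

theorem bern2 (ν : ℕ) : (((ν : ℝ) + 1) * (bt ^ ν)⁻¹) ^ 2 ≤ 64 * (9 / 10) ^ ν := by
  have h1 : 1 + (ν : ℝ) * (1 / 8) ≤ (1 + 1 / 8) ^ ν := one_add_mul_le_pow (by norm_num) ν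
  have h3 : (0 : ℝ) ≤ ν := Nat.cast_nonneg _
  have h4 : (ν : ℝ) + 1 ≤ 8 * (9 / 8) ^ ν := by
    have : (1 + 1 / 8 : ℝ) = 9 / 8 := by norm_num
    rw [this] at h1
    linarith
  have hb : 0 < bt ^ ν := pow_pos bt_pos _
  have h5 : ((9 / 8 : ℝ) ^ ν * (bt ^ ν)⁻¹) ^ 2 ≤ (9 / 10) ^ ν := by
    have e : ((9 / 8 : ℝ) ^ ν * (bt ^ ν)⁻¹) ^ 2 = ((81 / 64) / bt ^ 2) ^ ν := by
      rw [← inv_pow, ← mul_pow, ← pow_mul, mul_comm ν 2, pow_mul]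
      congr 1
      have := bt_pos
      field_simp
      norm_num
    rw [e]
    have hs : (141 / 100 : ℝ) ≤ √2 := by
      apply Real.le_sqrt_of_sq_le
      norm_num
    refine pow_le_pow_left₀ (by positivity) ?_ ν
    rw [bt_sq, div_le_iff₀ (by positivity)]
    linarith
  calc (((ν : ℝ) + 1) * (bt ^ ν)⁻¹) ^ 2 ≤ (8 * (9 / 8) ^ ν * (bt ^ ν)⁻¹) ^ 2 := by gcongr
    _ = 64 * ((9 / 8 : ℝ) ^ ν * (bt ^ ν)⁻¹) ^ 2 := by ring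
    _ ≤ 64 * (9 / 10) ^ ν := by gcongr

theorem class_num (C c1 c2 : ℝ) (hC : 0 < C) (hc1 : 1 ≤ c1) (hc2 : 1 ≤ c2) (l0 : ℕ) :
    ∃ C3 : ℝ, 0 < C3 ∧ ∀ (ν : ℕ) (V W X : ℝ), 0 ≤ W → W ≤ V → 0 ≤ X → X ≤ 2 ^ (ν + 1) * V →
      C * ((2 * c2 * bt ^ (ν + 1)) * √(c1 * (1 / 2) ^ ν * W +
        1 / √(2 ^ (4 * ν)) * √(2 * c2 * bt ^ (ν + 1) * X) * √W) +
        ((ν + l0) + (4 * ν + 4) : ℕ) * √(c1 * (1 / 2) ^ ν * W)) ≤
      C3 * (bt ^ ν)⁻¹ * (√√W * √√V) := by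
  refine ⟨C * (2 * c2 * bt * √(c1 + √(8 * c2)) + 6 * (l0 + 9) * √c1), ?_, ?_⟩
  · have := bt_pos
    positivity
  intro ν V W X hW hWV hX hXV
  have hV : 0 ≤ V := hW.trans hWV
  have hbt := bt_pos
  set a := √√W with ha
  set b := √√V with hb
  have ha0 : 0 ≤ a := Real.sqrt_nonneg _
  have hb0 : 0 ≤ b := Real.sqrt_nonneg _
  have hab : a ≤ b := Real.sqrt_le_sqrt (Real.sqrt_le_sqrt hWV)
  have ha2 : √W = a ^ 2 := by rw [ha, Real.sq_sqrt (Real.sqrt_nonneg _)]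
  have hb2 : √V = b ^ 2 := by rw [hb, Real.sq_sqrt (Real.sqrt_nonneg _)]
  have ha4 : W = a ^ 4 := by
    rw [show (4 : ℕ) = 2 * 2 from rfl, pow_mul, ← ha2, Real.sq_sqrt hW]
  have hx : 0 < bt ^ ν := pow_pos hbt _
  have hx2 : bt ^ (2 * ν) = bt ^ ν * bt ^ ν := by rw [two_mul, pow_add]
  have h16 : √(2 ^ (4 * ν) : ℝ) = 4 ^ ν := by
    rw [show (2 : ℝ) ^ (4 * ν) = (4 ^ ν) ^ 2 by
      rw [← pow_mul, mul_comm ν 2, pow_mul, pow_mul]; norm_num]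
    exact Real.sqrt_sq (by positivity)
  have hin : √(2 * c2 * bt ^ (ν + 1) * X) ≤ √(8 * c2) * 2 ^ ν * b ^ 2 := by
    have e : √(8 * c2) * 2 ^ ν * b ^ 2 = √(8 * c2 * 4 ^ ν * V) := by
      rw [Real.sqrt_mul (show 0 ≤ 8 * c2 * 4 ^ ν by positivity) V,
        Real.sqrt_mul (show 0 ≤ 8 * c2 by positivity) (4 ^ ν), hb2]
      rw [show (4 : ℝ) ^ ν = (2 ^ ν) ^ 2 by
        rw [← pow_mul, mul_comm ν 2, pow_mul]; norm_num]
      rw [Real.sqrt_sq (by positivity)]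
    rw [e]
    apply Real.sqrt_le_sqrt
    have h1 : bt ^ (ν + 1) ≤ 2 ^ (ν + 1) := pow_le_pow_left₀ hbt.le bt_le _
    calc 2 * c2 * bt ^ (ν + 1) * X ≤ 2 * c2 * 2 ^ (ν + 1) * (2 ^ (ν + 1) * V) := by gcongr
      _ = 8 * c2 * (2 ^ ν * 2 ^ ν) * V := by ring
      _ = 8 * c2 * 4 ^ ν * V := by rw [← mul_pow]; norm_num
  have hinner : c1 * (1 / 2) ^ ν * W + 1 / √(2 ^ (4 * ν)) * √(2 * c2 * bt ^ (ν + 1) * X) * √W ≤
      (c1 + √(8 * c2)) * (1 / 2) ^ ν * (a * b) ^ 2 := by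
    rw [h16, ha2]
    have e1 : (1 / 4 ^ ν * 2 ^ ν : ℝ) = (1 / 2) ^ ν := by
      rw [one_div, ← inv_pow, ← mul_pow]; norm_num
    have e2 : a ^ 2 ≤ b ^ 2 := by gcongr
    calc c1 * (1 / 2) ^ ν * W + 1 / 4 ^ ν * √(2 * c2 * bt ^ (ν + 1) * X) * a ^ 2
        ≤ c1 * (1 / 2) ^ ν * (a ^ 2 * b ^ 2) +
          1 / 4 ^ ν * (√(8 * c2) * 2 ^ ν * b ^ 2) * a ^ 2 := by
          gcongr
          rw [ha4]
          nlinarith [sq_nonneg a]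
      _ = c1 * (1 / 2) ^ ν * (a ^ 2 * b ^ 2) +
          (1 / 4 ^ ν * 2 ^ ν) * √(8 * c2) * (a ^ 2 * b ^ 2) := by ring
      _ = (c1 + √(8 * c2)) * (1 / 2) ^ ν * (a * b) ^ 2 := by rw [e1]; ring
  have hs1 : √(c1 * (1 / 2) ^ ν * W + 1 / √(2 ^ (4 * ν)) *
      √(2 * c2 * bt ^ (ν + 1) * X) * √W) ≤
      √(c1 + √(8 * c2)) * (bt ^ (2 * ν))⁻¹ * (a * b) := by
    refine (Real.sqrt_le_sqrt hinner).trans (le_of_eq ?_)
    rw [Real.sqrt_mul (by positivity), Real.sqrt_mul (by positivity), sqrt_half_pow,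
      Real.sqrt_sq (by positivity)]
  have hs2 : √(c1 * (1 / 2) ^ ν * W) ≤ √c1 * (bt ^ (2 * ν))⁻¹ * (a * b) := by
    rw [Real.sqrt_mul (by positivity), Real.sqrt_mul (by positivity), sqrt_half_pow, ha2]
    gcongr
    nlinarith
  have hn : (((ν + l0) + (4 * ν + 4) : ℕ) : ℝ) ≤ (l0 + 9) * (6 * bt ^ ν) := by
    have h := bern ν
    have h0 : (0 : ℝ) ≤ ν := Nat.cast_nonneg _
    have h1 : (0 : ℝ) ≤ l0 := Nat.cast_nonneg _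
    have h2 : ((l0 : ℝ) + 9) * (ν + 1) ≤ (l0 + 9) * (6 * bt ^ ν) := by gcongr
    push_cast
    nlinarith [mul_nonneg h0 h1]
  have hbt2 : 0 < bt ^ (2 * ν) := pow_pos hbt _
  calc C * ((2 * c2 * bt ^ (ν + 1)) * √(c1 * (1 / 2) ^ ν * W +
        1 / √(2 ^ (4 * ν)) * √(2 * c2 * bt ^ (ν + 1) * X) * √W) +
        ((ν + l0) + (4 * ν + 4) : ℕ) * √(c1 * (1 / 2) ^ ν * W))
      ≤ C * ((2 * c2 * bt ^ (ν + 1)) * (√(c1 + √(8 * c2)) * (bt ^ (2 * ν))⁻¹ * (a * b)) +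
        ((l0 + 9) * (6 * bt ^ ν)) * (√c1 * (bt ^ (2 * ν))⁻¹ * (a * b))) := by gcongr
    _ = C * (2 * c2 * bt * √(c1 + √(8 * c2)) + 6 * (l0 + 9) * √c1) * (bt ^ ν)⁻¹ * (a * b) := by
        rw [hx2, pow_succ]
        field_simp

end Vale.Agent.P112.H526.R0
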