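import Vale.Agent.P112.H526.R0d

/-!
# P112, assembly of (F) and (T), part e: lemmas on the classes of one density level
-/

open MeasureTheory Set Filter
open scoped ENNReal

set_option linter.dupNamespace false

namespace Vale.Agent.P112.H526.R0

open T F30

variable {M : ℕ}

theorem cell_close {i : ℕ} {x y : ℝ} (h : q 0 i x = q 0 i y) : |x - y| ≤ 1 / 2 ^ i := by
  unfold q at h
  have h1 := Int.abs_sub_lt_one_of_floor_eq_floor h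
  have h2 : 2 ^ i * (x - 0) - 2 ^ i * (y - 0) = 2 ^ i * (x - y) := by ring
  rw [h2, abs_mul, abs_of_pos (by positivity : (0 : ℝ) < 2 ^ i)] at h1
  rw [le_div_iff₀ (by positivity)]
  linarith

theorem ss_pow {x : ℝ} (hx : 0 ≤ x) (k : ℕ) : √√(x ^ k) = (√√x) ^ k := by
  induction k with
  | zero => simp
  | succ k ih => rw [pow_succ, Real.sqrt_mul (by positivity), Real.sqrt_mul (by positivity), ih,
      pow_succ]

theorem geo_sum' {ρ c' b : ℝ} (hρ0 : 0 ≤ ρ) (hρ1 : ρ < 1) (hc : 0 ≤ c') (hb : 0 ≤ b) (N : ℕ)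
    (y : ℕ → ℝ) (h1 : ∀ i, y i ≤ b) (h2 : ∀ i, N < i → y i ≤ c' * ρ ^ (i - 1 - N) * b) (R : ℕ) :
    ∑ i ∈ Finset.range R, y i ≤ (N + 1 + c' / (1 - ρ)) * b := by
  rcases hb.eq_or_lt with h0 | h0
  · rw [← h0, mul_zero]
    exact Finset.sum_nonpos fun i _ => by rw [h0]; exact h1 i
  · have := geo_sum hρ0 hρ1 hc N (fun i => y i / b) (fun i => by
      rw [div_le_one h0]; exact h1 i) (fun i hi => by
      rw [div_le_iff₀ h0]; exact h2 i hi) R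
    rw [← Finset.sum_div, div_le_iff₀ h0] at this
    exact this

theorem Nw_le {κ' : Type} [Fintype κ'] (T : Tops κ') {ε : ℝ} (hε : 0 < ε) (z : ℝ × ℝ) :
    T.Nw ε z ≤ Fintype.card κ' := by
  unfold Tops.Nw
  calc ∑ m, T.w ε m z ≤ ∑ _m : κ', (1 : ℝ) := by
        refine Finset.sum_le_sum fun m _ => ?_
        unfold Tops.w
        rw [Real.exp_le_one_iff]
        have : 0 ≤ ε * (2 ^ T.j m * |z.1 - T.x m| + |z.2 - T.line m z.1|) := by positivity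
        linarith
    _ = Fintype.card κ' := by simp

theorem lt_of_zpow {x : ℝ} (hx : 1 < x) {a b : ℤ} (h : x ^ a < x ^ b) : a < b :=
  (zpow_lt_zpow_iff_right₀ hx).1 h

/-- Splitting of one level into classes. -/
theorem cls_split (κ : Ker M) {u : ℝ × ℝ → ℝ} (hu : Field u) {g : ℝ × ℝ → ℝ} (hg : Nice g)
    {κ' : Type} [Fintype κ'] (T : Tops κ') {n : ℕ} (P : ℕ → Set (ℝ × ℝ)) {S ε : ℝ} (hε : 0 < ε)
    (hm : ∀ r, PSys n (T.cls u S ε P r))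
    (hcov : ∀ j, ∀ z ∈ P j, ∃ r : ℤ, -1 ≤ r ∧ z ∈ T.cls u S ε P r j)
    (hnw : ∀ r j, ∀ z ∈ T.cls u S ε P r j, (3 / 2 : ℝ) ^ r ≤ T.Nw ε z) :
    ∃ R : ℕ, nrm (κ.FS u g P n) ≤
      ∑ i ∈ Finset.range R, nrm (κ.FS u g (T.cls u S ε P ((i : ℤ) - 1)) n) := by
  obtain ⟨R, hR⟩ := pow_unbounded_of_one_lt ((Fintype.card κ' : ℕ) : ℝ)
    (show (1 : ℝ) < 3 / 2 by norm_num)
  refine ⟨R + 1, nrm_FS_split κ hu hg _ P (fun i : ℕ => T.cls u S ε P ((i : ℤ) - 1))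
    (fun i _ j => (hm _).meas j) n fun j _ z => ?_⟩
  refine ind_part _ _ _ g (fun i _ z hz => hz.1) ?_ ?_ z
  · intro z hz
    obtain ⟨r, hr, hzr⟩ := hcov j z hz
    have h5 := hnw r j z hzr
    have h6 : (3 / 2 : ℝ) ^ r < (3 / 2) ^ (R : ℤ) := by
      rw [zpow_natCast]
      exact (h5.trans (Nw_le T hε z)).trans_lt hR
    have h7 : r < R := lt_of_zpow (by norm_num) h6
    obtain ⟨i, hi⟩ := Int.eq_ofNat_of_zero_le (show 0 ≤ r + 1 by omega)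
    refine ⟨i, ?_, ?_⟩
    · rw [Finset.mem_range]; omega
    · have : (i : ℤ) - 1 = r := by omega
      rw [this]
      exact hzr
  · intro z i _ i' _ h h'
    have a1 := lt_of_zpow (by norm_num) (h.2.1.trans_lt h'.2.2)
    have a2 := lt_of_zpow (by norm_num) (h'.2.1.trans_lt h.2.2)
    omega

theorem cls_vol {u : ℝ × ℝ → ℝ} {κ' : Type} [Fintype κ'] (T : Tops κ') {n : ℕ}
    (P : ℕ → Set (ℝ × ℝ)) {S ε Y : ℝ} (hY : 0 ≤ Y) (r : ℤ)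
    (hnw : ∀ j, ∀ z ∈ T.cls u S ε P r j, (3 / 2 : ℝ) ^ r ≤ T.Nw ε z)
    (hmeas : Measurable (T.Nw ε))
    (hint : ∫⁻ z, ENNReal.ofReal (T.Nw ε z) ≤ ENNReal.ofReal Y) :
    (3 / 2 : ℝ) ^ r * (volume (Un (T.cls u S ε P r) n)).toReal ≤ Y := by
  have h1 : ENNReal.ofReal ((3 / 2 : ℝ) ^ r) * volume (Un (T.cls u S ε P r) n) ≤
      ENNReal.ofReal Y := by
    calc ENNReal.ofReal ((3 / 2 : ℝ) ^ r) * volume (Un (T.cls u S ε P r) n)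
        = ∫⁻ _ in Un (T.cls u S ε P r) n, ENNReal.ofReal ((3 / 2 : ℝ) ^ r) := by
          rw [setLIntegral_const]
      _ ≤ ∫⁻ z in Un (T.cls u S ε P r) n, ENNReal.ofReal (T.Nw ε z) := by
          refine setLIntegral_mono hmeas.ennreal_ofReal ?_
          rintro z ⟨j, _, hz⟩
          exact ENNReal.ofReal_le_ofReal (hnw j z hz)
      _ ≤ ∫⁻ z, ENNReal.ofReal (T.Nw ε z) := setLIntegral_le_lintegral _ _
      _ ≤ _ := hint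
  have h2 := ENNReal.toReal_mono ENNReal.ofReal_ne_top h1
  rw [ENNReal.toReal_mul, ENNReal.toReal_ofReal (by positivity),
    ENNReal.toReal_ofReal hY] at h2
  exact h2

theorem vol_num {c2 : ℝ} (hc2 : 1 ≤ c2) (ν : ℕ) {X V : ℝ} (hX0 : 0 ≤ X)
    (hXV : X ≤ 2 ^ (ν + 1) * V) :
    64 * (2 + 8 * (1 + 2 * c2 * bt ^ (ν + 1) + 2 ^ (4 * ν)) + 2 * (2 * c2 * bt ^ (ν + 1))) ^ 2 * X
      ≤ 128 * (58 * c2) ^ 2 * 512 ^ ν * V := by
  have hb := bt_pos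
  have e1 : 2 + 8 * (1 + 2 * c2 * bt ^ (ν + 1) + 2 ^ (4 * ν)) + 2 * (2 * c2 * bt ^ (ν + 1)) ≤
      58 * c2 * 16 ^ ν := by
    have e16 : (2 : ℝ) ^ (4 * ν) = 16 ^ ν := by rw [pow_mul]; norm_num
    have e17 : (1 : ℝ) ≤ 16 ^ ν := one_le_pow₀ (by norm_num)
    have e18 : bt ^ ν ≤ 16 ^ ν := pow_le_pow_left₀ bt_pos.le (by linarith [bt_le]) ν
    have e19 : bt ^ (ν + 1) ≤ 2 * 16 ^ ν := by
      rw [pow_succ, mul_comm]
      have := bt_le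
      gcongr
    have e20 : 2 * c2 * bt ^ (ν + 1) ≤ 4 * c2 * 16 ^ ν := by
      calc 2 * c2 * bt ^ (ν + 1) ≤ 2 * c2 * (2 * 16 ^ ν) := by gcongr
        _ = _ := by ring
    have e21 : 16 ^ ν ≤ c2 * 16 ^ ν := by nlinarith
    rw [e16]
    linarith
  calc 64 * (2 + 8 * (1 + 2 * c2 * bt ^ (ν + 1) + 2 ^ (4 * ν)) +
        2 * (2 * c2 * bt ^ (ν + 1))) ^ 2 * X
      ≤ 64 * (58 * c2 * 16 ^ ν) ^ 2 * (2 ^ (ν + 1) * V) := by gcongr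
    _ = 128 * (58 * c2) ^ 2 * ((16 ^ ν) ^ 2 * 2 ^ ν) * V := by rw [pow_succ 2 ν]; ring
    _ = 128 * (58 * c2) ^ 2 * 512 ^ ν * V := by
        rw [← pow_mul, mul_comm ν 2, pow_mul, ← mul_pow]; norm_num

theorem dec_num {cY V W : ℝ} (hcY : 0 ≤ cY) (hV : 0 ≤ V) (ν i : ℕ) (hi : 16 * ν < i)
    (h1 : (3 / 2 : ℝ) ^ ((i : ℤ) - 1) * W ≤ cY * 512 ^ ν * V) :
    W ≤ cY * (2 / 3) ^ (i - 1 - 16 * ν) * V := by
  have h2 : (i : ℤ) - 1 = ((i - 1 : ℕ) : ℤ) := by omega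
  rw [h2, zpow_natCast] at h1
  have h3 : (2 / 3 : ℝ) ^ (i - 1) * (3 / 2) ^ (i - 1) = 1 := by
    rw [← mul_pow]; norm_num
  have h4 : (2 / 3 : ℝ) ^ (i - 1) = (2 / 3) ^ (i - 1 - 16 * ν) * ((2 / 3) ^ 16) ^ ν := by
    rw [← pow_mul, ← pow_add]
    congr 1
    omega
  have h5 : (((2 / 3 : ℝ) ^ 16) ^ ν) * 512 ^ ν ≤ 1 := by
    rw [← mul_pow]
    exact pow_le_one₀ (by positivity) (by norm_num)
  calc W = (2 / 3 : ℝ) ^ (i - 1) * ((3 / 2) ^ (i - 1) * W) := by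
        rw [← mul_assoc, h3, one_mul]
    _ ≤ (2 / 3 : ℝ) ^ (i - 1) * (cY * 512 ^ ν * V) := by gcongr
    _ = cY * (2 / 3) ^ (i - 1 - 16 * ν) * V * ((((2 / 3 : ℝ) ^ 16) ^ ν) * 512 ^ ν) := by
        rw [h4]; ring
    _ ≤ cY * (2 / 3) ^ (i - 1 - 16 * ν) * V * 1 := by gcongr
    _ = _ := mul_one _

theorem sum_num {C3 cY : ℝ} (hC3 : 0 < C3) (hcY : 0 ≤ cY) : ∃ C4 : ℝ, 0 < C4 ∧
    ∀ (ν R : ℕ) (V : ℝ) (W : ℕ → ℝ), 0 ≤ V → (∀ i, W i ≤ V) →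
      (∀ i, 16 * ν < i → W i ≤ cY * (2 / 3) ^ (i - 1 - 16 * ν) * V) →
      ∑ i ∈ Finset.range R, C3 * (bt ^ ν)⁻¹ * (√√(W i) * √√V) ≤
        C4 * (((ν : ℝ) + 1) * (bt ^ ν)⁻¹) * √V := by
  set ρ : ℝ := √√(2 / 3) with hρ
  have hρ0 : 0 ≤ ρ := Real.sqrt_nonneg _
  have hρ1 : ρ < 1 := by
    rw [hρ, Real.sqrt_lt' one_pos, Real.sqrt_lt' (by norm_num)]
    norm_num
  have h1ρ : 0 < 1 - ρ := by linarith
  refine ⟨C3 * (17 + √√cY / (1 - ρ)), by positivity, ?_⟩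
  intro ν R V W hV0 hWV hWdec
  have hsumW : ∑ i ∈ Finset.range R, √√(W i) ≤
      ((16 * ν : ℕ) + 1 + √√cY / (1 - ρ)) * √√V := by
    refine geo_sum' hρ0 hρ1 (Real.sqrt_nonneg _) (Real.sqrt_nonneg _) (16 * ν) _ ?_ ?_ _
    · exact fun i => Real.sqrt_le_sqrt (Real.sqrt_le_sqrt (hWV i))
    · intro i hi
      refine (Real.sqrt_le_sqrt (Real.sqrt_le_sqrt (hWdec i hi))).trans (le_of_eq ?_)
      rw [hρ, ← ss_pow (by norm_num), Real.sqrt_mul (by positivity), Real.sqrt_mul (by positivity),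
        Real.sqrt_mul (by positivity), Real.sqrt_mul (by positivity)]
  have hbν : 0 < bt ^ ν := pow_pos bt_pos ν
  calc ∑ i ∈ Finset.range R, C3 * (bt ^ ν)⁻¹ * (√√(W i) * √√V)
      = C3 * (bt ^ ν)⁻¹ * √√V * ∑ i ∈ Finset.range R, √√(W i) := by
        rw [Finset.mul_sum]
        exact Finset.sum_congr rfl fun i _ => by ring
    _ ≤ C3 * (bt ^ ν)⁻¹ * √√V * (((16 * ν : ℕ) + 1 + √√cY / (1 - ρ)) * √√V) := by gcongr
    _ = C3 * (bt ^ ν)⁻¹ * ((16 * ν : ℕ) + 1 + √√cY / (1 - ρ)) * (√√V * √√V) := by ring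
    _ = C3 * (bt ^ ν)⁻¹ * ((16 * ν : ℕ) + 1 + √√cY / (1 - ρ)) * √V := by
        rw [Real.mul_self_sqrt (Real.sqrt_nonneg _)]
    _ ≤ C3 * (bt ^ ν)⁻¹ * ((17 + √√cY / (1 - ρ)) * (ν + 1)) * √V := by
        gcongr
        push_cast
        have h0 : (0 : ℝ) ≤ ν := Nat.cast_nonneg _
        have h1 : 0 ≤ √√cY / (1 - ρ) := by positivity
        nlinarith [mul_nonneg h0 h1]
    _ = C3 * (17 + √√cY / (1 - ρ)) * (((ν : ℝ) + 1) * (bt ^ ν)⁻¹) * √V := by ring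

theorem supp_facts {g : ℝ × ℝ → ℝ} (hg : Nice g) :
    MeasurableSet {z | g z ≠ 0} ∧ (∃ r : ℝ, ∀ z ∈ {z | g z ≠ 0}, |z.1| ≤ r ∧ |z.2| ≤ r) ∧
      volume {z | g z ≠ 0} < ⊤ := by
  have hEb : ∃ r : ℝ, ∀ z ∈ {z | g z ≠ 0}, |z.1| ≤ r ∧ |z.2| ≤ r := by
    obtain ⟨r, hr⟩ := hg.supp
    refine ⟨r, fun z hz => ?_⟩
    by_contra hc
    apply hz
    apply hr
    by_contra hn
    push Not at hn
    exact hc ⟨hn.1.le, hn.2.le⟩
  refine ⟨hg.meas (measurableSet_singleton 0).compl, hEb, ?_⟩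
  obtain ⟨r, hr⟩ := hEb
  refine lt_of_le_of_lt (measure_mono (t := Icc (-r) r ×ˢ Icc (-r) r) ?_) ?_
  · intro z hz
    obtain ⟨h1, h2⟩ := hr z hz
    exact ⟨mem_Icc.2 (abs_le.1 h1), mem_Icc.2 (abs_le.1 h2)⟩
  · exact (isCompact_Icc.prod isCompact_Icc).measure_lt_top

end Vale.Agent.P112.H526.R0
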