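import Vale.Agent.P112.H526.R0e

/-!
# P112, assembly of (F) and (T), part f: one density level (`StR0ν`)
-/

open MeasureTheory Set Filter
open scoped ENNReal

set_option linter.dupNamespace false

namespace Vale.Agent.P112.H526.R0

open T F30

variable {M : ℕ}

/-- The tops of one level, with `S = 2 c2 2 ^ ((ν+1)/4)`. -/
theorem level_tops {c2 : ℝ} (hc2 : 1 ≤ c2)
    (hFD2 : ∀ (u : ℝ × ℝ → ℝ), Field u →
      ∀ E : Set (ℝ × ℝ), MeasurableSet E → (∃ r : ℝ, ∀ z ∈ E, |z.1| ≤ r ∧ |z.2| ≤ r) → ∀ n ν : ℕ,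
      ∀ (S H : ℝ), 1 ≤ H → 1 ≤ S → (2 : ℝ) ^ (ν + 1) ≤ S ^ 4 →
      ∃ (κ : Type) (_ : Fintype κ) (M : Tops κ),
      ENNReal.ofReal (∑ m, (1 / 2) ^ M.j m) ≤ ENNReal.ofReal (2 ^ (ν + 1)) * volume E ∧
      (∀ z, ∀ F : Finset κ, (∀ m ∈ F, z ∈ M.V u H m) → (F.card : ℝ) ≤ c2) ∧
      (∀ m, ∃ d : ℕ × ℤ × ℤ × ℤ, d.1 = M.j m ∧ Et u E d ⊆ M.V u H m ∧
        ENNReal.ofReal ((1 / 2) ^ (ν + 1) * (1 / 2) ^ M.j m) ≤ volume (Et u E d)) ∧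
      (∀ m, M.j m < n) ∧
      (∀ j, ∀ z ∈ Pd u E 4 n ν j, ∃ m, M.j m ≤ j ∧ q 0 (M.j m) z.1 = q 0 (M.j m) (M.x m) ∧
        |u z - M.s m| ≤ c2 * S * 2 ^ j ∧ |z.2 - M.line m z.1| ≤ c2 * (S + H)))
    {u : ℝ × ℝ → ℝ} (hu : Field u) {E : Set (ℝ × ℝ)} (hEm : MeasurableSet E)
    (hEb : ∃ r : ℝ, ∀ z ∈ E, |z.1| ≤ r ∧ |z.2| ≤ r) (hEfin : volume E < ⊤) (n ν : ℕ) :
    ∃ (κ' : Type) (_ : Fintype κ') (T : Tops κ'),
      ∑ m, (1 / 2 : ℝ) ^ T.j m ≤ 2 ^ (ν + 1) * (volume E).toReal ∧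
      ∀ j, ∀ z ∈ Pd u E 4 n ν j, ∃ m, T.j m ≤ j ∧ |z.1 - T.x m| ≤ 1 / 2 ^ T.j m ∧
      |u z - T.s m| ≤ 2 * c2 * bt ^ (ν + 1) * 2 ^ j ∧
      |z.2 - T.line m z.1| ≤ 2 * c2 * bt ^ (ν + 1) := by
  have hS01 : 1 ≤ bt ^ (ν + 1) := one_le_pow₀ one_le_bt
  have hS04 : (2 : ℝ) ^ (ν + 1) ≤ (bt ^ (ν + 1)) ^ 4 := by
    rw [← pow_mul, mul_comm, pow_mul, bt_pow4]
  obtain ⟨κ', hκ'f, T, hlen, -, -, -, hcov⟩ :=
    hFD2 u hu E hEm hEb n ν (bt ^ (ν + 1)) 1 le_rfl hS01 hS04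
  refine ⟨κ', hκ'f, T, ?_, ?_⟩
  · have hX0 : 0 ≤ ∑ m, (1 / 2 : ℝ) ^ T.j m := Finset.sum_nonneg fun m _ => by positivity
    have := ENNReal.toReal_mono (ENNReal.mul_ne_top ENNReal.ofReal_ne_top hEfin.ne) hlen
    rw [ENNReal.toReal_ofReal hX0, ENNReal.toReal_mul, ENNReal.toReal_ofReal (by positivity)]
      at this
    exact this
  · intro j z hz
    obtain ⟨m, h1, h2, h3, h4⟩ := hcov j z hz
    refine ⟨m, h1, cell_close h2, h3.trans ?_, h4.trans ?_⟩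
    · gcongr
      nlinarith
    · nlinarith

/-- The classes of one level: everything that is needed. -/
theorem level_classes (hFC : StFC) {c2 : ℝ} (hc2 : 1 ≤ c2) (κ : Ker M) {u : ℝ × ℝ → ℝ}
    (hu : Field u) {g : ℝ × ℝ → ℝ} (hg : Nice g) {κ' : Type} [Fintype κ'] (T : Tops κ')
    {n ν : ℕ} (P : ℕ → Set (ℝ × ℝ)) (hPS : PSys n P) {V : ℝ}
    (hXV : ∑ m, (1 / 2 : ℝ) ^ T.j m ≤ 2 ^ (ν + 1) * V)
    (htop : ∀ j, ∀ z ∈ P j, ∃ m, T.j m ≤ j ∧ |z.1 - T.x m| ≤ 1 / 2 ^ T.j m ∧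
      |u z - T.s m| ≤ 2 * c2 * bt ^ (ν + 1) * 2 ^ j ∧
      |z.2 - T.line m z.1| ≤ 2 * c2 * bt ^ (ν + 1)) :
    ∃ (R : ℕ) (cl : ℕ → ℕ → Set (ℝ × ℝ)),
      nrm (κ.FS u g P n) ≤ ∑ i ∈ Finset.range R, nrm (κ.FS u g (cl i) n) ∧
      (∀ i, PSys n (cl i)) ∧
      (∀ i, CT u (cl i) (2 * c2 * bt ^ (ν + 1))
        (8 * (1 + 2 * c2 * bt ^ (ν + 1) + 2 ^ (4 * ν)))) ∧
      (∀ i j, cl i j ⊆ P j) ∧
      (∀ i : ℕ, (3 / 2 : ℝ) ^ ((i : ℤ) - 1) * (volume (Un (cl i) n)).toReal ≤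
        128 * (58 * c2) ^ 2 * 512 ^ ν * V) := by
  have hb := bt_pos
  set S : ℝ := 2 * c2 * bt ^ (ν + 1) with hS
  set D : ℝ := 8 * (1 + S + 2 ^ (4 * ν)) with hDd
  set ε : ℝ := 1 / (4 * (2 + D + 2 * S)) with hε
  have hS0 : 0 ≤ S := by positivity
  have hD0 : 0 ≤ D := by positivity
  have hW0 : 0 < 2 + D + 2 * S := by positivity
  have hε0 : 0 < ε := by positivity
  have hεW : ε * (2 + D + 2 * S) = 1 / 4 := by
    rw [hε]; field_simp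
  obtain ⟨hc_ps, hc_ct, hc_cov, hc_nw, hc_meas, hc_int⟩ :=
    hFC κ' T u hu n P S D ε hε0 hS0 hD0 hPS hεW.le
  set X := ∑ m, (1 / 2 : ℝ) ^ T.j m with hX
  have hX0 : 0 ≤ X := Finset.sum_nonneg fun m _ => by positivity
  have hcover : ∀ j, ∀ z ∈ P j, ∃ r : ℤ, -1 ≤ r ∧ z ∈ T.cls u S ε P r j := by
    intro j z hz
    obtain ⟨m, h1, h2, h3, h4⟩ := htop j z hz
    refine hc_cov j z hz m h1 h3 ?_
    have e1 : 2 ^ T.j m * |z.1 - T.x m| ≤ 1 := by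
      rw [le_div_iff₀ (by positivity)] at h2
      linarith
    calc ε * (2 ^ T.j m * |z.1 - T.x m| + |z.2 - T.line m z.1|) ≤ ε * (2 + D + 2 * S) := by
          apply mul_le_mul_of_nonneg_left _ hε0.le
          linarith
      _ = 1 / 4 := hεW
  obtain ⟨R, hR⟩ := cls_split κ hu hg T P hε0 hc_ps hcover hc_nw
  refine ⟨R, fun i => T.cls u S ε P ((i : ℤ) - 1), hR, fun i => hc_ps _, fun i => hc_ct _,
    fun i j z hz => hz.1, fun i => ?_⟩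
  have e2 : 4 / ε ^ 2 = 64 * (2 + D + 2 * S) ^ 2 := by
    rw [hε]; field_simp; norm_num
  refine (cls_vol T P (by positivity) ((i : ℤ) - 1) (hc_nw _) hc_meas hc_int).trans ?_
  rw [e2]
  exact vol_num hc2 ν hX0 hXV

/-- One density level. -/
theorem stR0ν (C0 : ℝ) (h2 : StN2 M 1 C0) (h3 : StN3 M 6 C0) (h4 : StN4 M 1 C0) (κ : Ker M)
    (hκ : κ.Bd 1 C0) (hFF : StFF) (hFC : StFC) (hFD1 : StFD1 4) (hFD2 : StFD2 4)
    (hFT : StFT) : StR0ν κ := by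
  obtain ⟨C, hC, hcl⟩ := class_bound C0 6 h2 h3 h4 κ hκ hFF hFT
  obtain ⟨c1, hc1, hFD1⟩ := hFD1
  obtain ⟨c2, hc2, hFD2⟩ := hFD2
  obtain ⟨l0, hl0⟩ := pow_unbounded_of_one_lt (32 * c2) (one_lt_two : (1 : ℝ) < 2)
  obtain ⟨C3, hC3, hnum⟩ := class_num C c1 c2 hC hc1 hc2 l0
  have hcY0 : 0 ≤ 128 * (58 * c2) ^ 2 := by positivity
  obtain ⟨C4, hC4, hsum⟩ := sum_num hC3 hcY0
  refine ⟨C4 ^ 2 * 64, by positivity, ?_⟩
  intro u hu n ν g hg hg1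
  obtain ⟨hEm, hEb, hEfin⟩ := supp_facts hg
  obtain ⟨κ', hκ'f, T, hXV, htop⟩ := level_tops hc2 hFD2 hu hEm hEb hEfin n ν
  obtain ⟨hPS, -, -, hD, -⟩ := hFD1 u hu {z | g z ≠ 0} hEm hEb n ν
  obtain ⟨R, cl, hR, hps, hct, hsub, hvol⟩ :=
    level_classes hFC hc2 κ hu hg T (Pd u {z | g z ≠ 0} 4 n ν) hPS hXV htop
  set V := (volume {z | g z ≠ 0}).toReal with hV
  have hV0 : 0 ≤ V := ENNReal.toReal_nonneg
  have hX0 : 0 ≤ ∑ m, (1 / 2 : ℝ) ^ T.j m := Finset.sum_nonneg fun m _ => by positivity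
  have hWV : ∀ i, (volume (Un (cl i) n)).toReal ≤ V := fun i =>
    ENNReal.toReal_mono hEfin.ne (measure_mono (by
      rintro z ⟨j, _, hz⟩
      exact (hsub i j hz).1))
  have hWdec : ∀ i, 16 * ν < i → (volume (Un (cl i) n)).toReal ≤
      128 * (58 * c2) ^ 2 * (2 / 3) ^ (i - 1 - 16 * ν) * V := fun i hi =>
    dec_num hcY0 hV0 ν i hi (hvol i)
  have hb := bt_pos
  have hbν : 1 ≤ bt ^ (ν + 1) := one_le_pow₀ one_le_bt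
  have hclass : ∀ i, nrm (κ.FS u g (cl i) n) ≤
      C3 * (bt ^ ν)⁻¹ * (√√((volume (Un (cl i) n)).toReal) * √√V) := by
    intro i
    have := hcl u hu n (cl i) (c1 * (1 / 2) ^ ν) (2 * c2 * bt ^ (ν + 1)) (2 ^ (4 * ν))
      (8 * (1 + 2 * c2 * bt ^ (ν + 1) + 2 ^ (4 * ν))) (ν + l0) (4 * ν + 4) (by positivity)
      (hps i) (DensN_mono hD fun j _ => hsub i j) (hct i) (by nlinarith)
      (one_le_pow₀ (by norm_num)) le_rfl ?_ ?_ (by omega)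
      κ' T (fun j z hz => htop j z (hsub i j hz)) g hg hg1
    · exact this.trans (hnum ν V _ _ ENNReal.toReal_nonneg (hWV i) hX0 hXV)
    · have e18 : bt ^ ν ≤ 2 ^ ν := pow_le_pow_left₀ bt_pos.le bt_le ν
      have e19 : bt ^ (ν + 1) ≤ 2 * 2 ^ ν := by
        rw [pow_succ, mul_comm]
        have := bt_le
        gcongr
      calc 8 * (2 * c2 * bt ^ (ν + 1)) = 16 * c2 * bt ^ (ν + 1) := by ring
        _ ≤ 16 * c2 * (2 * 2 ^ ν) := by gcongr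
        _ = 32 * c2 * 2 ^ ν := by ring
        _ ≤ 2 ^ l0 * 2 ^ ν := by gcongr
        _ = 2 ^ (ν + l0) := by rw [pow_add]; ring
    · rw [pow_add]
      have : (0 : ℝ) < 2 ^ (4 * ν) := by positivity
      nlinarith
  have htot : nrm (κ.FS u g (Pd u {z | g z ≠ 0} 4 n ν) n) ≤
      C4 * (((ν : ℝ) + 1) * (bt ^ ν)⁻¹) * √V :=
    (hR.trans (Finset.sum_le_sum fun i _ => hclass i)).trans
      (hsum ν R V _ hV0 hWV hWdec)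
  refine (sq_of_nrm htot).trans ?_
  rw [mul_pow, mul_pow, Real.sq_sqrt hV0]
  calc C4 ^ 2 * (((ν : ℝ) + 1) * (bt ^ ν)⁻¹) ^ 2 * V ≤ C4 ^ 2 * (64 * (9 / 10) ^ ν) * V := by
        gcongr
        exact bern2 ν
    _ = _ := by ring

end Vale.Agent.P112.H526.R0
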