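import Vale.Agent.P112.H526.R0f

/-!
# P112, assembly of (F) and (T), part g: the uniform restricted bound (`StR0`)
-/

open MeasureTheory Set Filter
open scoped ENNReal

set_option linter.dupNamespace false

namespace Vale.Agent.P112.H526.R0

open T F30

variable {M : ℕ}

theorem S_eq_FS (κ : Ker M) (u : ℝ × ℝ → ℝ) (g : ℝ × ℝ → ℝ) (n : ℕ) (ζ : ℝ × ℝ) :
    ∑ j ∈ Finset.range n, κ.S u j g ζ = κ.FS u g (fun _ => {z | g z ≠ 0}) n ζ := by
  unfold Ker.FS
  refine Finset.sum_congr rfl fun j _ => ?_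
  have : ({z | g z ≠ 0} : Set (ℝ × ℝ)).indicator g = g := by
    ext z
    by_cases h : g z = 0
    · rw [h]
      by_cases h2 : z ∈ {z | g z ≠ 0}
      · exact absurd h h2
      · rw [indicator_of_notMem h2]
    · rw [indicator_of_mem (show z ∈ {z | g z ≠ 0} from h)]
  rw [this]

theorem s_pow {x : ℝ} (hx : 0 ≤ x) (k : ℕ) : √(x ^ k) = (√x) ^ k := by
  induction k with
  | zero => simp
  | succ k ih => rw [pow_succ, Real.sqrt_mul (by positivity), ih, pow_succ]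

/-- the levels, `none` = low density -/
noncomputable def lvl (u : ℝ × ℝ → ℝ) (E : Set (ℝ × ℝ)) (n ν1 : ℕ) :
    Option (Fin ν1) → ℕ → Set (ℝ × ℝ)
  | none => Plow u E 4 n ν1
  | some ν => Pd u E 4 n ν

theorem half_pow_le {a b : ℕ} (h : a ≤ b) : (1 / 2 : ℝ≥0∞) ^ b ≤ (1 / 2) ^ a :=
  pow_le_pow_right_of_le_one' (by
    rw [one_div]
    exact ENNReal.inv_le_one.2 (by norm_num)) h

theorem lvl_ind {u : ℝ × ℝ → ℝ} {E : Set (ℝ × ℝ)} {n : ℕ} (ν1 : ℕ)
    (h1 : ∀ z ∈ E, ∀ j < n, dens u E 4 z j ≤ 1) (g : ℝ × ℝ → ℝ) {j : ℕ} (hj : j < n)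
    (z : ℝ × ℝ) : E.indicator g z = ∑ o, (lvl u E n ν1 o j).indicator g z := by
  classical
  refine ind_part Finset.univ E (fun o => lvl u E n ν1 o j) g ?_ ?_ ?_ z
  · intro o _ z hz
    cases o with
    | none => exact hz.1
    | some ν => exact hz.1
  · intro z hz
    by_cases hlow : dens u E 4 z j ≤ (1 / 2) ^ ν1
    · exact ⟨none, Finset.mem_univ _, hz, hj, hlow⟩
    · have hex : ∃ k, (1 / 2 : ℝ≥0∞) ^ k < dens u E 4 z j := ⟨ν1, not_le.1 hlow⟩
      set k := Nat.find hex with hk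
      have hk1 : (1 / 2 : ℝ≥0∞) ^ k < dens u E 4 z j := Nat.find_spec hex
      have hk0 : k ≠ 0 := by
        intro h0
        rw [h0, pow_zero] at hk1
        exact absurd (h1 z hz j hj) (not_le.2 hk1)
      have hkν : k ≤ ν1 := Nat.find_min' hex (not_le.1 hlow)
      have hk2 : dens u E 4 z j ≤ (1 / 2) ^ (k - 1) :=
        not_lt.1 (Nat.find_min hex (show k - 1 < Nat.find hex by omega))
      refine ⟨some ⟨k - 1, by omega⟩, Finset.mem_univ _, hz, hj, ?_, hk2⟩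
      have : k - 1 + 1 = k := by omega
      change (1 / 2 : ℝ≥0∞) ^ (k - 1 + 1) < _
      rw [this]
      exact hk1
  · intro z o _ o' _ h h'
    have key : ∀ a b : ℕ, a < b → (1 / 2 : ℝ≥0∞) ^ (a + 1) < dens u E 4 z j →
        dens u E 4 z j ≤ (1 / 2) ^ b → False := fun a b hab h1 h2 =>
      absurd (h2.trans (half_pow_le (show a + 1 ≤ b from hab))) (not_le.2 h1)
    cases o with
    | none =>
      cases o' with
      | none => rfl
      | some ν => exact (key ν ν1 ν.2 h'.2.2.1 h.2.2).elim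
    | some ν =>
      cases o' with
      | none => exact (key ν ν1 ν.2 h.2.2.1 h'.2.2).elim
      | some ν' =>
        rcases lt_trichotomy (ν : ℕ) ν' with hlt | heq | hgt
        · exact (key ν ν' hlt h.2.2.1 h'.2.2.2).elim
        · rw [Fin.ext heq]
        · exact (key ν' ν hgt h'.2.2.1 h.2.2.2).elim

/-- Low density by single scales. -/
theorem low_bound (C0 : ℝ) {a : ℕ} (h3 : StN3 M a C0) (κ : Ker M) (hκ : κ.Bd 1 C0) :
    ∃ C : ℝ, 0 < C ∧ ∀ (u : ℝ × ℝ → ℝ), Field u → ∀ (n : ℕ) (P : ℕ → Set (ℝ × ℝ))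
      (E : Set (ℝ × ℝ)) (δ : ℝ), 0 < δ → (∀ j, MeasurableSet (P j)) → (∀ j, P j ⊆ E) →
      volume E < ⊤ → DensN 1 u P n 0 a δ →
      ∀ g : ℝ × ℝ → ℝ, Nice g → (∀ z, |g z| ≤ 1) →
      nrm (κ.FS u g P n) ≤ n * √(C * δ * (volume E).toReal) := by
  obtain ⟨C, hC, hT⟩ := h3
  refine ⟨C, hC, ?_⟩
  intro u hu n P E δ hδ hP hPE hE hD g hg hg1
  classical
  let Z : ℕ → ℕ → Set (ℝ × ℝ) := fun i j => if j = i then P j else ∅
  have hZm : ∀ i j, MeasurableSet (Z i j) := by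
    intro i j
    change MeasurableSet (if j = i then P j else ∅)
    split_ifs
    · exact hP j
    · exact MeasurableSet.empty
  have hZs : ∀ i j, Z i j ⊆ P j := by
    intro i j
    change (if j = i then P j else ∅) ⊆ P j
    split_ifs
    · exact subset_rfl
    · exact empty_subset _
  have hZe : ∀ {i j z}, z ∈ Z i j → j = i := by
    intro i j z hz
    by_contra hne
    change z ∈ (if j = i then P j else ∅) at hz
    rw [if_neg hne] at hz
    exact hz
  refine (nrm_FS_split κ hu hg (Finset.range n) P Z (fun i _ j => hZm i j) n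
    (fun j hj z => ?_)).trans ?_
  · refine ind_part _ _ _ g (fun i _ => hZs i j) ?_ ?_ z
    · intro z hz
      refine ⟨j, Finset.mem_range.2 hj, ?_⟩
      change z ∈ (if j = j then P j else ∅)
      rw [if_pos rfl]
      exact hz
    · intro z i _ i' _ h h'
      exact (hZe h).symm.trans (hZe h')
  · have hone : ∀ i ∈ Finset.range n, nrm (κ.FS u g (Z i) n) ≤
        √(C * δ * (volume E).toReal) := by
      intro i _
      apply nrm_le_sqrt
      refine (hT 1 κ hκ 0 u hu n (Z i) (hZm i) (fun j j' h => ?_) δ hδ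
        (DensN_mono hD fun j _ => hZs i j) g hg hg1).trans ?_
      · rw [Set.disjoint_left]
        intro z h1 h2
        exact h ((hZe h1).trans (hZe h2).symm)
      · gcongr
        exact int_abs_le hg1 (by
          rintro z ⟨j, _, hz⟩
          exact hPE j (hZs i j hz)) hE
    refine (Finset.sum_le_sum hone).trans ?_
    rw [Finset.sum_const, Finset.card_range, nsmul_eq_mul]

/-- The uniform restricted bound. -/
theorem stR0 (C0 : ℝ) (h3 : StN3 M 6 C0) (κ : Ker M) (hκ : κ.Bd 1 C0) (hFD1 : StFD1 4)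
    (hν : StR0ν κ) : StR0 κ := by
  obtain ⟨C1, hC1, hν⟩ := hν
  obtain ⟨c1, hc1, hFD1⟩ := hFD1
  obtain ⟨C3, hC3, hlow⟩ := low_bound C0 h3 κ hκ
  set ρ : ℝ := √(9 / 10) with hρ
  have hρ0 : 0 ≤ ρ := Real.sqrt_nonneg _
  have hρ1 : ρ < 1 := by
    rw [hρ, Real.sqrt_lt' one_pos]
    norm_num
  have h1ρ : 0 < 1 - ρ := by linarith
  refine ⟨(√C1 / (1 - ρ) + √(C3 * c1)) ^ 2, by positivity, ?_⟩
  intro u hu n g hg hg1
  obtain ⟨hEm, hEb, hEfin⟩ := supp_facts hg
  have hD := fun ν => hFD1 u hu {z | g z ≠ 0} hEm hEb n ν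
  set V := (volume {z | g z ≠ 0}).toReal with hV
  have hV0 : 0 ≤ V := ENNReal.toReal_nonneg
  have hlm : ∀ o j, MeasurableSet (lvl u {z | g z ≠ 0} n (2 * n) o j) := by
    intro o j
    cases o with
    | none => exact (hD (2 * n)).2.2.1 j
    | some ν => exact (hD ν).1.meas j
  have hs : nrm (fun ζ => ∑ j ∈ Finset.range n, κ.S u j g ζ) ≤
      ∑ o, nrm (κ.FS u g (lvl u {z | g z ≠ 0} n (2 * n) o) n) := by
    have e : (fun ζ => ∑ j ∈ Finset.range n, κ.S u j g ζ) =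
        κ.FS u g (fun _ => {z | g z ≠ 0}) n := funext fun ζ => S_eq_FS κ u g n ζ
    rw [e]
    exact nrm_FS_split κ hu hg Finset.univ _ _ (fun o _ j => hlm o j) n
      fun j hj z => lvl_ind (2 * n) (hD 0).2.1 g hj z
  rw [Fintype.sum_option] at hs
  have h0 : nrm (κ.FS u g (lvl u {z | g z ≠ 0} n (2 * n) none) n) ≤ √(C3 * c1) * √V := by
    have h := hlow u hu n (Plow u {z | g z ≠ 0} 4 n (2 * n)) {z | g z ≠ 0}
      (c1 * (1 / 2) ^ (2 * n)) (by positivity) (hD (2 * n)).2.2.1 (fun j z hz => hz.1) hEfin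
      (hD (2 * n)).2.2.2.2 g hg hg1
    refine h.trans ?_
    have e1 : √(C3 * (c1 * (1 / 2) ^ (2 * n)) * V) = √(C3 * c1) * √V * (1 / 2) ^ n := by
      rw [show C3 * (c1 * (1 / 2) ^ (2 * n)) * V = C3 * c1 * V * ((1 / 2) ^ n) ^ 2 by
        rw [← pow_mul, mul_comm n 2]; ring]
      rw [Real.sqrt_mul (by positivity), Real.sqrt_mul (by positivity), Real.sqrt_sq (by positivity)]
    have e2 : (n : ℝ) * (1 / 2) ^ n ≤ 1 := by
      have h1 : (n : ℝ) ≤ 2 ^ n := by exact_mod_cast (Nat.lt_two_pow_self (n := n)).le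
      rw [one_div, inv_pow, ← div_eq_mul_inv, div_le_one (by positivity)]
      exact h1
    rw [hV] at e1
    rw [e1]
    calc (n : ℝ) * (√(C3 * c1) * √V * (1 / 2) ^ n) = √(C3 * c1) * √V * ((n : ℝ) * (1 / 2) ^ n) := by
          ring
      _ ≤ √(C3 * c1) * √V * 1 := by gcongr
      _ = _ := mul_one _
  have h1 : ∀ ν : Fin (2 * n), nrm (κ.FS u g (lvl u {z | g z ≠ 0} n (2 * n) (some ν)) n) ≤
      √C1 * √V * ρ ^ (ν : ℕ) := by
    intro ν
    refine (nrm_le_sqrt (hν u hu n ν g hg hg1)).trans (le_of_eq ?_)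
    rw [Real.sqrt_mul (by positivity), Real.sqrt_mul (by positivity)]
    rw [s_pow (by norm_num), ← hρ]
    ring
  have h2 : ∑ ν : Fin (2 * n), √C1 * √V * ρ ^ (ν : ℕ) ≤ √C1 / (1 - ρ) * √V := by
    rw [← Finset.mul_sum, Fin.sum_univ_eq_sum_range (fun k => ρ ^ k) (2 * n)]
    have h3 : ∑ k ∈ Finset.range (2 * n), ρ ^ k ≤ 1 / (1 - ρ) := by
      rw [le_div_iff₀ h1ρ, geom_sum_mul_neg]
      have : 0 ≤ ρ ^ (2 * n) := by positivity
      linarith
    calc √C1 * √V * ∑ k ∈ Finset.range (2 * n), ρ ^ k ≤ √C1 * √V * (1 / (1 - ρ)) := by gcongr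
      _ = _ := by ring
  have htot : nrm (fun ζ => ∑ j ∈ Finset.range n, κ.S u j g ζ) ≤
      (√C1 / (1 - ρ) + √(C3 * c1)) * √V := by
    calc _ ≤ √(C3 * c1) * √V + ∑ ν : Fin (2 * n), √C1 * √V * ρ ^ (ν : ℕ) :=
          hs.trans (add_le_add h0 (Finset.sum_le_sum fun ν _ => h1 ν))
      _ ≤ √(C3 * c1) * √V + √C1 / (1 - ρ) * √V := by gcongr
      _ = _ := by ring
  refine (sq_of_nrm htot).trans (le_of_eq ?_)
  rw [mul_pow, Real.sq_sqrt hV0]

end Vale.Agent.P112.H526.R0
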