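import Vale.Agent.P112.H967.Dir
import Mathlib.MeasureTheory.Measure.Haar.NormedSpace
import Mathlib.Analysis.SpecialFunctions.ImproperIntegrals

/-!
# P112, T4(ii): sums of dual averages of tiles seen by a tree

For a fixed tree of slope `s` the tiles of the other trees act on it through averages over tubes
with other slopes; the weights decay like a power of (difference of slopes) * (length).
-/

open MeasureTheory Set Metric
open scoped ENNReal NNReal Topology

namespace Vale.Agent.P112.H526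

open Vale.Agent.P112.HL

/-- The tube of centre `z`, slope `v`, half length `l` and half width `a`. -/
def Tube (z : ℝ × ℝ) (v l a : ℝ) : Set (ℝ × ℝ) :=
  {ζ | |ζ.1 - z.1| ≤ l ∧ |ζ.2 - z.2 - v * (ζ.1 - z.1)| ≤ a}

lemma measurableSet_Tube (z : ℝ × ℝ) (v l a : ℝ) : MeasurableSet (Tube z v l a) := by
  have h1 : Measurable fun ζ : ℝ × ℝ => |ζ.1 - z.1| := by fun_prop
  have h2 : Measurable fun ζ : ℝ × ℝ => |ζ.2 - z.2 - v * (ζ.1 - z.1)| := by fun_prop
  exact (measurableSet_le h1 measurable_const).inter (measurableSet_le h2 measurable_const)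

/-- An integral over a tube of slope `v` is bounded by the maximal function of slope `s`. -/
lemma lintegral_tube_le {G : ℝ × ℝ → ℝ≥0∞} (hG : Measurable G) (z : ℝ × ℝ) {v s l a w : ℝ}
    (hl : 0 < l) (ha : 0 ≤ a) (hw : a + |v - s| * l < w) :
    ∫⁻ ζ in Tube z v l a, G ζ ≤
      ENNReal.ofReal (4 * l) * ENNReal.ofReal (2 * w) * MV (MS s G) z := by
  have hw0 : 0 < w := lt_of_le_of_lt (by positivity) hw
  have h1 := tube_avg s hG (x := z.1) (y := z.2) (x₀ := z.1) (y₀ := z.2) (L := 2 * l) (w := w)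
    (mem_ball_self (by positivity)) (by simpa using hw0)
  have hL0 : ENNReal.ofReal (2 * (2 * l)) * ENNReal.ofReal (2 * w) ≠ 0 := by
    refine mul_ne_zero ?_ ?_
    · rw [Ne, ENNReal.ofReal_eq_zero]; linarith
    · rw [Ne, ENNReal.ofReal_eq_zero]; linarith
  rw [ENNReal.div_le_iff hL0 (ENNReal.mul_ne_top ENNReal.ofReal_ne_top ENNReal.ofReal_ne_top)] at h1
  have h2 : ∫⁻ ζ in Tube z v l a, G ζ ≤
      ∫⁻ t in ball z.1 (2 * l), ∫⁻ h in ball (z.2 + s * (t - z.1)) w, G (t, h) := by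
    rw [← lintegral_indicator (measurableSet_Tube z v l a), lintegral_iter
      (hG.indicator (measurableSet_Tube z v l a)), ← lintegral_indicator measurableSet_ball]
    refine lintegral_mono fun t => ?_
    by_cases ht : t ∈ ball z.1 (2 * l)
    · rw [indicator_of_mem ht, ← lintegral_indicator measurableSet_ball]
      refine lintegral_mono fun h => ?_
      by_cases hh : (t, h) ∈ Tube z v l a
      · have hb : h ∈ ball (z.2 + s * (t - z.1)) w := by
          rw [mem_ball, Real.dist_eq]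
          have e1 : h - (z.2 + s * (t - z.1)) =
              (h - z.2 - v * (t - z.1)) + (v - s) * (t - z.1) := by ring
          rw [e1]
          refine lt_of_le_of_lt (abs_add_le _ _) (lt_of_le_of_lt ?_ hw)
          refine add_le_add hh.2 ?_
          rw [abs_mul]
          exact mul_le_mul_of_nonneg_left hh.1 (abs_nonneg _)
        simp only [indicator_of_mem hh, indicator_of_mem hb]
        exact le_rfl
      · simp only [indicator_of_notMem hh]
        exact zero_le
    · rw [indicator_of_notMem ht]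
      refine le_of_eq ?_
      rw [lintegral_eq_zero_iff' (by
        exact ((hG.indicator (measurableSet_Tube z v l a)).comp measurable_prodMk_left).aemeasurable)]
      refine Filter.Eventually.of_forall fun h => ?_
      have : (t, h) ∉ Tube z v l a := by
        intro hm
        apply ht
        rw [mem_ball, Real.dist_eq]
        have := hm.1
        simp only at this
        linarith
      simp only [indicator_of_notMem this, Pi.zero_apply]
  refine h2.trans ?_
  calc _ ≤ MV (MS s G) (z.1, z.2) * (ENNReal.ofReal (2 * (2 * l)) * ENNReal.ofReal (2 * w)) := h1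
    _ = _ := by
        rw [show 2 * (2 * l) = 4 * l by ring, mul_comm]

/-- A sum of inverse powers along a dyadic sequence. -/
lemma geo_sum (S : Finset ℕ) (τ : ℕ → ℝ) {r q : ℝ} (hq : 0 < q) {m : ℕ} (hm : 1 ≤ m)
    (h1 : ∀ j ∈ S, 2 / 3 * (r / 2 ^ j) ≤ τ j) (h2 : ∀ j ∈ S, τ j ≤ 2 * (r / 2 ^ j))
    (h3 : ∀ j ∈ S, q ≤ τ j) : ∑ j ∈ S, (τ j ^ m)⁻¹ ≤ 2 * 3 ^ m * (q ^ m)⁻¹ := by
  rcases S.eq_empty_or_nonempty with rfl | hS
  · simp only [Finset.sum_empty]
    positivity
  set k := S.max' hS with hk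
  have hkS : k ∈ S := S.max'_mem hS
  have key : ∀ j ∈ S, (τ j ^ m)⁻¹ ≤ 3 ^ m * (q ^ m)⁻¹ * (1 / 2) ^ (k - j) := by
    intro j hj
    have hjk : j ≤ k := S.le_max' j hj
    have e1 : q / 3 * 2 ^ (k - j) ≤ τ j := by
      have a1 := h2 k hkS
      have a2 := h3 k hkS
      have a3 : r / 2 ^ j = r / 2 ^ k * 2 ^ (k - j) := by
        have : (2 : ℝ) ^ k = 2 ^ (k - j) * 2 ^ j := by rw [← pow_add, Nat.sub_add_cancel hjk]
        rw [this]
        field_simp
      have a4 : q / 2 ≤ r / 2 ^ k := by linarith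
      have a5 : (0 : ℝ) < 2 ^ (k - j) := by positivity
      calc q / 3 * 2 ^ (k - j) = 2 / 3 * (q / 2 * 2 ^ (k - j)) := by ring
        _ ≤ 2 / 3 * (r / 2 ^ k * 2 ^ (k - j)) := by gcongr
        _ = 2 / 3 * (r / 2 ^ j) := by rw [a3]
        _ ≤ τ j := h1 j hj
    have e2 : 0 < q / 3 * 2 ^ (k - j) := by positivity
    have e3 : (τ j ^ m)⁻¹ ≤ ((q / 3 * 2 ^ (k - j)) ^ m)⁻¹ := by
      apply inv_anti₀ (by positivity)
      exact pow_le_pow_left₀ e2.le e1 m
    refine e3.trans ?_
    have e4 : ((q / 3 * 2 ^ (k - j)) ^ m)⁻¹ = 3 ^ m * (q ^ m)⁻¹ * ((1 / 2) ^ (k - j)) ^ m := by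
      rw [mul_pow, div_pow, one_div, inv_pow, inv_pow, mul_inv, inv_div, ← div_eq_mul_inv (3 ^ m)]
    rw [e4]
    refine mul_le_mul_of_nonneg_left ?_ (by positivity)
    have e5 : (0 : ℝ) ≤ (1 / 2) ^ (k - j) := by positivity
    have e6 : ((1 : ℝ) / 2) ^ (k - j) ≤ 1 := pow_le_one₀ (by norm_num) (by norm_num)
    calc (((1 : ℝ) / 2) ^ (k - j)) ^ m ≤ ((1 / 2) ^ (k - j)) ^ 1 := pow_le_pow_of_le_one e5 e6 hm
      _ = _ := pow_one _
  calc ∑ j ∈ S, (τ j ^ m)⁻¹ ≤ ∑ j ∈ S, 3 ^ m * (q ^ m)⁻¹ * (1 / 2) ^ (k - j) :=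
        Finset.sum_le_sum key
    _ ≤ ∑ j ∈ Finset.range (k + 1), 3 ^ m * (q ^ m)⁻¹ * (1 / 2) ^ (k - j) := by
        refine Finset.sum_le_sum_of_subset_of_nonneg ?_ fun _ _ _ => by positivity
        intro j hj
        rw [Finset.mem_range]
        exact Nat.lt_succ_of_le (S.le_max' j hj)
    _ = 3 ^ m * (q ^ m)⁻¹ * ∑ j ∈ Finset.range (k + 1), (1 / 2 : ℝ) ^ j := by
        rw [← Finset.mul_sum]
        congr 1
        exact Finset.sum_flip (fun j => (1 / 2 : ℝ) ^ j)
    _ ≤ 3 ^ m * (q ^ m)⁻¹ * 2 := by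
        refine mul_le_mul_of_nonneg_left ?_ (by positivity)
        have := sum_geometric_two_le (k + 1)
        exact this
    _ = 2 * 3 ^ m * (q ^ m)⁻¹ := by ring

end Vale.Agent.P112.H526
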