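import Vale.Agent.P112.H526.T4a

/-!
# P112, T4(ii): the estimate
-/

open MeasureTheory Set Metric
open scoped ENNReal NNReal Topology

namespace Vale.Agent.P112.H526

open Vale.Agent.P112.HL

/-- The weight in the vertical variable has a small `L²` norm. -/
lemma lintegral_weight {Q : ℝ} (hQ : 0 < Q) {m : ℕ} (hm : 1 ≤ m) (c : ℝ) :
    ∫⁻ y : ℝ, ENNReal.ofReal ((((Q + |y - c|) ^ m)⁻¹) ^ 2) ≤
      ENNReal.ofReal (Real.pi * Q * ((Q ^ m)⁻¹) ^ 2) := by
  rw [lintegral_sub_right_eq_self (μ := (volume : Measure ℝ))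
    (fun y : ℝ => ENNReal.ofReal ((((Q + |y|) ^ m)⁻¹) ^ 2)) c]
  have h1 : ∀ y : ℝ, (((Q + |y|) ^ m)⁻¹) ^ 2 ≤ ((Q ^ m)⁻¹) ^ 2 * (1 + (y / Q) ^ 2)⁻¹ := by
    intro y
    obtain ⟨k, rfl⟩ : ∃ k, m = k + 1 := ⟨m - 1, by omega⟩
    have e1 : Q ^ k * (Q + |y|) ≤ (Q + |y|) ^ (k + 1) := by
      rw [pow_succ]
      gcongr
      linarith [abs_nonneg y]
    have e2 : (Q ^ (k + 1)) ^ 2 * (1 + (y / Q) ^ 2) ≤ ((Q + |y|) ^ (k + 1)) ^ 2 := by
      calc (Q ^ (k + 1)) ^ 2 * (1 + (y / Q) ^ 2) = (Q ^ k) ^ 2 * (Q ^ 2 + |y| ^ 2) := by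
            rw [sq_abs, show Q ^ (k + 1) = Q ^ k * Q from pow_succ Q k]
            field_simp
        _ ≤ (Q ^ k) ^ 2 * (Q + |y|) ^ 2 := by
            gcongr
            nlinarith [abs_nonneg y]
        _ = (Q ^ k * (Q + |y|)) ^ 2 := by ring
        _ ≤ _ := by gcongr
    rw [inv_pow, inv_pow, ← mul_inv]
    exact inv_anti₀ (by positivity) e2
  have h2 : Integrable fun y : ℝ => ((Q ^ m)⁻¹) ^ 2 * (1 + (y / Q) ^ 2)⁻¹ :=
    (integrable_inv_one_add_sq.comp_div hQ.ne').const_mul _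
  calc ∫⁻ y : ℝ, ENNReal.ofReal ((((Q + |y|) ^ m)⁻¹) ^ 2)
      ≤ ∫⁻ y : ℝ, ENNReal.ofReal (((Q ^ m)⁻¹) ^ 2 * (1 + (y / Q) ^ 2)⁻¹) :=
        lintegral_mono fun y => ENNReal.ofReal_le_ofReal (h1 y)
    _ = ENNReal.ofReal (∫ y : ℝ, ((Q ^ m)⁻¹) ^ 2 * (1 + (y / Q) ^ 2)⁻¹) :=
        (ofReal_integral_eq_lintegral_ofReal h2
          (Filter.Eventually.of_forall fun y => by positivity)).symm
    _ = ENNReal.ofReal (Real.pi * Q * ((Q ^ m)⁻¹) ^ 2) := by
        rw [integral_const_mul, Measure.integral_comp_div (fun y : ℝ => (1 + y ^ 2)⁻¹) Q,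
          integral_univ_inv_one_add_sq, abs_of_pos hQ, smul_eq_mul]
        congr 1
        ring

section Main

variable {ι : Type*} (I : Finset ι) (n : ℕ) (sl : ι → ℝ) (s : ℝ) (u : ℝ × ℝ → ℝ)
  (P : ι → ℕ → Set (ℝ × ℝ)) {A A' a Q : ℝ} (J : Set ℝ) (b : ℝ)

/-- The weight. -/
noncomputable def wt (Q : ℝ) (m : ℕ) (J : Set ℝ) (b s : ℝ) (z : ℝ × ℝ) : ℝ≥0∞ :=
  (J ×ˢ (univ : Set ℝ)).indicator
    (fun z => ENNReal.ofReal (((Q + |z.2 - (b + s * z.1)|) ^ m)⁻¹)) z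

lemma measurable_wt (Q : ℝ) (m : ℕ) {J : Set ℝ} (hJ : MeasurableSet J) (b s : ℝ) :
    Measurable (wt Q m J b s) := by
  unfold wt
  refine Measurable.indicator ?_ (hJ.prod MeasurableSet.univ)
  fun_prop

lemma lintegral_wt_sq {Q : ℝ} (hQ : 0 < Q) {m : ℕ} (hm : 1 ≤ m) {J : Set ℝ}
    (hJ : MeasurableSet J) (b s : ℝ) :
    ∫⁻ z, wt Q m J b s z ^ (2 : ℝ) ≤
      ENNReal.ofReal (Real.pi * Q * ((Q ^ m)⁻¹) ^ 2) * volume J := by
  rw [lintegral_iter ((measurable_wt Q m hJ b s).pow_const _)]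
  have h1 : ∀ x : ℝ, ∫⁻ y : ℝ, wt Q m J b s (x, y) ^ (2 : ℝ) ≤
      J.indicator (fun _ => ENNReal.ofReal (Real.pi * Q * ((Q ^ m)⁻¹) ^ 2)) x := by
    intro x
    by_cases hx : x ∈ J
    · rw [indicator_of_mem hx]
      refine le_trans (le_of_eq ?_) (lintegral_weight hQ hm (b + s * x))
      refine lintegral_congr fun y => ?_
      have hm' : (x, y) ∈ J ×ˢ (univ : Set ℝ) := ⟨hx, mem_univ _⟩
      rw [wt, indicator_of_mem hm', ENNReal.ofReal_pow (by positivity), ENNReal.rpow_ofNat]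
    · rw [indicator_of_notMem hx]
      have : ∀ y : ℝ, wt Q m J b s (x, y) ^ (2 : ℝ) = 0 := by
        intro y
        have hm' : (x, y) ∉ J ×ˢ (univ : Set ℝ) := fun h => hx h.1
        rw [wt, indicator_of_notMem hm']
        simp
      simp [this]
  refine (lintegral_mono h1).trans ?_
  rw [lintegral_indicator hJ, lintegral_const, Measure.restrict_apply MeasurableSet.univ,
    univ_inter]

include I in
/-- The pointwise sum of the weights. -/
lemma sum_le_wt (hdisj : ∀ j < n, ∀ i ∈ I, ∀ i' ∈ I, i ≠ i' → Disjoint (P i j) (P i' j))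
    (hA' : 1 ≤ A') (hQ : 1 ≤ Q) (hAQ : 2 * A ≤ Q)
    (hu : ∀ i ∈ I, ∀ j < n, ∀ z ∈ P i j, |u z - sl i| ≤ A * 2 ^ j)
    (ht : ∀ i ∈ I, ∀ j < n, ∀ z ∈ P i j, Q ≤ |sl i - s| / 2 ^ j)
    (hloc : ∀ i ∈ I, ∀ j < n, ∀ z ∈ P i j, z.1 ∈ J ∧
      |z.2 - (b + s * z.1)| ≤ A' * (1 + |sl i - s| / 2 ^ j))
    {m : ℕ} (hm : 1 ≤ m) (z : ℝ × ℝ) :
    ∑ i ∈ I, ∑ j ∈ Finset.range n, (P i j).indicator
        (fun _ => ENNReal.ofReal (((|sl i - s| / 2 ^ j) ^ m)⁻¹)) z ≤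
      ENNReal.ofReal (2 * 3 ^ m * (4 * A') ^ m) * wt Q m J b s z := by
  classical
  rw [Finset.sum_comm]
  set S : Finset ℕ := (Finset.range n).filter fun j => ∃ i ∈ I, z ∈ P i j with hS
  set τ : ℕ → ℝ := fun j => if h : ∃ i ∈ I, z ∈ P i j then |sl h.choose - s| / 2 ^ j else 0 with hτ
  have hch : ∀ j ∈ S, ∃ i ∈ I, z ∈ P i j ∧ j < n ∧ τ j = |sl i - s| / 2 ^ j := by
    intro j hj
    obtain ⟨hj1, hj2⟩ := Finset.mem_filter.1 hj
    refine ⟨hj2.choose, hj2.choose_spec.1, hj2.choose_spec.2, Finset.mem_range.1 hj1, ?_⟩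
    simp only [hτ]
    rw [dif_pos hj2]
  have h1 : ∀ j ∈ Finset.range n, ∑ i ∈ I, (P i j).indicator
      (fun _ => ENNReal.ofReal (((|sl i - s| / 2 ^ j) ^ m)⁻¹)) z =
      if j ∈ S then ENNReal.ofReal ((τ j ^ m)⁻¹) else 0 := by
    intro j hj
    by_cases hjS : j ∈ S
    · rw [if_pos hjS]
      obtain ⟨i, hi, hz, hjn, he⟩ := hch j hjS
      rw [Finset.sum_eq_single_of_mem i hi, indicator_of_mem hz, he]
      intro i' hi' hne
      refine indicator_of_notMem ?_ _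
      intro hz'
      exact (Set.disjoint_left.1 (hdisj j hjn i' hi' i hi hne)) hz' hz
    · rw [if_neg hjS]
      refine Finset.sum_eq_zero fun i hi => indicator_of_notMem ?_ _
      intro hz
      exact hjS (Finset.mem_filter.2 ⟨hj, i, hi, hz⟩)
  rw [Finset.sum_congr rfl h1, ← Finset.sum_filter]
  have hSS : (Finset.range n).filter (fun j => j ∈ S) = S := by
    ext j
    rw [Finset.mem_filter]
    exact ⟨fun h => h.2, fun h => ⟨(Finset.mem_filter.1 h).1, h⟩⟩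
  rw [hSS]
  rcases S.eq_empty_or_nonempty with h0 | ⟨j0, hj0⟩
  · rw [h0, Finset.sum_empty]
    exact zero_le
  -- the point lies over `J`
  obtain ⟨i0, hi0, hz0, hj0n, he0⟩ := hch j0 hj0
  have hzJ : z ∈ J ×ˢ (univ : Set ℝ) := ⟨(hloc i0 hi0 j0 hj0n z hz0).1, mem_univ _⟩
  rw [wt, indicator_of_mem hzJ]
  set off := |z.2 - (b + s * z.1)| with hoff
  have hoff0 : 0 ≤ off := abs_nonneg _
  set q := (Q + off) / (4 * A') with hq
  have hq0 : 0 < q := by positivity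
  set r := |u z - s| with hr
  have hτ' : ∀ j ∈ S, Q ≤ τ j ∧ q ≤ τ j ∧ 2 / 3 * (r / 2 ^ j) ≤ τ j ∧ τ j ≤ 2 * (r / 2 ^ j) := by
    intro j hj
    obtain ⟨i, hi, hz, hjn, he⟩ := hch j hj
    have a1 := ht i hi j hjn z hz
    have a2 := (hloc i hi j hjn z hz).2
    have a3 := hu i hi j hjn z hz
    rw [← he] at a1 a2
    have h2j : (0 : ℝ) < 2 ^ j := by positivity
    have a4 : |u z - sl i| / 2 ^ j ≤ A := by
      rw [div_le_iff₀ h2j]
      exact a3
    have a5 : r / 2 ^ j ≤ |u z - sl i| / 2 ^ j + τ j := by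
      rw [he, ← add_div]
      gcongr
      calc r = |(u z - sl i) + (sl i - s)| := by rw [hr]; congr 1; ring
        _ ≤ _ := abs_add_le _ _
    have a6 : τ j ≤ |u z - sl i| / 2 ^ j + r / 2 ^ j := by
      rw [he, ← add_div]
      gcongr
      calc |sl i - s| = |(u z - s) - (u z - sl i)| := by congr 1; ring
        _ ≤ |u z - s| + |u z - sl i| := abs_sub _ _
        _ = _ := by rw [hr]; ring
    refine ⟨a1, ?_, by linarith, by linarith⟩
    rw [hq, div_le_iff₀ (by positivity)]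
    have a7 : off ≤ A' * (1 + τ j) := a2
    nlinarith
  have h2 := geo_sum S τ hq0 hm (fun j hj => (hτ' j hj).2.2.1) (fun j hj => (hτ' j hj).2.2.2)
    (fun j hj => (hτ' j hj).2.1)
  rw [← ENNReal.ofReal_sum_of_nonneg (fun j hj => by
    have := (hτ' j hj).1
    have : 0 < τ j := by linarith
    positivity), ← ENNReal.ofReal_mul (by positivity)]
  refine ENNReal.ofReal_le_ofReal (h2.trans (le_of_eq ?_))
  rw [hq, div_pow, inv_div]
  ring

/-- **T4(ii)**: the weighted sum of the dual averages of the tiles of the other trees. -/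
theorem t4ii (hP : ∀ i ∈ I, ∀ j < n, MeasurableSet (P i j))
    (hdisj : ∀ j < n, ∀ i ∈ I, ∀ i' ∈ I, i ≠ i' → Disjoint (P i j) (P i' j))
    (hA' : 1 ≤ A') (ha : 0 ≤ a) (hQ : 1 ≤ Q) (hAQ : 2 * A ≤ Q)
    (hu : ∀ i ∈ I, ∀ j < n, ∀ z ∈ P i j, |u z - sl i| ≤ A * 2 ^ j)
    (ht : ∀ i ∈ I, ∀ j < n, ∀ z ∈ P i j, Q ≤ |sl i - s| / 2 ^ j) (hJ : MeasurableSet J)
    (hloc : ∀ i ∈ I, ∀ j < n, ∀ z ∈ P i j, z.1 ∈ J ∧
      |z.2 - (b + s * z.1)| ≤ A' * (1 + |sl i - s| / 2 ^ j))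
    {M : ℕ} (hM : 2 ≤ M) {G : ℝ × ℝ → ℝ≥0∞} (hG : Measurable G) :
    ∑ i ∈ I, ∑ j ∈ Finset.range n, ENNReal.ofReal (((|sl i - s| / 2 ^ j) ^ M)⁻¹) *
        ∫⁻ z in P i j, ENNReal.ofReal (2 ^ j) * ∫⁻ ζ in Tube z (u z) ((2 ^ j)⁻¹) a, G ζ ≤
      ENNReal.ofReal (8 * (a + 2) * (2 * 3 ^ (M - 1) * (4 * A') ^ (M - 1))) *
        (ENNReal.ofReal (Real.pi * Q * ((Q ^ (M - 1))⁻¹) ^ 2) * volume J) ^ (1 / 2 : ℝ) *
        (CM 2 * CM 2 * ∫⁻ z, G z ^ (2 : ℝ)) ^ (1 / 2 : ℝ) := by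
  obtain ⟨m, rfl⟩ : ∃ m, M = m + 1 := ⟨M - 1, by omega⟩
  have hm : 1 ≤ m := by omega
  rw [Nat.add_sub_cancel]
  set F := MV (MS s G) with hF
  have hFm : Measurable F := measurable_MV (measurable_MS s hG)
  -- the pointwise bound
  have h1 : ∀ i ∈ I, ∀ j ∈ Finset.range n, ENNReal.ofReal (((|sl i - s| / 2 ^ j) ^ (m + 1))⁻¹) *
      ∫⁻ z in P i j, ENNReal.ofReal (2 ^ j) * ∫⁻ ζ in Tube z (u z) ((2 ^ j)⁻¹) a, G ζ ≤
      ∫⁻ z, (P i j).indicator
        (fun _ => ENNReal.ofReal (((|sl i - s| / 2 ^ j) ^ m)⁻¹)) z *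
          (ENNReal.ofReal (8 * (a + 2)) * F z) := by
    intro i hi j hj
    have hjn := Finset.mem_range.1 hj
    set t := |sl i - s| / 2 ^ j with htt
    rw [← lintegral_const_mul' _ _ ENNReal.ofReal_ne_top, ← lintegral_indicator (hP i hi j hjn)]
    refine lintegral_mono fun z => ?_
    by_cases hz : z ∈ P i j
    · simp only [indicator_of_mem hz]
      have h2j : (0 : ℝ) < 2 ^ j := by positivity
      have b1 := ht i hi j hjn z hz
      rw [← htt] at b1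
      have b2 := hu i hi j hjn z hz
      have b3 : |u z - s| * (2 ^ j)⁻¹ ≤ A + t := by
        have : |u z - s| ≤ A * 2 ^ j + |sl i - s| :=
          calc |u z - s| = |(u z - sl i) + (sl i - s)| := by congr 1; ring
            _ ≤ |u z - sl i| + |sl i - s| := abs_add_le _ _
            _ ≤ _ := by gcongr
        rw [← div_eq_mul_inv, div_le_iff₀ h2j, add_mul, htt, div_mul_cancel₀ _ h2j.ne']
        exact this
      have ht0 : 0 < t := by linarith
      have b4 : a + |u z - s| * (2 ^ j)⁻¹ < a + 2 * t := by linarith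
      have b5 := lintegral_tube_le hG z (v := u z) (s := s) (l := (2 ^ j)⁻¹) (a := a)
        (w := a + 2 * t) (by positivity) ha b4
      calc ENNReal.ofReal ((t ^ (m + 1))⁻¹) *
            (ENNReal.ofReal (2 ^ j) * ∫⁻ ζ in Tube z (u z) ((2 ^ j)⁻¹) a, G ζ)
          ≤ ENNReal.ofReal ((t ^ (m + 1))⁻¹) * (ENNReal.ofReal (2 ^ j) *
            (ENNReal.ofReal (4 * (2 ^ j)⁻¹) * ENNReal.ofReal (2 * (a + 2 * t)) * F z)) := by
            gcongr
        _ = ENNReal.ofReal ((t ^ (m + 1))⁻¹ * 2 ^ j * (4 * (2 ^ j)⁻¹) * (2 * (a + 2 * t))) *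
            F z := by
            rw [ENNReal.ofReal_mul (p := (t ^ (m + 1))⁻¹ * 2 ^ j * (4 * (2 ^ j)⁻¹)) (by positivity),
              ENNReal.ofReal_mul (p := (t ^ (m + 1))⁻¹ * 2 ^ j) (by positivity),
              ENNReal.ofReal_mul (p := (t ^ (m + 1))⁻¹) (by positivity)]
            simp only [mul_assoc]
        _ ≤ ENNReal.ofReal ((t ^ m)⁻¹ * (8 * (a + 2))) * F z := by
            refine mul_le_mul_left (ENNReal.ofReal_le_ofReal ?_) _
            have e1 : (t ^ (m + 1))⁻¹ * 2 ^ j * (4 * (2 ^ j)⁻¹) * (2 * (a + 2 * t)) =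
                (t ^ m)⁻¹ * (8 * ((a + 2 * t) / t)) := by
              rw [show t ^ (m + 1) = t ^ m * t from pow_succ t m]
              field_simp
              ring
            rw [e1]
            have e2 : (a + 2 * t) / t ≤ a + 2 := by
              rw [div_le_iff₀ ht0]
              nlinarith
            gcongr
        _ = _ := by
            rw [ENNReal.ofReal_mul (by positivity), mul_assoc]
    · simp only [indicator_of_notMem hz, zero_mul, le_refl]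
  refine (Finset.sum_le_sum fun i hi => Finset.sum_le_sum (h1 i hi)).trans ?_
  have hind : ∀ i ∈ I, ∀ j ∈ Finset.range n, Measurable fun z =>
      (P i j).indicator (fun _ => ENNReal.ofReal (((|sl i - s| / 2 ^ j) ^ m)⁻¹)) z *
        (ENNReal.ofReal (8 * (a + 2)) * F z) := by
    intro i hi j hj
    exact (measurable_const.indicator (hP i hi j (Finset.mem_range.1 hj))).mul
      (hFm.const_mul _)
  have h2 : ∑ i ∈ I, ∑ j ∈ Finset.range n, ∫⁻ z, (P i j).indicator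
      (fun _ => ENNReal.ofReal (((|sl i - s| / 2 ^ j) ^ m)⁻¹)) z *
        (ENNReal.ofReal (8 * (a + 2)) * F z) =
      ∫⁻ z, (∑ i ∈ I, ∑ j ∈ Finset.range n, (P i j).indicator
        (fun _ => ENNReal.ofReal (((|sl i - s| / 2 ^ j) ^ m)⁻¹)) z) *
          (ENNReal.ofReal (8 * (a + 2)) * F z) := by
    rw [← lintegral_congr fun z => show (∑ i ∈ I, ∑ j ∈ Finset.range n, (P i j).indicator
        (fun _ => ENNReal.ofReal (((|sl i - s| / 2 ^ j) ^ m)⁻¹)) z *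
          (ENNReal.ofReal (8 * (a + 2)) * F z)) = _ by
        rw [Finset.sum_mul]
        refine Finset.sum_congr rfl fun i _ => ?_
        rw [Finset.sum_mul]]
    rw [lintegral_finsetSum' _ fun i hi => (Finset.aemeasurable_fun_sum _ fun j hj =>
      (hind i hi j hj).aemeasurable)]
    refine Finset.sum_congr rfl fun i hi => ?_
    rw [lintegral_finsetSum' _ fun j hj => (hind i hi j hj).aemeasurable]
  rw [h2]
  calc ∫⁻ z, (∑ i ∈ I, ∑ j ∈ Finset.range n, (P i j).indicator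
        (fun _ => ENNReal.ofReal (((|sl i - s| / 2 ^ j) ^ m)⁻¹)) z) *
          (ENNReal.ofReal (8 * (a + 2)) * F z)
      ≤ ∫⁻ z, ENNReal.ofReal (8 * (a + 2) * (2 * 3 ^ m * (4 * A') ^ m)) *
          (wt Q m J b s * F) z := by
        refine lintegral_mono fun z => ?_
        have h3 := sum_le_wt I n sl s u P J b hdisj hA' hQ hAQ hu ht hloc hm z
        calc _ ≤ (ENNReal.ofReal (2 * 3 ^ m * (4 * A') ^ m) * wt Q m J b s z) *
              (ENNReal.ofReal (8 * (a + 2)) * F z) := by gcongr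
          _ = _ := by
              rw [ENNReal.ofReal_mul (p := 8 * (a + 2)) (by positivity), Pi.mul_apply]
              simp only [mul_assoc, mul_left_comm, mul_comm]
    _ = ENNReal.ofReal (8 * (a + 2) * (2 * 3 ^ m * (4 * A') ^ m)) *
          ∫⁻ z, (wt Q m J b s * F) z := lintegral_const_mul' _ _ ENNReal.ofReal_ne_top
    _ ≤ ENNReal.ofReal (8 * (a + 2) * (2 * 3 ^ m * (4 * A') ^ m)) *
          ((∫⁻ z, wt Q m J b s z ^ (2 : ℝ)) ^ (1 / 2 : ℝ) *
            (∫⁻ z, F z ^ (2 : ℝ)) ^ (1 / 2 : ℝ)) := by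
        gcongr
        exact ENNReal.lintegral_mul_le_Lp_mul_Lq volume Real.HolderConjugate.two_two
          (measurable_wt Q m hJ b s).aemeasurable hFm.aemeasurable
    _ ≤ _ := by
        rw [← mul_assoc]
        gcongr
        · exact lintegral_wt_sq (by linarith) hm hJ b s
        · exact strong_MVS one_lt_two s hG

end Main

/-- Cauchy-Schwarz over the trees. -/
theorem cs_sum {κ : Type*} (T : Finset κ) (v g : κ → ℝ≥0∞) :
    ∑ i ∈ T, v i ^ (1 / 2 : ℝ) * g i ^ (1 / 2 : ℝ) ≤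
      (∑ i ∈ T, v i) ^ (1 / 2 : ℝ) * (∑ i ∈ T, g i) ^ (1 / 2 : ℝ) := by
  have h := ENNReal.inner_le_Lp_mul_Lq T (fun i => v i ^ (1 / 2 : ℝ)) (fun i => g i ^ (1 / 2 : ℝ))
    Real.HolderConjugate.two_two
  refine h.trans (le_of_eq ?_)
  congr 2
  · refine Finset.sum_congr rfl fun i _ => ?_
    rw [← ENNReal.rpow_mul]
    norm_num
  · refine Finset.sum_congr rfl fun i _ => ?_
    rw [← ENNReal.rpow_mul]
    norm_num

end Vale.Agent.P112.H526
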