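import Vale.Agent.P112.H526.T4b

/-!
# P112, T4(ii): the form with `|u z - s|` in the weight
-/

open MeasureTheory Set Metric
open scoped ENNReal NNReal Topology

namespace Vale.Agent.P112.H526

open Vale.Agent.P112.HL

section Beta

variable (n : ℕ) (s : ℝ) (u : ℝ × ℝ → ℝ) (D : ℕ → Set (ℝ × ℝ)) {A' a Q : ℝ} (J : Set ℝ) (b : ℝ)

/-- The pointwise sum of the weights. -/
lemma sum_le_wt_beta (hA' : 1 ≤ A') (hQ : 1 ≤ Q)
    (ht : ∀ j < n, ∀ z ∈ D j, Q ≤ |u z - s| / 2 ^ j)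
    (hloc : ∀ j < n, ∀ z ∈ D j, z.1 ∈ J ∧
      |z.2 - (b + s * z.1)| ≤ A' * (1 + |u z - s| / 2 ^ j))
    {m : ℕ} (hm : 1 ≤ m) (z : ℝ × ℝ) :
    ∑ j ∈ Finset.range n, (D j).indicator
        (fun z => ENNReal.ofReal (((|u z - s| / 2 ^ j) ^ m)⁻¹)) z ≤
      ENNReal.ofReal (2 * 3 ^ m * (4 * A') ^ m) * wt Q m J b s z := by
  classical
  set S : Finset ℕ := (Finset.range n).filter fun j => z ∈ D j with hS
  have h1 : ∀ j ∈ Finset.range n, (D j).indicator
      (fun z => ENNReal.ofReal (((|u z - s| / 2 ^ j) ^ m)⁻¹)) z =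
      if z ∈ D j then ENNReal.ofReal (((|u z - s| / 2 ^ j) ^ m)⁻¹) else 0 := by
    intro j _
    rw [indicator_apply]
  rw [Finset.sum_congr rfl h1, ← Finset.sum_filter, ← hS]
  rcases S.eq_empty_or_nonempty with h0 | ⟨j0, hj0⟩
  · rw [h0, Finset.sum_empty]
    exact zero_le
  have hSm : ∀ j ∈ S, j < n ∧ z ∈ D j := fun j hj =>
    ⟨Finset.mem_range.1 (Finset.mem_filter.1 hj).1, (Finset.mem_filter.1 hj).2⟩
  have hzJ : z ∈ J ×ˢ (univ : Set ℝ) :=
    ⟨(hloc j0 (hSm j0 hj0).1 z (hSm j0 hj0).2).1, mem_univ _⟩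
  rw [wt, indicator_of_mem hzJ]
  set off := |z.2 - (b + s * z.1)| with hoff
  have hoff0 : 0 ≤ off := abs_nonneg _
  set q := (Q + off) / (4 * A') with hq
  have hq0 : 0 < q := by positivity
  have hr0 : 0 ≤ |u z - s| := abs_nonneg _
  have hτ' : ∀ j ∈ S, Q ≤ |u z - s| / 2 ^ j ∧ q ≤ |u z - s| / 2 ^ j := by
    intro j hj
    obtain ⟨hjn, hz⟩ := hSm j hj
    have a1 := ht j hjn z hz
    have a2 := (hloc j hjn z hz).2
    refine ⟨a1, ?_⟩
    rw [hq, div_le_iff₀ (by positivity)]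
    have a7 : off ≤ A' * (1 + |u z - s| / 2 ^ j) := a2
    nlinarith
  have h2 := geo_sum S (fun j => |u z - s| / 2 ^ j) hq0 hm (r := |u z - s|)
    (fun j _ => by
      have : 0 ≤ |u z - s| / 2 ^ j := by positivity
      linarith)
    (fun j _ => by
      have : 0 ≤ |u z - s| / 2 ^ j := by positivity
      linarith)
    (fun j hj => (hτ' j hj).2)
  rw [← ENNReal.ofReal_sum_of_nonneg (fun j hj => by positivity),
    ← ENNReal.ofReal_mul (by positivity)]
  refine ENNReal.ofReal_le_ofReal (h2.trans (le_of_eq ?_))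
  rw [hq, div_pow, inv_div]
  ring

/-- **T4(ii)** with the weight `|u z - s|`. -/
theorem t4ii_beta (hum : Measurable u) (hP : ∀ j < n, MeasurableSet (D j))
    (hA' : 1 ≤ A') (ha : 0 ≤ a) (hQ : 1 ≤ Q)
    (ht : ∀ j < n, ∀ z ∈ D j, Q ≤ |u z - s| / 2 ^ j) (hJ : MeasurableSet J)
    (hloc : ∀ j < n, ∀ z ∈ D j, z.1 ∈ J ∧
      |z.2 - (b + s * z.1)| ≤ A' * (1 + |u z - s| / 2 ^ j))
    {M : ℕ} (hM : 2 ≤ M) {G : ℝ × ℝ → ℝ≥0∞} (hG : Measurable G) :
    ∑ j ∈ Finset.range n, ∫⁻ z in D j, ENNReal.ofReal (((|u z - s| / 2 ^ j) ^ M)⁻¹) *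
        (ENNReal.ofReal (2 ^ j) * ∫⁻ ζ in Tube z (u z) ((2 ^ j)⁻¹) a, G ζ) ≤
      ENNReal.ofReal (8 * (a + 2) * (2 * 3 ^ (M - 1) * (4 * A') ^ (M - 1))) *
        (ENNReal.ofReal (Real.pi * Q * ((Q ^ (M - 1))⁻¹) ^ 2) * volume J) ^ (1 / 2 : ℝ) *
        (CM 2 * CM 2 * ∫⁻ z, G z ^ (2 : ℝ)) ^ (1 / 2 : ℝ) := by
  obtain ⟨m, rfl⟩ : ∃ m, M = m + 1 := ⟨M - 1, by omega⟩
  have hm : 1 ≤ m := by omega
  rw [Nat.add_sub_cancel]
  set F := MV (MS s G) with hF
  have hFm : Measurable F := measurable_MV (measurable_MS s hG)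
  have hind : ∀ j ∈ Finset.range n, Measurable fun z =>
      (D j).indicator (fun z => ENNReal.ofReal (((|u z - s| / 2 ^ j) ^ m)⁻¹)) z *
        (ENNReal.ofReal (8 * (a + 2)) * F z) := by
    intro j hj
    refine Measurable.mul (Measurable.indicator ?_ (hP j (Finset.mem_range.1 hj)))
      (hFm.const_mul _)
    fun_prop
  have h1 : ∀ j ∈ Finset.range n, ∫⁻ z in D j,
      ENNReal.ofReal (((|u z - s| / 2 ^ j) ^ (m + 1))⁻¹) *
        (ENNReal.ofReal (2 ^ j) * ∫⁻ ζ in Tube z (u z) ((2 ^ j)⁻¹) a, G ζ) ≤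
      ∫⁻ z, (D j).indicator
        (fun z => ENNReal.ofReal (((|u z - s| / 2 ^ j) ^ m)⁻¹)) z *
          (ENNReal.ofReal (8 * (a + 2)) * F z) := by
    intro j hj
    have hjn := Finset.mem_range.1 hj
    rw [← lintegral_indicator (hP j hjn)]
    refine lintegral_mono fun z => ?_
    by_cases hz : z ∈ D j
    · simp only [indicator_of_mem hz]
      have h2j : (0 : ℝ) < 2 ^ j := by positivity
      have b1 := ht j hjn z hz
      set t := |u z - s| / 2 ^ j with htt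
      have ht0 : 0 < t := by linarith
      have b3 : |u z - s| * (2 ^ j)⁻¹ = t := by rw [htt, div_eq_mul_inv]
      have b4 : a + |u z - s| * (2 ^ j)⁻¹ < a + 2 * t := by linarith
      have b5 := lintegral_tube_le hG z (v := u z) (s := s) (l := (2 ^ j)⁻¹) (a := a)
        (w := a + 2 * t) (by positivity) ha b4
      calc ENNReal.ofReal ((t ^ (m + 1))⁻¹) *
            (ENNReal.ofReal (2 ^ j) * ∫⁻ ζ in Tube z (u z) ((2 ^ j)⁻¹) a, G ζ)
          ≤ ENNReal.ofReal ((t ^ (m + 1))⁻¹) * (ENNReal.ofReal (2 ^ j) *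
            (ENNReal.ofReal (4 * (2 ^ j)⁻¹) * ENNReal.ofReal (2 * (a + 2 * t)) * F z)) := by
            gcongr
        _ = ENNReal.ofReal ((t ^ (m + 1))⁻¹ * 2 ^ j * (4 * (2 ^ j)⁻¹) * (2 * (a + 2 * t))) *
            F z := by
            rw [ENNReal.ofReal_mul (p := (t ^ (m + 1))⁻¹ * 2 ^ j * (4 * (2 ^ j)⁻¹)) (by positivity),
              ENNReal.ofReal_mul (p := (t ^ (m + 1))⁻¹ * 2 ^ j) (by positivity),
              ENNReal.ofReal_mul (p := (t ^ (m + 1))⁻¹) (by positivity)]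
            simp only [mul_assoc]
        _ ≤ ENNReal.ofReal ((t ^ m)⁻¹ * (8 * (a + 2))) * F z := by
            refine mul_le_mul_left (ENNReal.ofReal_le_ofReal ?_) _
            have e1 : (t ^ (m + 1))⁻¹ * 2 ^ j * (4 * (2 ^ j)⁻¹) * (2 * (a + 2 * t)) =
                (t ^ m)⁻¹ * (8 * ((a + 2 * t) / t)) := by
              rw [show t ^ (m + 1) = t ^ m * t from pow_succ t m]
              field_simp
              ring
            rw [e1]
            have e2 : (a + 2 * t) / t ≤ a + 2 := by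
              rw [div_le_iff₀ ht0]
              nlinarith
            gcongr
        _ = _ := by
            rw [ENNReal.ofReal_mul (by positivity), mul_assoc]
    · simp only [indicator_of_notMem hz, zero_mul, le_refl]
  refine (Finset.sum_le_sum h1).trans ?_
  rw [← lintegral_finsetSum' _ fun j hj => (hind j hj).aemeasurable]
  calc ∫⁻ z, ∑ j ∈ Finset.range n, (D j).indicator
        (fun z => ENNReal.ofReal (((|u z - s| / 2 ^ j) ^ m)⁻¹)) z *
          (ENNReal.ofReal (8 * (a + 2)) * F z)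
      ≤ ∫⁻ z, ENNReal.ofReal (8 * (a + 2) * (2 * 3 ^ m * (4 * A') ^ m)) *
          (wt Q m J b s * F) z := by
        refine lintegral_mono fun z => ?_
        have h3 := sum_le_wt_beta n s u D J b hA' hQ ht hloc hm z
        rw [← Finset.sum_mul]
        calc _ ≤ (ENNReal.ofReal (2 * 3 ^ m * (4 * A') ^ m) * wt Q m J b s z) *
              (ENNReal.ofReal (8 * (a + 2)) * F z) := by gcongr
          _ = _ := by
              rw [ENNReal.ofReal_mul (p := 8 * (a + 2)) (by positivity), Pi.mul_apply]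
              simp only [mul_assoc, mul_left_comm, mul_comm]
    _ = ENNReal.ofReal (8 * (a + 2) * (2 * 3 ^ m * (4 * A') ^ m)) *
          ∫⁻ z, (wt Q m J b s * F) z := lintegral_const_mul' _ _ ENNReal.ofReal_ne_top
    _ ≤ ENNReal.ofReal (8 * (a + 2) * (2 * 3 ^ m * (4 * A') ^ m)) *
          ((∫⁻ z, wt Q m J b s z ^ (2 : ℝ)) ^ (1 / 2 : ℝ) *
            (∫⁻ z, F z ^ (2 : ℝ)) ^ (1 / 2 : ℝ)) := by
        gcongr
        exact ENNReal.lintegral_mul_le_Lp_mul_Lq volume Real.HolderConjugate.two_two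
          (measurable_wt Q m hJ b s).aemeasurable hFm.aemeasurable
    _ ≤ _ := by
        rw [← mul_assoc]
        gcongr
        · exact lintegral_wt_sq (by linarith) hm hJ b s
        · exact strong_MVS one_lt_two s hG

end Beta

end Vale.Agent.P112.H526
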