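import Vale.Agent.P112.H526.T4c
import Vale.Agent.P112.T.Defs

/-!
# P112, T4(ii): the sum over the other trees of a forest
-/

open MeasureTheory Set Metric
open scoped ENNReal NNReal Topology

namespace Vale.Agent.P112.H526

open Vale.Agent.P112.HL

/-- **T4(ii)** with the weight `|u z - s|` and tubes of length `L / 2 ^ j`. -/
theorem t4ii_gen (n : ℕ) (s : ℝ) (u : ℝ × ℝ → ℝ) (D : ℕ → Set (ℝ × ℝ)) {A' a L Q : ℝ} (J : Set ℝ)
    (b : ℝ) (hum : Measurable u) (hP : ∀ j < n, MeasurableSet (D j))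
    (hA' : 1 ≤ A') (ha : 0 ≤ a) (hL : 0 < L) (hQ : 1 ≤ Q)
    (ht : ∀ j < n, ∀ z ∈ D j, Q ≤ |u z - s| / 2 ^ j) (hJ : MeasurableSet J)
    (hloc : ∀ j < n, ∀ z ∈ D j, z.1 ∈ J ∧
      |z.2 - (b + s * z.1)| ≤ A' * (1 + |u z - s| / 2 ^ j))
    {m : ℕ} (hm : 1 ≤ m) {G : ℝ × ℝ → ℝ≥0∞} (hG : Measurable G) :
    ∑ j ∈ Finset.range n, ∫⁻ z in D j, ENNReal.ofReal (((|u z - s| / 2 ^ j) ^ (m + 1))⁻¹) *
        (ENNReal.ofReal (2 ^ j) * ∫⁻ ζ in Tube z (u z) (L / 2 ^ j) a, G ζ) ≤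
      ENNReal.ofReal (8 * L * (a + L + 1) * (2 * 3 ^ m * (4 * A') ^ m)) *
        (ENNReal.ofReal (Real.pi * Q * ((Q ^ m)⁻¹) ^ 2) * volume J) ^ (1 / 2 : ℝ) *
        (CM 2 * CM 2 * ∫⁻ z, G z ^ (2 : ℝ)) ^ (1 / 2 : ℝ) := by
  set F := MV (MS s G) with hF
  have hFm : Measurable F := measurable_MV (measurable_MS s hG)
  have hind : ∀ j ∈ Finset.range n, Measurable fun z =>
      (D j).indicator (fun z => ENNReal.ofReal (((|u z - s| / 2 ^ j) ^ m)⁻¹)) z *
        (ENNReal.ofReal (8 * L * (a + L + 1)) * F z) := by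
    intro j hj
    refine Measurable.mul (Measurable.indicator ?_ (hP j (Finset.mem_range.1 hj)))
      (hFm.const_mul _)
    fun_prop
  have h1 : ∀ j ∈ Finset.range n, ∫⁻ z in D j,
      ENNReal.ofReal (((|u z - s| / 2 ^ j) ^ (m + 1))⁻¹) *
        (ENNReal.ofReal (2 ^ j) * ∫⁻ ζ in Tube z (u z) (L / 2 ^ j) a, G ζ) ≤
      ∫⁻ z, (D j).indicator
        (fun z => ENNReal.ofReal (((|u z - s| / 2 ^ j) ^ m)⁻¹)) z *
          (ENNReal.ofReal (8 * L * (a + L + 1)) * F z) := by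
    intro j hj
    have hjn := Finset.mem_range.1 hj
    rw [← lintegral_indicator (hP j hjn)]
    refine lintegral_mono fun z => ?_
    by_cases hz : z ∈ D j
    · simp only [indicator_of_mem hz]
      have h2j : (0 : ℝ) < 2 ^ j := by positivity
      have b1 := ht j hjn z hz
      set t := |u z - s| / 2 ^ j with htt
      have ht0 : 0 < t := by linarith
      have b3 : |u z - s| * (L / 2 ^ j) = L * t := by rw [htt]; ring
      have b4 : a + |u z - s| * (L / 2 ^ j) < a + (L + 1) * t := by rw [b3]; linarith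
      have b5 := lintegral_tube_le hG z (v := u z) (s := s) (l := L / 2 ^ j) (a := a)
        (w := a + (L + 1) * t) (by positivity) ha b4
      calc ENNReal.ofReal ((t ^ (m + 1))⁻¹) *
            (ENNReal.ofReal (2 ^ j) * ∫⁻ ζ in Tube z (u z) (L / 2 ^ j) a, G ζ)
          ≤ ENNReal.ofReal ((t ^ (m + 1))⁻¹) * (ENNReal.ofReal (2 ^ j) *
            (ENNReal.ofReal (4 * (L / 2 ^ j)) * ENNReal.ofReal (2 * (a + (L + 1) * t)) * F z)) := by
            gcongr
        _ = ENNReal.ofReal ((t ^ (m + 1))⁻¹ * 2 ^ j * (4 * (L / 2 ^ j)) *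
            (2 * (a + (L + 1) * t))) * F z := by
            rw [ENNReal.ofReal_mul (p := (t ^ (m + 1))⁻¹ * 2 ^ j * (4 * (L / 2 ^ j)))
                (by positivity),
              ENNReal.ofReal_mul (p := (t ^ (m + 1))⁻¹ * 2 ^ j) (by positivity),
              ENNReal.ofReal_mul (p := (t ^ (m + 1))⁻¹) (by positivity)]
            simp only [mul_assoc]
        _ ≤ ENNReal.ofReal ((t ^ m)⁻¹ * (8 * L * (a + L + 1))) * F z := by
            refine mul_le_mul_left (ENNReal.ofReal_le_ofReal ?_) _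
            have e1 : (t ^ (m + 1))⁻¹ * 2 ^ j * (4 * (L / 2 ^ j)) * (2 * (a + (L + 1) * t)) =
                (t ^ m)⁻¹ * (8 * L * ((a + (L + 1) * t) / t)) := by
              rw [show t ^ (m + 1) = t ^ m * t from pow_succ t m]
              field_simp
              ring
            rw [e1]
            have e2 : (a + (L + 1) * t) / t ≤ a + L + 1 := by
              rw [div_le_iff₀ ht0]
              nlinarith
            gcongr
        _ = _ := by
            rw [ENNReal.ofReal_mul (by positivity), mul_assoc]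
    · simp only [indicator_of_notMem hz, zero_mul, le_refl]
  refine (Finset.sum_le_sum h1).trans ?_
  rw [← lintegral_finsetSum' _ fun j hj => (hind j hj).aemeasurable]
  calc ∫⁻ z, ∑ j ∈ Finset.range n, (D j).indicator
        (fun z => ENNReal.ofReal (((|u z - s| / 2 ^ j) ^ m)⁻¹)) z *
          (ENNReal.ofReal (8 * L * (a + L + 1)) * F z)
      ≤ ∫⁻ z, ENNReal.ofReal (8 * L * (a + L + 1) * (2 * 3 ^ m * (4 * A') ^ m)) *
          (wt Q m J b s * F) z := by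
        refine lintegral_mono fun z => ?_
        have h3 := sum_le_wt_beta n s u D J b hA' hQ ht hloc hm z
        rw [← Finset.sum_mul]
        calc _ ≤ (ENNReal.ofReal (2 * 3 ^ m * (4 * A') ^ m) * wt Q m J b s z) *
              (ENNReal.ofReal (8 * L * (a + L + 1)) * F z) := by gcongr
          _ = _ := by
              rw [ENNReal.ofReal_mul (p := 8 * L * (a + L + 1)) (by positivity), Pi.mul_apply]
              simp only [mul_assoc, mul_left_comm, mul_comm]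
    _ = ENNReal.ofReal (8 * L * (a + L + 1) * (2 * 3 ^ m * (4 * A') ^ m)) *
          ∫⁻ z, (wt Q m J b s * F) z := lintegral_const_mul' _ _ ENNReal.ofReal_ne_top
    _ ≤ ENNReal.ofReal (8 * L * (a + L + 1) * (2 * 3 ^ m * (4 * A') ^ m)) *
          ((∫⁻ z, wt Q m J b s z ^ (2 : ℝ)) ^ (1 / 2 : ℝ) *
            (∫⁻ z, F z ^ (2 : ℝ)) ^ (1 / 2 : ℝ)) := by
        gcongr
        exact ENNReal.lintegral_mul_le_Lp_mul_Lq volume Real.HolderConjugate.two_two
          (measurable_wt Q m hJ b s).aemeasurable hFm.aemeasurable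
    _ ≤ _ := by
        rw [← mul_assoc]
        gcongr
        · exact lintegral_wt_sq (by linarith) hm hJ b s
        · exact strong_MVS one_lt_two s hG

open Vale.Agent.P112.T

/-- The tube of `z` of level `j` meets the top tube. -/
def Meets (u : ℝ × ℝ → ℝ) (S : Set (ℝ × ℝ)) (j : ℕ) (z : ℝ × ℝ) : Prop :=
  ∃ ζ ∈ S, |ζ.1 - z.1| ≤ 1 / (8 * 2 ^ j) ∧ |ζ.2 - z.2 - (ζ.1 - z.1) * u z| ≤ 1

/-- Geometry: where a point is whose tube meets a top tube. -/
lemma meets_loc {u : ℝ × ℝ → ℝ} {τ : ℝ} {lev : ℕ} {m : ℤ} {s c B : ℝ} (hB : 0 ≤ B) {j : ℕ}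
    (hlev : lev ≤ j) {z : ℝ × ℝ} (h : Meets u (Top τ lev m s c B) j z) :
    z.1 ∈ Icc (τ + (m - 1) / 2 ^ lev) (τ + (m + 2) / 2 ^ lev) ∧
      |z.2 - (c + s * z.1)| ≤ (B + 1) * (1 + |u z - s| / 2 ^ j) := by
  obtain ⟨ζ, ⟨hq, hl⟩, hx, hy⟩ := h
  have h2 : (0 : ℝ) < 2 ^ lev := by positivity
  have h2j : (0 : ℝ) < 2 ^ j := by positivity
  have hle : (2 : ℝ) ^ lev ≤ 2 ^ j := pow_le_pow_right₀ (by norm_num) hlev
  have hq' := Int.floor_eq_iff.1 hq
  have h3 : (m : ℝ) / 2 ^ lev ≤ ζ.1 - τ := by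
    rw [div_le_iff₀ h2]; linarith [hq'.1, mul_comm ((2 : ℝ) ^ lev) (ζ.1 - τ)]
  have h4 : ζ.1 - τ ≤ (m + 1) / 2 ^ lev := by
    rw [le_div_iff₀ h2]; linarith [hq'.2, mul_comm ((2 : ℝ) ^ lev) (ζ.1 - τ)]
  have h5 : 1 / (8 * 2 ^ j) ≤ 1 / (2 : ℝ) ^ lev := by
    apply one_div_le_one_div_of_le h2
    linarith
  have h6 := abs_le.1 hx
  refine ⟨⟨?_, ?_⟩, ?_⟩
  · have : (m - 1 : ℝ) / 2 ^ lev = m / 2 ^ lev - 1 / 2 ^ lev := by ring
    linarith [h6.2]
  · have : (m + 2 : ℝ) / 2 ^ lev = (m + 1) / 2 ^ lev + 1 / 2 ^ lev := by ring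
    linarith [h6.1]
  · have e : z.2 - (c + s * z.1) = (ζ.2 - c - s * ζ.1) - (ζ.2 - z.2 - (ζ.1 - z.1) * u z) +
        -((ζ.1 - z.1) * (u z - s)) := by ring
    have h7 : |(ζ.1 - z.1) * (u z - s)| ≤ |u z - s| / 2 ^ j := by
      rw [abs_mul, div_eq_inv_mul]
      gcongr
      refine hx.trans ?_
      rw [one_div]
      apply inv_anti₀ h2j
      linarith
    have h8 : 0 ≤ |u z - s| / 2 ^ j := by positivity
    calc |z.2 - (c + s * z.1)| ≤ |(ζ.2 - c - s * ζ.1) - (ζ.2 - z.2 - (ζ.1 - z.1) * u z)| +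
          |-((ζ.1 - z.1) * (u z - s))| := by rw [e]; exact abs_add_le _ _
      _ ≤ (|ζ.2 - c - s * ζ.1| + |ζ.2 - z.2 - (ζ.1 - z.1) * u z|) +
          |(ζ.1 - z.1) * (u z - s)| := by
          rw [abs_neg]
          gcongr
          exact abs_sub _ _
      _ ≤ (B + 1) + |u z - s| / 2 ^ j := by linarith
      _ ≤ _ := by nlinarith

end Vale.Agent.P112.H526
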