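import Vale.Agent.P112.H526.T4d

/-!
# P112, T4(ii): the sum over the other trees of a forest, final forms
-/

open MeasureTheory Set Metric
open scoped ENNReal NNReal Topology

namespace Vale.Agent.P112.H526

open Vale.Agent.P112.HL Vale.Agent.P112.T

/-- The constant. -/
noncomputable def CFor (B L a : ℝ) : ℝ≥0∞ :=
  ENNReal.ofReal (8 * L * (a + L + 1) * (2 * 3 * (4 * (B + 1)))) *
    (ENNReal.ofReal (3 * Real.pi)) ^ (1 / 2 : ℝ) * (CM 2 * CM 2) ^ (1 / 2 : ℝ)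

lemma CFor_ne_top (B L a : ℝ) : CFor B L a ≠ ∞ := by
  unfold CFor
  refine ENNReal.mul_ne_top (ENNReal.mul_ne_top ENNReal.ofReal_ne_top ?_) ?_
  · exact ENNReal.rpow_ne_top_of_nonneg (by norm_num) ENNReal.ofReal_ne_top
  · exact ENNReal.rpow_ne_top_of_nonneg (by norm_num)
      (ENNReal.mul_ne_top (CM_ne_top 2) (CM_ne_top 2))

/-- **T4(ii)** for a forest, with extended nonnegative integrals. -/
theorem forest_enn {ι : Type} [Fintype ι] [DecidableEq ι] {u : ℝ × ℝ → ℝ} (hu : Field u)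
    {τ A B Q : ℝ} {n : ℕ} {s c : ι → ℝ} {lev : ι → ℕ} {m : ι → ℤ} {E : ι → ℕ → Set (ℝ × ℝ)}
    (hF : Forest u τ A B Q n s c lev m E) (hB : 0 ≤ B) (hQ : 1 ≤ Q) (i' : ι)
    (P : ι → ℕ → Set (ℝ × ℝ))
    (hP : ∀ i, i ≠ i' → ∀ j < n, ∀ z ∈ P i j, z ∈ E i j ∧ lev i' ≤ j ∧
      Meets u (Top τ (lev i') (m i') (s i') (c i') B) j z)
    {L a : ℝ} (hL : 0 < L) (ha : 0 ≤ a) {G : ℝ × ℝ → ℝ≥0∞} (hG : Measurable G) :
    ∑ j ∈ Finset.range n, ∑ i ∈ Finset.univ.erase i', ∫⁻ z in P i j,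
      ENNReal.ofReal ((2 ^ j / |u z - s i'|) ^ 2) *
        (ENNReal.ofReal (2 ^ j) * ∫⁻ ζ in Tube z (u z) (L / 2 ^ j) a, G ζ) ≤
      CFor B L a * ENNReal.ofReal (1 / √Q * √((1 / 2 : ℝ) ^ lev i')) *
        (∫⁻ z, G z ^ (2 : ℝ)) ^ (1 / 2 : ℝ) := by
  set J : Set ℝ := Icc (τ + (m i' - 1) / 2 ^ lev i') (τ + (m i' + 2) / 2 ^ lev i') with hJ
  set D : ℕ → Set (ℝ × ℝ) := fun j => {z | Q ≤ |u z - s i'| / 2 ^ j ∧ z.1 ∈ J ∧
    |z.2 - (c i' + s i' * z.1)| ≤ (B + 1) * (1 + |u z - s i'| / 2 ^ j)} with hD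
  have hum := hu.meas
  have hJm : MeasurableSet J := measurableSet_Icc
  have hDm : ∀ j, MeasurableSet (D j) := by
    intro j
    have h1 : Measurable fun z : ℝ × ℝ => |u z - s i'| / 2 ^ j := by fun_prop
    have h2 : Measurable fun z : ℝ × ℝ => |z.2 - (c i' + s i' * z.1)| := by fun_prop
    have h3 : Measurable fun z : ℝ × ℝ => (B + 1) * (1 + |u z - s i'| / 2 ^ j) := by fun_prop
    exact (measurableSet_le measurable_const h1).inter
      ((measurable_fst hJm).inter (measurableSet_le h2 h3))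
  have hPD : ∀ i, i ≠ i' → ∀ j < n, P i j ⊆ E i j ∩ D j := by
    intro i hi j hj z hz
    obtain ⟨hzE, hlev, hmeet⟩ := hP i hi j hj z hz
    refine ⟨hzE, ?_, meets_loc hB hlev hmeet⟩
    rw [le_div_iff₀ (by positivity)]
    exact hF.sep i i' hi j hj hlev z hzE hmeet
  have hstep : ∀ j ∈ Finset.range n, ∑ i ∈ Finset.univ.erase i', ∫⁻ z in P i j,
      ENNReal.ofReal ((2 ^ j / |u z - s i'|) ^ 2) *
        (ENNReal.ofReal (2 ^ j) * ∫⁻ ζ in Tube z (u z) (L / 2 ^ j) a, G ζ) ≤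
      ∫⁻ z in D j, ENNReal.ofReal (((|u z - s i'| / 2 ^ j) ^ (1 + 1))⁻¹) *
        (ENNReal.ofReal (2 ^ j) * ∫⁻ ζ in Tube z (u z) (L / 2 ^ j) a, G ζ) := by
    intro j hj
    have hjn := Finset.mem_range.1 hj
    have e : ∀ z : ℝ × ℝ, ((2 : ℝ) ^ j / |u z - s i'|) ^ 2 =
        ((|u z - s i'| / 2 ^ j) ^ (1 + 1))⁻¹ := by
      intro z
      rw [← inv_pow, inv_div]
    simp only [e]
    calc _ ≤ ∑ i ∈ Finset.univ.erase i', ∫⁻ z in E i j ∩ D j,
          ENNReal.ofReal (((|u z - s i'| / 2 ^ j) ^ (1 + 1))⁻¹) *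
          (ENNReal.ofReal (2 ^ j) * ∫⁻ ζ in Tube z (u z) (L / 2 ^ j) a, G ζ) :=
          Finset.sum_le_sum fun i hi =>
            lintegral_mono_set (hPD i (Finset.ne_of_mem_erase hi) j hjn)
      _ = ∫⁻ z in ⋃ i ∈ Finset.univ.erase i', E i j ∩ D j,
          ENNReal.ofReal (((|u z - s i'| / 2 ^ j) ^ (1 + 1))⁻¹) *
          (ENNReal.ofReal (2 ^ j) * ∫⁻ ζ in Tube z (u z) (L / 2 ^ j) a, G ζ) := by
          rw [lintegral_biUnion_finset]
          · intro i _ k _ hik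
            exact (hF.disj i k hik j).mono inter_subset_left inter_subset_left
          · intro i _
            exact (hF.meas i j).inter (hDm j)
      _ ≤ _ := by
          refine lintegral_mono_set ?_
          refine iUnion₂_subset fun i _ => inter_subset_right
  refine (Finset.sum_le_sum hstep).trans ?_
  have hmain := t4ii_gen n (s i') u D (A' := B + 1) (a := a) (L := L) (Q := Q) J (c i') hum
    (fun j _ => hDm j) (by linarith) ha hL hQ (fun j _ z hz => hz.1) hJm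
    (fun j _ z hz => hz.2) (m := 1) le_rfl hG
  refine hmain.trans (le_of_eq ?_)
  have hQ0 : 0 < Q := by linarith
  have h2 : (0 : ℝ) < 2 ^ lev i' := by positivity
  have hvol : volume J = ENNReal.ofReal (3 / 2 ^ lev i') := by
    rw [hJ, Real.volume_Icc]
    congr 1
    ring
  rw [hvol, CFor]
  have e1 : ENNReal.ofReal (Real.pi * Q * ((Q ^ 1)⁻¹) ^ 2) * ENNReal.ofReal (3 / 2 ^ lev i') =
      ENNReal.ofReal (3 * Real.pi) * ENNReal.ofReal ((1 / √Q * √((1 / 2 : ℝ) ^ lev i')) ^ 2) := by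
    rw [← ENNReal.ofReal_mul (by positivity), ← ENNReal.ofReal_mul (by positivity)]
    congr 1
    rw [mul_pow, div_pow, Real.sq_sqrt hQ0.le, Real.sq_sqrt (by positivity), one_div_pow]
    field_simp
  rw [e1, ENNReal.mul_rpow_of_nonneg _ _ (by norm_num : (0 : ℝ) ≤ 1 / 2),
    ENNReal.mul_rpow_of_nonneg _ _ (by norm_num : (0 : ℝ) ≤ 1 / 2),
    ENNReal.ofReal_rpow_of_nonneg (p := 1 / 2) (sq_nonneg (1 / √Q * √((1 / 2 : ℝ) ^ lev i')))
      (by norm_num), ← Real.sqrt_eq_rpow, Real.sqrt_sq (by positivity)]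
  simp only [pow_one]
  ring

lemma Av_eq (v B : ℝ) (j : ℕ) (G : ℝ × ℝ → ℝ) (z : ℝ × ℝ) :
    Av v B j G z = 2 ^ j * ∫ ζ in Tube z v (B / 2 ^ j) B, G ζ := by
  unfold Av Tube
  congr 3
  ext ζ
  simp only [mem_ofPred_eq]
  rw [show ζ.2 - v * ζ.1 - (z.2 - v * z.1) = ζ.2 - z.2 - v * (ζ.1 - z.1) by ring]

lemma ofReal_Av_le (v B : ℝ) (j : ℕ) {G : ℝ × ℝ → ℝ} (hG0 : ∀ z, 0 ≤ G z) (z : ℝ × ℝ) :
    ENNReal.ofReal (Av v B j G z) ≤
      ENNReal.ofReal (2 ^ j) * ∫⁻ ζ in Tube z v (B / 2 ^ j) B, ENNReal.ofReal (G ζ) := by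
  rw [Av_eq, ENNReal.ofReal_mul (by positivity)]
  gcongr
  by_cases hi : IntegrableOn G (Tube z v (B / 2 ^ j) B)
  · rw [ofReal_integral_eq_lintegral_ofReal hi (Filter.Eventually.of_forall fun z => hG0 z)]
  · rw [integral_undef hi]
    simp

lemma Av_nonneg (v B : ℝ) (j : ℕ) {G : ℝ × ℝ → ℝ} (hG0 : ∀ z, 0 ≤ G z) (z : ℝ × ℝ) :
    0 ≤ Av v B j G z := by
  rw [Av_eq]
  exact mul_nonneg (by positivity) (integral_nonneg fun _ => hG0 _)

lemma measurable_Av {u : ℝ × ℝ → ℝ} (hu : Measurable u) (B : ℝ) (j : ℕ) {G : ℝ × ℝ → ℝ}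
    (hG : Measurable G) : Measurable fun z => Av (u z) B j G z := by
  simp only [Av_eq]
  refine Measurable.const_mul ?_ _
  have h1 : ∀ z, ∫ ζ in Tube z (u z) (B / 2 ^ j) B, G ζ =
      ∫ ζ, {p : (ℝ × ℝ) × (ℝ × ℝ) | |p.2.1 - p.1.1| ≤ B / 2 ^ j ∧
        |p.2.2 - p.1.2 - u p.1 * (p.2.1 - p.1.1)| ≤ B}.indicator (fun p => G p.2) (z, ζ) := by
    intro z
    rw [← integral_indicator (measurableSet_Tube z (u z) _ _)]
    rfl
  simp only [h1]
  have hm : Measurable fun p : (ℝ × ℝ) × (ℝ × ℝ) =>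
      {p : (ℝ × ℝ) × (ℝ × ℝ) | |p.2.1 - p.1.1| ≤ B / 2 ^ j ∧
        |p.2.2 - p.1.2 - u p.1 * (p.2.1 - p.1.1)| ≤ B}.indicator (fun p => G p.2) p := by
    refine Measurable.indicator (hG.comp measurable_snd) ?_
    have a1 : Measurable fun p : (ℝ × ℝ) × (ℝ × ℝ) => |p.2.1 - p.1.1| := by fun_prop
    have a2 : Measurable fun p : (ℝ × ℝ) × (ℝ × ℝ) =>
      |p.2.2 - p.1.2 - u p.1 * (p.2.1 - p.1.1)| := by fun_prop
    exact (measurableSet_le a1 measurable_const).inter (measurableSet_le a2 measurable_const)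
  exact (StronglyMeasurable.integral_prod_right' (ν := (volume : Measure (ℝ × ℝ)))
    hm.stronglyMeasurable).measurable

/-- **T4(ii)** for a forest, real form: the points of the other trees whose tube meets the top of
the tree `i'`. -/
theorem forest_sum {B : ℝ} (hB : 0 ≤ B) {L : ℝ} (hL : 0 < L) : ∃ C : ℝ, 0 < C ∧
    ∀ (ι : Type) [Fintype ι] [DecidableEq ι] (u : ℝ × ℝ → ℝ), Field u →
    ∀ (τ A Q : ℝ) (n : ℕ) (s c : ι → ℝ) (lev : ι → ℕ) (m : ι → ℤ) (E : ι → ℕ → Set (ℝ × ℝ)),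
    Forest u τ A B Q n s c lev m E → 1 ≤ Q → ∀ (i' : ι) (P : ι → ℕ → Set (ℝ × ℝ)),
    (∀ i, i ≠ i' → ∀ j < n, ∀ z ∈ P i j, z ∈ E i j ∧ lev i' ≤ j ∧
      Meets u (Top τ (lev i') (m i') (s i') (c i') B) j z) →
    ∀ G : ℝ × ℝ → ℝ, Measurable G → (∀ z, 0 ≤ G z) → Integrable (fun z => G z ^ 2) →
    (∀ i, i ≠ i' → ∀ j < n,
      IntegrableOn (fun z => (2 ^ j / |u z - s i'|) ^ 2 * Av (u z) L j G z) (P i j)) ∧
    ∑ j ∈ Finset.range n, ∑ i ∈ Finset.univ.erase i', ∫ z in P i j,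
      (2 ^ j / |u z - s i'|) ^ 2 * Av (u z) L j G z ≤
      C / √Q * √((1 / 2 : ℝ) ^ lev i') * √(∫ z, G z ^ 2) := by
  refine ⟨(CFor B L L).toReal + 1, by positivity, ?_⟩
  intro ι _ _ u hu τ A Q n s c lev m E hF hQ i' P hP G hG hG0 hG2
  have hGm : Measurable fun z => ENNReal.ofReal (G z) := hG.ennreal_ofReal
  have hmain := forest_enn hu hF hB hQ i' P hP hL hL.le hGm
  have hum := hu.meas
  -- the right hand side
  have hnorm : (∫⁻ z, ENNReal.ofReal (G z) ^ (2 : ℝ)) ^ (1 / 2 : ℝ) =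
      ENNReal.ofReal (√(∫ z, G z ^ 2)) := by
    have h1 : ∀ z, ENNReal.ofReal (G z) ^ (2 : ℝ) = ENNReal.ofReal (G z ^ 2) := by
      intro z
      rw [ENNReal.rpow_ofNat, ENNReal.ofReal_pow (hG0 z)]
    simp only [h1]
    rw [← ofReal_integral_eq_lintegral_ofReal hG2
      (Filter.Eventually.of_forall fun z => sq_nonneg _),
      ENNReal.ofReal_rpow_of_nonneg (integral_nonneg fun z => sq_nonneg _) (by norm_num),
      Real.sqrt_eq_rpow]
  have hCn := CFor_ne_top B L L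
  set R : ℝ≥0∞ := CFor B L L * ENNReal.ofReal (1 / √Q * √((1 / 2 : ℝ) ^ lev i')) *
    (∫⁻ z, ENNReal.ofReal (G z) ^ (2 : ℝ)) ^ (1 / 2 : ℝ) with hR
  have hRtop : R ≠ ∞ := by
    rw [hR, hnorm]
    exact ENNReal.mul_ne_top (ENNReal.mul_ne_top hCn ENNReal.ofReal_ne_top) ENNReal.ofReal_ne_top
  have hpt : ∀ (j : ℕ) (z : ℝ × ℝ),
      ENNReal.ofReal ((2 ^ j / |u z - s i'|) ^ 2 * Av (u z) L j G z) ≤
      ENNReal.ofReal ((2 ^ j / |u z - s i'|) ^ 2) * (ENNReal.ofReal (2 ^ j) *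
        ∫⁻ ζ in Tube z (u z) (L / 2 ^ j) L, ENNReal.ofReal (G ζ)) := by
    intro j z
    rw [ENNReal.ofReal_mul (by positivity)]
    gcongr
    exact ofReal_Av_le (u z) L j hG0 z
  have hnn : ∀ (j : ℕ) (z : ℝ × ℝ), 0 ≤ (2 ^ j / |u z - s i'|) ^ 2 * Av (u z) L j G z :=
    fun j z => mul_nonneg (by positivity) (Av_nonneg _ _ _ hG0 _)
  have hmeas : ∀ j : ℕ, Measurable fun z =>
      (2 ^ j / |u z - s i'|) ^ 2 * Av (u z) L j G z := fun j =>
    Measurable.mul (by fun_prop) (measurable_Av hum L j hG)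
  have hle : ∀ i, i ≠ i' → ∀ j < n, ∫⁻ z in P i j,
      ENNReal.ofReal ((2 ^ j / |u z - s i'|) ^ 2 * Av (u z) L j G z) ≤ R := by
    intro i hi j hj
    refine le_trans ?_ hmain
    refine le_trans (lintegral_mono fun z => hpt j z) ?_
    refine le_trans ?_ (Finset.single_le_sum (f := fun j => ∑ i ∈ Finset.univ.erase i',
      ∫⁻ z in P i j, ENNReal.ofReal ((2 ^ j / |u z - s i'|) ^ 2) *
        (ENNReal.ofReal (2 ^ j) * ∫⁻ ζ in Tube z (u z) (L / 2 ^ j) L, ENNReal.ofReal (G ζ)))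
      (fun _ _ => zero_le) (Finset.mem_range.2 hj))
    exact Finset.single_le_sum (f := fun i => ∫⁻ z in P i j,
      ENNReal.ofReal ((2 ^ j / |u z - s i'|) ^ 2) *
        (ENNReal.ofReal (2 ^ j) * ∫⁻ ζ in Tube z (u z) (L / 2 ^ j) L, ENNReal.ofReal (G ζ)))
      (fun _ _ => zero_le) (Finset.mem_erase.2 ⟨hi, Finset.mem_univ i⟩)
  have hint : ∀ i, i ≠ i' → ∀ j < n,
      IntegrableOn (fun z => (2 ^ j / |u z - s i'|) ^ 2 * Av (u z) L j G z) (P i j) := by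
    intro i hi j hj
    refine ⟨(hmeas j).aestronglyMeasurable, ?_⟩
    rw [hasFiniteIntegral_iff_ofReal (Filter.Eventually.of_forall (hnn j))]
    exact lt_of_le_of_lt (hle i hi j hj) (lt_top_iff_ne_top.2 hRtop)
  refine ⟨hint, ?_⟩
  have hsum : ENNReal.ofReal (∑ j ∈ Finset.range n, ∑ i ∈ Finset.univ.erase i', ∫ z in P i j,
      (2 ^ j / |u z - s i'|) ^ 2 * Av (u z) L j G z) ≤ R := by
    rw [ENNReal.ofReal_sum_of_nonneg fun j _ =>
      Finset.sum_nonneg fun i _ => integral_nonneg fun z => hnn j z]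
    refine le_trans (Finset.sum_le_sum fun j hj => ?_) hmain
    rw [ENNReal.ofReal_sum_of_nonneg fun i _ => integral_nonneg fun z => hnn j z]
    refine Finset.sum_le_sum fun i hi => ?_
    rw [ofReal_integral_eq_lintegral_ofReal
      (hint i (Finset.ne_of_mem_erase hi) j (Finset.mem_range.1 hj))
      (Filter.Eventually.of_forall (hnn j))]
    exact lintegral_mono fun z => hpt j z
  have hR' : R = ENNReal.ofReal ((CFor B L L).toReal * (1 / √Q * √((1 / 2 : ℝ) ^ lev i')) *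
      √(∫ z, G z ^ 2)) := by
    rw [hR, hnorm, ENNReal.ofReal_mul
        (p := (CFor B L L).toReal * (1 / √Q * √((1 / 2 : ℝ) ^ lev i'))) (by positivity),
      ENNReal.ofReal_mul (p := (CFor B L L).toReal) (by positivity),
      ENNReal.ofReal_toReal hCn]
  rw [hR'] at hsum
  have h3 := (ENNReal.ofReal_le_ofReal_iff (by positivity)).1 hsum
  refine h3.trans ?_
  have h4 : (0 : ℝ) ≤ 1 / √Q * √((1 / 2 : ℝ) ^ lev i') * √(∫ z, G z ^ 2) := by positivity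
  calc (CFor B L L).toReal * (1 / √Q * √((1 / 2 : ℝ) ^ lev i')) * √(∫ z, G z ^ 2)
      = (CFor B L L).toReal * (1 / √Q * √((1 / 2 : ℝ) ^ lev i') * √(∫ z, G z ^ 2)) := by ring
    _ ≤ ((CFor B L L).toReal + 1) * (1 / √Q * √((1 / 2 : ℝ) ^ lev i') * √(∫ z, G z ^ 2)) := by
        gcongr
        linarith
    _ = _ := by ring

end Vale.Agent.P112.H526
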