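import Vale.Agent.P112.H526.T4e
import Vale.Agent.P112.T.DefsN

/-!
# P112, T4(ii) with the frequency parameter `N`, and the maximal functions of a tree
-/

open MeasureTheory Set Metric
open scoped ENNReal NNReal Topology

namespace Vale.Agent.P112.H526

open Vale.Agent.P112.HL

section Rho

variable (n : ℕ) (s : ℝ) (D : ℕ → Set (ℝ × ℝ)) {A' a Q : ℝ} (J : Set ℝ) (b : ℝ) (ρ : ℝ × ℝ → ℝ)

/-- The pointwise sum of the weights. -/
lemma sum_le_wt_rho (hρ0 : ∀ z, 0 ≤ ρ z) (hA' : 1 ≤ A') (hQ : 1 ≤ Q)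
    (ht : ∀ j < n, ∀ z ∈ D j, Q ≤ ρ z / 2 ^ j)
    (hloc : ∀ j < n, ∀ z ∈ D j, z.1 ∈ J ∧
      |z.2 - (b + s * z.1)| ≤ A' * (1 + ρ z / 2 ^ j))
    {m : ℕ} (hm : 1 ≤ m) (z : ℝ × ℝ) :
    ∑ j ∈ Finset.range n, (D j).indicator
        (fun z => ENNReal.ofReal (((ρ z / 2 ^ j) ^ m)⁻¹)) z ≤
      ENNReal.ofReal (2 * 3 ^ m * (4 * A') ^ m) * wt Q m J b s z := by
  classical
  set S : Finset ℕ := (Finset.range n).filter fun j => z ∈ D j with hS
  have h1 : ∀ j ∈ Finset.range n, (D j).indicator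
      (fun z => ENNReal.ofReal (((ρ z / 2 ^ j) ^ m)⁻¹)) z =
      if z ∈ D j then ENNReal.ofReal (((ρ z / 2 ^ j) ^ m)⁻¹) else 0 := by
    intro j _
    rw [indicator_apply]
  rw [Finset.sum_congr rfl h1, ← Finset.sum_filter, ← hS]
  rcases S.eq_empty_or_nonempty with h0 | ⟨j0, hj0⟩
  · rw [h0, Finset.sum_empty]
    exact zero_le
  have hSm : ∀ j ∈ S, j < n ∧ z ∈ D j := fun j hj =>
    ⟨Finset.mem_range.1 (Finset.mem_filter.1 hj).1, (Finset.mem_filter.1 hj).2⟩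
  have hzJ : z ∈ J ×ˢ (univ : Set ℝ) :=
    ⟨(hloc j0 (hSm j0 hj0).1 z (hSm j0 hj0).2).1, mem_univ _⟩
  rw [wt, indicator_of_mem hzJ]
  set off := |z.2 - (b + s * z.1)| with hoff
  have hoff0 : 0 ≤ off := abs_nonneg _
  set q := (Q + off) / (4 * A') with hq
  have hq0 : 0 < q := by positivity
  have hr0 : 0 ≤ ρ z := hρ0 z
  have hτ' : ∀ j ∈ S, Q ≤ ρ z / 2 ^ j ∧ q ≤ ρ z / 2 ^ j := by
    intro j hj
    obtain ⟨hjn, hz⟩ := hSm j hj
    have a1 := ht j hjn z hz
    have a2 := (hloc j hjn z hz).2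
    refine ⟨a1, ?_⟩
    rw [hq, div_le_iff₀ (by positivity)]
    have a7 : off ≤ A' * (1 + ρ z / 2 ^ j) := a2
    nlinarith
  have h2 := geo_sum S (fun j => ρ z / 2 ^ j) hq0 hm (r := ρ z)
    (fun j _ => by
      have : 0 ≤ ρ z / 2 ^ j := by positivity
      linarith)
    (fun j _ => by
      have : 0 ≤ ρ z / 2 ^ j := by positivity
      linarith)
    (fun j hj => (hτ' j hj).2)
  rw [← ENNReal.ofReal_sum_of_nonneg (fun j hj => by positivity),
    ← ENNReal.ofReal_mul (by positivity)]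
  refine ENNReal.ofReal_le_ofReal (h2.trans (le_of_eq ?_))
  rw [hq, div_pow, inv_div]
  ring

end Rho

lemma add_sq_le_two (a b : ℝ≥0∞) : (a + b) ^ 2 ≤ 2 * (a ^ 2 + b ^ 2) := by
  rcases eq_or_ne a ∞ with rfl | ha
  · simp
  rcases eq_or_ne b ∞ with rfl | hb
  · simp
  lift a to ℝ≥0 using ha
  lift b to ℝ≥0 using hb
  norm_cast
  have h : ((a : ℝ) + b) ^ 2 ≤ 2 * ((a : ℝ) ^ 2 + (b : ℝ) ^ 2) := by nlinarith [sq_nonneg ((a : ℝ) - b)]
  exact_mod_cast h

/-- **T4(ii)** with the weight `|u z - s|` and tubes of length `L / 2 ^ j`. -/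
theorem t4ii_rho (n : ℕ) (s : ℝ) (u : ℝ × ℝ → ℝ) (D : ℕ → Set (ℝ × ℝ)) {A' a L Q : ℝ} (J : Set ℝ)
    (b : ℝ) (ρ : ℝ × ℝ → ℝ) (hρm : Measurable ρ) (hρ : ∀ z, |u z - s| ≤ ρ z) (hP : ∀ j < n, MeasurableSet (D j))
    (hA' : 1 ≤ A') (ha : 0 ≤ a) (hL : 0 < L) (hQ : 1 ≤ Q)
    (ht : ∀ j < n, ∀ z ∈ D j, Q ≤ ρ z / 2 ^ j) (hJ : MeasurableSet J)
    (hloc : ∀ j < n, ∀ z ∈ D j, z.1 ∈ J ∧
      |z.2 - (b + s * z.1)| ≤ A' * (1 + ρ z / 2 ^ j))
    {m : ℕ} (hm : 1 ≤ m) {G : ℝ × ℝ → ℝ≥0∞} (hG : Measurable G) :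
    ∑ j ∈ Finset.range n, ∫⁻ z in D j, ENNReal.ofReal (((ρ z / 2 ^ j) ^ (m + 1))⁻¹) *
        (ENNReal.ofReal (2 ^ j) * ∫⁻ ζ in Tube z (u z) (L / 2 ^ j) a, G ζ) ≤
      ENNReal.ofReal (8 * L * (a + L + 1) * (2 * 3 ^ m * (4 * A') ^ m)) *
        (ENNReal.ofReal (Real.pi * Q * ((Q ^ m)⁻¹) ^ 2) * volume J) ^ (1 / 2 : ℝ) *
        (CM 2 * CM 2 * ∫⁻ z, G z ^ (2 : ℝ)) ^ (1 / 2 : ℝ) := by
  have hρ0 : ∀ z, 0 ≤ ρ z := fun z => (abs_nonneg _).trans (hρ z)
  set F := MV (MS s G) with hF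
  have hFm : Measurable F := measurable_MV (measurable_MS s hG)
  have hind : ∀ j ∈ Finset.range n, Measurable fun z =>
      (D j).indicator (fun z => ENNReal.ofReal (((ρ z / 2 ^ j) ^ m)⁻¹)) z *
        (ENNReal.ofReal (8 * L * (a + L + 1)) * F z) := by
    intro j hj
    refine Measurable.mul (Measurable.indicator ?_ (hP j (Finset.mem_range.1 hj)))
      (hFm.const_mul _)
    fun_prop
  have h1 : ∀ j ∈ Finset.range n, ∫⁻ z in D j,
      ENNReal.ofReal (((ρ z / 2 ^ j) ^ (m + 1))⁻¹) *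
        (ENNReal.ofReal (2 ^ j) * ∫⁻ ζ in Tube z (u z) (L / 2 ^ j) a, G ζ) ≤
      ∫⁻ z, (D j).indicator
        (fun z => ENNReal.ofReal (((ρ z / 2 ^ j) ^ m)⁻¹)) z *
          (ENNReal.ofReal (8 * L * (a + L + 1)) * F z) := by
    intro j hj
    have hjn := Finset.mem_range.1 hj
    rw [← lintegral_indicator (hP j hjn)]
    refine lintegral_mono fun z => ?_
    by_cases hz : z ∈ D j
    · simp only [indicator_of_mem hz]
      have h2j : (0 : ℝ) < 2 ^ j := by positivity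
      have b1 := ht j hjn z hz
      set t := ρ z / 2 ^ j with htt
      have ht0 : 0 < t := by linarith
      have b3 : |u z - s| * (L / 2 ^ j) ≤ L * t := by
        calc |u z - s| * (L / 2 ^ j) ≤ ρ z * (L / 2 ^ j) :=
              mul_le_mul_of_nonneg_right (hρ z) (by positivity)
          _ = L * t := by rw [htt]; ring
      have b4 : a + |u z - s| * (L / 2 ^ j) < a + (L + 1) * t := by linarith
      have b5 := lintegral_tube_le hG z (v := u z) (s := s) (l := L / 2 ^ j) (a := a)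
        (w := a + (L + 1) * t) (by positivity) ha b4
      calc ENNReal.ofReal ((t ^ (m + 1))⁻¹) *
            (ENNReal.ofReal (2 ^ j) * ∫⁻ ζ in Tube z (u z) (L / 2 ^ j) a, G ζ)
          ≤ ENNReal.ofReal ((t ^ (m + 1))⁻¹) * (ENNReal.ofReal (2 ^ j) *
            (ENNReal.ofReal (4 * (L / 2 ^ j)) * ENNReal.ofReal (2 * (a + (L + 1) * t)) * F z)) := by
            gcongr
        _ = ENNReal.ofReal ((t ^ (m + 1))⁻¹ * 2 ^ j * (4 * (L / 2 ^ j)) *
            (2 * (a + (L + 1) * t))) * F z := by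
            rw [ENNReal.ofReal_mul (p := (t ^ (m + 1))⁻¹ * 2 ^ j * (4 * (L / 2 ^ j)))
                (by positivity),
              ENNReal.ofReal_mul (p := (t ^ (m + 1))⁻¹ * 2 ^ j) (by positivity),
              ENNReal.ofReal_mul (p := (t ^ (m + 1))⁻¹) (by positivity)]
            simp only [mul_assoc]
        _ ≤ ENNReal.ofReal ((t ^ m)⁻¹ * (8 * L * (a + L + 1))) * F z := by
            refine mul_le_mul_left (ENNReal.ofReal_le_ofReal ?_) _
            have e1 : (t ^ (m + 1))⁻¹ * 2 ^ j * (4 * (L / 2 ^ j)) * (2 * (a + (L + 1) * t)) =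
                (t ^ m)⁻¹ * (8 * L * ((a + (L + 1) * t) / t)) := by
              rw [show t ^ (m + 1) = t ^ m * t from pow_succ t m]
              field_simp
              ring
            rw [e1]
            have e2 : (a + (L + 1) * t) / t ≤ a + L + 1 := by
              rw [div_le_iff₀ ht0]
              nlinarith
            gcongr
        _ = _ := by
            rw [ENNReal.ofReal_mul (by positivity), mul_assoc]
    · simp only [indicator_of_notMem hz, zero_mul, le_refl]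
  refine (Finset.sum_le_sum h1).trans ?_
  rw [← lintegral_finsetSum' _ fun j hj => (hind j hj).aemeasurable]
  calc ∫⁻ z, ∑ j ∈ Finset.range n, (D j).indicator
        (fun z => ENNReal.ofReal (((ρ z / 2 ^ j) ^ m)⁻¹)) z *
          (ENNReal.ofReal (8 * L * (a + L + 1)) * F z)
      ≤ ∫⁻ z, ENNReal.ofReal (8 * L * (a + L + 1) * (2 * 3 ^ m * (4 * A') ^ m)) *
          (wt Q m J b s * F) z := by
        refine lintegral_mono fun z => ?_
        have h3 := sum_le_wt_rho n s D J b ρ hρ0 hA' hQ ht hloc hm z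
        rw [← Finset.sum_mul]
        calc _ ≤ (ENNReal.ofReal (2 * 3 ^ m * (4 * A') ^ m) * wt Q m J b s z) *
              (ENNReal.ofReal (8 * L * (a + L + 1)) * F z) := by gcongr
          _ = _ := by
              rw [ENNReal.ofReal_mul (p := 8 * L * (a + L + 1)) (by positivity), Pi.mul_apply]
              simp only [mul_assoc, mul_left_comm, mul_comm]
    _ = ENNReal.ofReal (8 * L * (a + L + 1) * (2 * 3 ^ m * (4 * A') ^ m)) *
          ∫⁻ z, (wt Q m J b s * F) z := lintegral_const_mul' _ _ ENNReal.ofReal_ne_top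
    _ ≤ ENNReal.ofReal (8 * L * (a + L + 1) * (2 * 3 ^ m * (4 * A') ^ m)) *
          ((∫⁻ z, wt Q m J b s z ^ (2 : ℝ)) ^ (1 / 2 : ℝ) *
            (∫⁻ z, F z ^ (2 : ℝ)) ^ (1 / 2 : ℝ)) := by
        gcongr
        exact ENNReal.lintegral_mul_le_Lp_mul_Lq volume Real.HolderConjugate.two_two
          (measurable_wt Q m hJ b s).aemeasurable hFm.aemeasurable
    _ ≤ _ := by
        rw [← mul_assoc]
        gcongr
        · exact lintegral_wt_sq (by linarith) hm hJ b s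
        · exact strong_MVS one_lt_two s hG


open Vale.Agent.P112.T

/-- **T4(ii)** for a forest with the frequency parameter `N`. -/
theorem forestN_enn {ι : Type} [Fintype ι] [DecidableEq ι] {N : ℝ} (hN : 1 ≤ N) {u : ℝ × ℝ → ℝ}
    (hu : Field u) {τ A W B Q : ℝ} {n : ℕ} {s c : ι → ℝ} {lev : ι → ℕ} {m : ι → ℤ}
    {E : ι → ℕ → Set (ℝ × ℝ)} (hF : ForestN N u τ A W B Q n s c lev m E) (hB : 0 ≤ B) (hQ : 1 ≤ Q)
    (i' : ι) (P : ι → ℕ → Set (ℝ × ℝ))
    (hP : ∀ i, i ≠ i' → ∀ j < n, ∀ z ∈ P i j, z ∈ E i j ∧ lev i' ≤ j ∧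
      Meets u (Top τ (lev i') (m i') (s i') (c i') B) j z)
    {L a : ℝ} (hL : 0 < L) (ha : 0 ≤ a) {G : ℝ × ℝ → ℝ≥0∞} (hG : Measurable G) :
    ∑ j ∈ Finset.range n, ∑ i ∈ Finset.univ.erase i', ∫⁻ z in P i j,
      ENNReal.ofReal ((2 ^ j / (N * |u z - s i'|)) ^ 2) *
        (ENNReal.ofReal (2 ^ j) * ∫⁻ ζ in Tube z (u z) (L / 2 ^ j) a, G ζ) ≤
      CFor B L a * ENNReal.ofReal (1 / √Q * √((1 / 2 : ℝ) ^ lev i')) *
        (∫⁻ z, G z ^ (2 : ℝ)) ^ (1 / 2 : ℝ) := by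
  set ρ : ℝ × ℝ → ℝ := fun z => N * |u z - s i'| with hρ
  have hρ1 : ∀ z, |u z - s i'| ≤ ρ z := fun z => by
    have := abs_nonneg (u z - s i')
    simp only [hρ]
    nlinarith
  set J : Set ℝ := Icc (τ + (m i' - 1) / 2 ^ lev i') (τ + (m i' + 2) / 2 ^ lev i') with hJ
  set D : ℕ → Set (ℝ × ℝ) := fun j => {z | Q ≤ ρ z / 2 ^ j ∧ z.1 ∈ J ∧
    |z.2 - (c i' + s i' * z.1)| ≤ (B + 1) * (1 + ρ z / 2 ^ j)} with hD
  have hum := hu.meas
  have hρm : Measurable ρ := by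
    simp only [hρ]
    fun_prop
  have hJm : MeasurableSet J := measurableSet_Icc
  have hDm : ∀ j, MeasurableSet (D j) := by
    intro j
    have h1 : Measurable fun z : ℝ × ℝ => ρ z / 2 ^ j := by fun_prop
    have h2 : Measurable fun z : ℝ × ℝ => |z.2 - (c i' + s i' * z.1)| := by fun_prop
    have h3 : Measurable fun z : ℝ × ℝ => (B + 1) * (1 + ρ z / 2 ^ j) := by fun_prop
    exact (measurableSet_le measurable_const h1).inter
      ((measurable_fst hJm).inter (measurableSet_le h2 h3))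
  have hPD : ∀ i, i ≠ i' → ∀ j < n, P i j ⊆ E i j ∩ D j := by
    intro i hi j hj z hz
    obtain ⟨hzE, hlev, hmeet⟩ := hP i hi j hj z hz
    have hloc := meets_loc hB hlev hmeet
    refine ⟨hzE, ?_, hloc.1, hloc.2.trans ?_⟩
    · have h1 := hF.sep i i' hi j hj hlev z hzE hmeet
      rw [div_le_iff₀ (by linarith)] at h1
      rw [le_div_iff₀ (by positivity)]
      simp only [hρ]
      linarith
    · gcongr
      exact hρ1 z
  have hstep : ∀ j ∈ Finset.range n, ∑ i ∈ Finset.univ.erase i', ∫⁻ z in P i j,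
      ENNReal.ofReal ((2 ^ j / (N * |u z - s i'|)) ^ 2) *
        (ENNReal.ofReal (2 ^ j) * ∫⁻ ζ in Tube z (u z) (L / 2 ^ j) a, G ζ) ≤
      ∫⁻ z in D j, ENNReal.ofReal (((ρ z / 2 ^ j) ^ (1 + 1))⁻¹) *
        (ENNReal.ofReal (2 ^ j) * ∫⁻ ζ in Tube z (u z) (L / 2 ^ j) a, G ζ) := by
    intro j hj
    have hjn := Finset.mem_range.1 hj
    have e : ∀ z : ℝ × ℝ, ((2 : ℝ) ^ j / (N * |u z - s i'|)) ^ 2 =
        ((ρ z / 2 ^ j) ^ (1 + 1))⁻¹ := by
      intro z
      rw [← inv_pow, inv_div]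
    simp only [e]
    calc _ ≤ ∑ i ∈ Finset.univ.erase i', ∫⁻ z in E i j ∩ D j,
          ENNReal.ofReal (((ρ z / 2 ^ j) ^ (1 + 1))⁻¹) *
          (ENNReal.ofReal (2 ^ j) * ∫⁻ ζ in Tube z (u z) (L / 2 ^ j) a, G ζ) :=
          Finset.sum_le_sum fun i hi =>
            lintegral_mono_set (hPD i (Finset.ne_of_mem_erase hi) j hjn)
      _ = ∫⁻ z in ⋃ i ∈ Finset.univ.erase i', E i j ∩ D j,
          ENNReal.ofReal (((ρ z / 2 ^ j) ^ (1 + 1))⁻¹) *
          (ENNReal.ofReal (2 ^ j) * ∫⁻ ζ in Tube z (u z) (L / 2 ^ j) a, G ζ) := by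
          rw [lintegral_biUnion_finset]
          · intro i _ k _ hik
            exact (hF.disj i k hik j).mono inter_subset_left inter_subset_left
          · intro i _
            exact (hF.meas i j).inter (hDm j)
      _ ≤ _ := by
          refine lintegral_mono_set ?_
          refine iUnion₂_subset fun i _ => inter_subset_right
  refine (Finset.sum_le_sum hstep).trans ?_
  have hmain := t4ii_rho n (s i') u D (A' := B + 1) (a := a) (L := L) (Q := Q) J (c i') ρ hρm hρ1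
    (fun j _ => hDm j) (by linarith) ha hL hQ (fun j _ z hz => hz.1) hJm
    (fun j _ z hz => hz.2) (m := 1) le_rfl hG
  refine hmain.trans (le_of_eq ?_)
  have hQ0 : 0 < Q := by linarith
  have h2 : (0 : ℝ) < 2 ^ lev i' := by positivity
  have hvol : volume J = ENNReal.ofReal (3 / 2 ^ lev i') := by
    rw [hJ, Real.volume_Icc]
    congr 1
    ring
  rw [hvol, CFor]
  have e1 : ENNReal.ofReal (Real.pi * Q * ((Q ^ 1)⁻¹) ^ 2) * ENNReal.ofReal (3 / 2 ^ lev i') =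
      ENNReal.ofReal (3 * Real.pi) * ENNReal.ofReal ((1 / √Q * √((1 / 2 : ℝ) ^ lev i')) ^ 2) := by
    rw [← ENNReal.ofReal_mul (by positivity), ← ENNReal.ofReal_mul (by positivity)]
    congr 1
    rw [mul_pow, div_pow, Real.sq_sqrt hQ0.le, Real.sq_sqrt (by positivity), one_div_pow]
    field_simp
  rw [e1, ENNReal.mul_rpow_of_nonneg _ _ (by norm_num : (0 : ℝ) ≤ 1 / 2),
    ENNReal.mul_rpow_of_nonneg _ _ (by norm_num : (0 : ℝ) ≤ 1 / 2),
    ENNReal.ofReal_rpow_of_nonneg (p := 1 / 2) (sq_nonneg (1 / √Q * √((1 / 2 : ℝ) ^ lev i')))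
      (by norm_num), ← Real.sqrt_eq_rpow, Real.sqrt_sq (by positivity)]
  simp only [pow_one]
  ring

/-- The averages of a function over tubes and segments of slope `s` are bounded by one measurable
function with an `L²` bound. -/
theorem maxG {B : ℝ} (hB : 0 < B) : ∃ C : ℝ≥0∞, C ≠ ∞ ∧ ∀ (s : ℝ) (h : ℝ × ℝ → ℝ),
    Measurable h → ∃ G0 : ℝ × ℝ → ℝ≥0∞, Measurable G0 ∧
      (∀ j z, ENNReal.ofReal (AvL s B j (fun z => |h z|) z) ≤ G0 z) ∧
      (∀ j z, ENNReal.ofReal (Av s B j (fun z => |h z|) z) ≤ G0 z) ∧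
      ∫⁻ z, G0 z ^ 2 ≤ C * ∫⁻ z, ENNReal.ofReal (h z ^ 2) := by
  refine ⟨2 * (ENNReal.ofReal (4 * B) ^ 2 * CM 2 +
    ENNReal.ofReal (16 * B ^ 2) ^ 2 * (CM 2 * CM 2)), ?_, ?_⟩
  · refine ENNReal.mul_ne_top (by norm_num) (ENNReal.add_ne_top.2 ⟨?_, ?_⟩)
    · exact ENNReal.mul_ne_top (ENNReal.pow_ne_top ENNReal.ofReal_ne_top) (CM_ne_top 2)
    · exact ENNReal.mul_ne_top (ENNReal.pow_ne_top ENNReal.ofReal_ne_top)
        (ENNReal.mul_ne_top (CM_ne_top 2) (CM_ne_top 2))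
  intro s h hh
  set H : ℝ × ℝ → ℝ≥0∞ := fun z => ENNReal.ofReal |h z| with hH
  have hHm : Measurable H := by
    simp only [hH]
    fun_prop
  have hm1 : Measurable (MS s H) := measurable_MS s hHm
  have hm2 : Measurable (MV (MS s H)) := measurable_MV hm1
  refine ⟨fun z => ENNReal.ofReal (4 * B) * MS s H z + ENNReal.ofReal (16 * B ^ 2) *
    MV (MS s H) z, (hm1.const_mul _).add (hm2.const_mul _), ?_, ?_, ?_⟩
  · intro j z
    refine le_trans ?_ le_self_add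
    have h2j : (0 : ℝ) < 2 ^ j := by positivity
    have hr : 0 < 2 * (B / 2 ^ j) := by positivity
    have e1 := avg_le_MF (fun t => H (t, z.2 + s * (t - z.1))) (x := z.1) (c := z.1)
      (r := 2 * (B / 2 ^ j)) (Metric.mem_ball_self hr)
    rw [ENNReal.div_le_iff (by rw [Ne, ENNReal.ofReal_eq_zero]; linarith)
      ENNReal.ofReal_ne_top] at e1
    have e2 : ENNReal.ofReal (∫ x in {x : ℝ | |x - z.1| ≤ B / 2 ^ j},
        |h (x, z.2 + s * (x - z.1))|) ≤
        ∫⁻ x in Metric.ball z.1 (2 * (B / 2 ^ j)), H (x, z.2 + s * (x - z.1)) := by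
      have e3 : {x : ℝ | |x - z.1| ≤ B / 2 ^ j} ⊆ Metric.ball z.1 (2 * (B / 2 ^ j)) := by
        intro x hx
        rw [Metric.mem_ball, Real.dist_eq]
        have hx' : |x - z.1| ≤ B / 2 ^ j := hx
        linarith
      refine le_trans ?_ (lintegral_mono_set e3)
      by_cases hi : IntegrableOn (fun x => |h (x, z.2 + s * (x - z.1))|)
          {x : ℝ | |x - z.1| ≤ B / 2 ^ j}
      · rw [ofReal_integral_eq_lintegral_ofReal hi
          (Filter.Eventually.of_forall fun x => abs_nonneg _)]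
      · rw [integral_undef hi]
        simp
    unfold AvL
    rw [ENNReal.ofReal_mul (by positivity)]
    calc ENNReal.ofReal (2 ^ j) * ENNReal.ofReal (∫ x in {x : ℝ | |x - z.1| ≤ B / 2 ^ j},
          |h (x, z.2 + s * (x - z.1))|)
        ≤ ENNReal.ofReal (2 ^ j) * (MS s H z * ENNReal.ofReal (2 * (2 * (B / 2 ^ j)))) := by
          gcongr
          exact e2.trans e1
      _ = (ENNReal.ofReal (2 ^ j) * ENNReal.ofReal (2 * (2 * (B / 2 ^ j)))) * MS s H z := by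
          ring
      _ = ENNReal.ofReal (4 * B) * MS s H z := by
          rw [← ENNReal.ofReal_mul (by positivity)]
          congr 2
          field_simp
          ring
  · intro j z
    refine le_trans ?_ le_add_self
    have h2j : (0 : ℝ) < 2 ^ j := by positivity
    have e1 := ofReal_Av_le s B j (G := fun z => |h z|) (fun z => abs_nonneg _) z
    have e2 := lintegral_tube_le hHm z (v := s) (s := s) (l := B / 2 ^ j) (a := B) (w := 2 * B)
      (by positivity) hB.le (by rw [sub_self, abs_zero, zero_mul]; linarith)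
    refine e1.trans ?_
    calc ENNReal.ofReal (2 ^ j) * ∫⁻ ζ in Tube z s (B / 2 ^ j) B, ENNReal.ofReal |h ζ|
        ≤ ENNReal.ofReal (2 ^ j) * (ENNReal.ofReal (4 * (B / 2 ^ j)) *
            ENNReal.ofReal (2 * (2 * B)) * MV (MS s H) z) := by
          gcongr
      _ = (ENNReal.ofReal (2 ^ j) * ENNReal.ofReal (4 * (B / 2 ^ j)) *
            ENNReal.ofReal (2 * (2 * B))) * MV (MS s H) z := by
          ring
      _ = ENNReal.ofReal (16 * B ^ 2) * MV (MS s H) z := by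
          rw [← ENNReal.ofReal_mul (by positivity), ← ENNReal.ofReal_mul (by positivity)]
          congr 2
          field_simp
          ring
  · have e1 : ∀ z, (ENNReal.ofReal (4 * B) * MS s H z + ENNReal.ofReal (16 * B ^ 2) *
        MV (MS s H) z) ^ 2 ≤ 2 * (ENNReal.ofReal (4 * B) ^ 2 * MS s H z ^ (2 : ℝ)) +
          2 * (ENNReal.ofReal (16 * B ^ 2) ^ 2 * MV (MS s H) z ^ (2 : ℝ)) := by
      intro z
      rw [ENNReal.rpow_ofNat, ENNReal.rpow_ofNat, ← mul_pow, ← mul_pow, ← mul_add]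
      exact add_sq_le_two (ENNReal.ofReal (4 * B) * MS s H z)
        (ENNReal.ofReal (16 * B ^ 2) * MV (MS s H) z)
    have e2 : ∫⁻ z, H z ^ (2 : ℝ) = ∫⁻ z, ENNReal.ofReal (h z ^ 2) := by
      refine lintegral_congr fun z => ?_
      rw [ENNReal.rpow_ofNat, hH, ← ENNReal.ofReal_pow (abs_nonneg _), sq_abs]
    have e3 := strong_MS one_lt_two s hHm
    have e4 := strong_MVS one_lt_two s hHm
    rw [e2] at e3 e4
    refine (lintegral_mono e1).trans ?_
    rw [lintegral_add_left (by fun_prop), lintegral_const_mul _ (by fun_prop),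
      lintegral_const_mul _ (by fun_prop), lintegral_const_mul _ (by fun_prop),
      lintegral_const_mul _ (by fun_prop)]
    calc _ ≤ 2 * (ENNReal.ofReal (4 * B) ^ 2 * (CM 2 * ∫⁻ z, ENNReal.ofReal (h z ^ 2))) +
          2 * (ENNReal.ofReal (16 * B ^ 2) ^ 2 * (CM 2 * CM 2 *
            ∫⁻ z, ENNReal.ofReal (h z ^ 2))) := by gcongr
      _ = _ := by ring

end Vale.Agent.P112.H526
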