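import Vale.Agent.P112.H526.T4n

/-!
# P112, T4(ii) with the separation as a pair condition
-/

open MeasureTheory Set Metric
open scoped ENNReal NNReal Topology

namespace Vale.Agent.P112.H526

open Vale.Agent.P112.HL Vale.Agent.P112.T

/-- **T4(ii)**, free form: the separation is a hypothesis on the points of the sets `P i j`
(pair condition), the family `E i j` is only disjoint in `i` for each `j`. -/
theorem sumP_enn {ι : Type} [Fintype ι] [DecidableEq ι] {N : ℝ} (hN : 1 ≤ N) {u : ℝ × ℝ → ℝ}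
    (hum : Measurable u) {τ B Q s' c' : ℝ} {n lev' : ℕ} {m' : ℤ} {E : ι → ℕ → Set (ℝ × ℝ)}
    (hEm : ∀ i j, MeasurableSet (E i j)) (hdisj : ∀ i i', i ≠ i' → ∀ j, Disjoint (E i j) (E i' j))
    (hB : 0 ≤ B) (hQ : 1 ≤ Q) (i' : ι) (P : ι → ℕ → Set (ℝ × ℝ))
    (hP : ∀ i, i ≠ i' → ∀ j < n, ∀ z ∈ P i j, z ∈ E i j ∧ lev' ≤ j ∧ Q * 2 ^ j / N ≤ |u z - s'| ∧
      Meets u (Top τ lev' m' s' c' B) j z)
    {L a : ℝ} (hL : 0 < L) (ha : 0 ≤ a) {G : ℝ × ℝ → ℝ≥0∞} (hG : Measurable G) :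
    ∑ j ∈ Finset.range n, ∑ i ∈ Finset.univ.erase i', ∫⁻ z in P i j,
      ENNReal.ofReal ((2 ^ j / (N * |u z - s'|)) ^ 2) *
        (ENNReal.ofReal (2 ^ j) * ∫⁻ ζ in Tube z (u z) (L / 2 ^ j) a, G ζ) ≤
      CFor B L a * ENNReal.ofReal (1 / √Q * √((1 / 2 : ℝ) ^ lev')) *
        (∫⁻ z, G z ^ (2 : ℝ)) ^ (1 / 2 : ℝ) := by
  set ρ : ℝ × ℝ → ℝ := fun z => N * |u z - s'| with hρ
  have hρ1 : ∀ z, |u z - s'| ≤ ρ z := fun z => by
    have := abs_nonneg (u z - s')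
    simp only [hρ]
    nlinarith
  set J : Set ℝ := Icc (τ + (m' - 1) / 2 ^ lev') (τ + (m' + 2) / 2 ^ lev') with hJ
  set D : ℕ → Set (ℝ × ℝ) := fun j => {z | Q ≤ ρ z / 2 ^ j ∧ z.1 ∈ J ∧
    |z.2 - (c' + s' * z.1)| ≤ (B + 1) * (1 + ρ z / 2 ^ j)} with hD
  have hρm : Measurable ρ := by
    simp only [hρ]
    fun_prop
  have hJm : MeasurableSet J := measurableSet_Icc
  have hDm : ∀ j, MeasurableSet (D j) := by
    intro j
    have h1 : Measurable fun z : ℝ × ℝ => ρ z / 2 ^ j := by fun_prop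
    have h2 : Measurable fun z : ℝ × ℝ => |z.2 - (c' + s' * z.1)| := by fun_prop
    have h3 : Measurable fun z : ℝ × ℝ => (B + 1) * (1 + ρ z / 2 ^ j) := by fun_prop
    exact (measurableSet_le measurable_const h1).inter
      ((measurable_fst hJm).inter (measurableSet_le h2 h3))
  have hPD : ∀ i, i ≠ i' → ∀ j < n, P i j ⊆ E i j ∩ D j := by
    intro i hi j hj z hz
    obtain ⟨hzE, hlev, hsep, hmeet⟩ := hP i hi j hj z hz
    have hloc := meets_loc hB hlev hmeet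
    refine ⟨hzE, ?_, hloc.1, hloc.2.trans ?_⟩
    · have h1 := hsep
      rw [div_le_iff₀ (by linarith)] at h1
      rw [le_div_iff₀ (by positivity)]
      simp only [hρ]
      linarith
    · gcongr
      exact hρ1 z
  have hstep : ∀ j ∈ Finset.range n, ∑ i ∈ Finset.univ.erase i', ∫⁻ z in P i j,
      ENNReal.ofReal ((2 ^ j / (N * |u z - s'|)) ^ 2) *
        (ENNReal.ofReal (2 ^ j) * ∫⁻ ζ in Tube z (u z) (L / 2 ^ j) a, G ζ) ≤
      ∫⁻ z in D j, ENNReal.ofReal (((ρ z / 2 ^ j) ^ (1 + 1))⁻¹) *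
        (ENNReal.ofReal (2 ^ j) * ∫⁻ ζ in Tube z (u z) (L / 2 ^ j) a, G ζ) := by
    intro j hj
    have hjn := Finset.mem_range.1 hj
    have e : ∀ z : ℝ × ℝ, ((2 : ℝ) ^ j / (N * |u z - s'|)) ^ 2 =
        ((ρ z / 2 ^ j) ^ (1 + 1))⁻¹ := by
      intro z
      rw [← inv_pow, inv_div]
    simp only [e]
    calc _ ≤ ∑ i ∈ Finset.univ.erase i', ∫⁻ z in E i j ∩ D j,
          ENNReal.ofReal (((ρ z / 2 ^ j) ^ (1 + 1))⁻¹) *
          (ENNReal.ofReal (2 ^ j) * ∫⁻ ζ in Tube z (u z) (L / 2 ^ j) a, G ζ) :=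
          Finset.sum_le_sum fun i hi =>
            lintegral_mono_set (hPD i (Finset.ne_of_mem_erase hi) j hjn)
      _ = ∫⁻ z in ⋃ i ∈ Finset.univ.erase i', E i j ∩ D j,
          ENNReal.ofReal (((ρ z / 2 ^ j) ^ (1 + 1))⁻¹) *
          (ENNReal.ofReal (2 ^ j) * ∫⁻ ζ in Tube z (u z) (L / 2 ^ j) a, G ζ) := by
          rw [lintegral_biUnion_finset]
          · intro i _ k _ hik
            exact (hdisj i k hik j).mono inter_subset_left inter_subset_left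
          · intro i _
            exact (hEm i j).inter (hDm j)
      _ ≤ _ := by
          refine lintegral_mono_set ?_
          refine iUnion₂_subset fun i _ => inter_subset_right
  refine (Finset.sum_le_sum hstep).trans ?_
  have hmain := t4ii_rho n s' u D (A' := B + 1) (a := a) (L := L) (Q := Q) J c' ρ hρm hρ1
    (fun j _ => hDm j) (by linarith) ha hL hQ (fun j _ z hz => hz.1) hJm
    (fun j _ z hz => hz.2) (m := 1) le_rfl hG
  refine hmain.trans (le_of_eq ?_)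
  have hQ0 : 0 < Q := by linarith
  have h2 : (0 : ℝ) < 2 ^ lev' := by positivity
  have hvol : volume J = ENNReal.ofReal (3 / 2 ^ lev') := by
    rw [hJ, Real.volume_Icc]
    congr 1
    ring
  rw [hvol, CFor]
  have e1 : ENNReal.ofReal (Real.pi * Q * ((Q ^ 1)⁻¹) ^ 2) * ENNReal.ofReal (3 / 2 ^ lev') =
      ENNReal.ofReal (3 * Real.pi) * ENNReal.ofReal ((1 / √Q * √((1 / 2 : ℝ) ^ lev')) ^ 2) := by
    rw [← ENNReal.ofReal_mul (by positivity), ← ENNReal.ofReal_mul (by positivity)]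
    congr 1
    rw [mul_pow, div_pow, Real.sq_sqrt hQ0.le, Real.sq_sqrt (by positivity), one_div_pow]
    field_simp
  rw [e1, ENNReal.mul_rpow_of_nonneg _ _ (by norm_num : (0 : ℝ) ≤ 1 / 2),
    ENNReal.mul_rpow_of_nonneg _ _ (by norm_num : (0 : ℝ) ≤ 1 / 2),
    ENNReal.ofReal_rpow_of_nonneg (p := 1 / 2) (sq_nonneg (1 / √Q * √((1 / 2 : ℝ) ^ lev')))
      (by norm_num), ← Real.sqrt_eq_rpow, Real.sqrt_sq (by positivity)]
  simp only [pow_one]
  ring

end Vale.Agent.P112.H526
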